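import Vale.Agent.P176.Grading
import Mathlib.Algebra.Module.LinearMap.End

/-!
Chevalley-Eilenberg modules over `D` attached to four matrices satisfying the relations of `gl2`,
and the two maps of their standard resolution.
-/

namespace Vale.Agent.P176

open Tab

noncomputable section

/-- Four matrices. -/
abbrev Quad (ι : Type) : Type := Fin 4 → Matrix ι ι ℚ

/-- The relations: the operator `d + sum xi E` squares to zero. -/
def IsRep {ι : Type} [Fintype ι] (E : Quad ι) : Prop :=
  ∀ u : Fin 16, (∑ a, (dC (one4 a) u : ℚ) • E a) +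
    ∑ a, ∑ b, (if u = un (one4 a) (one4 b) then (sgn (one4 a) (one4 b) : ℚ) else 0) • (E a * E b) = 0

/-- A matrix of scalars acting on a tuple of elements of `Lam`. -/
def pwFun {ι κ : Type} [Fintype κ] (M : Matrix ι κ ℚ) : (κ → Lam) →ₗ[ℚ] (ι → Lam) where
  toFun v i := ∑ k, M i k • v k
  map_add' v w := by funext i; simp [Finset.sum_add_distrib]
  map_smul' q v := by funext i; simp [Finset.smul_sum, smul_comm q]

theorem pwFun_apply {ι κ : Type} [Fintype κ] (M : Matrix ι κ ℚ) (v : κ → Lam) (i : ι) :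
    pwFun M v i = ∑ k, M i k • v k := rfl

theorem pwFun_mul {ι κ μ : Type} [Fintype κ] [Fintype μ] (M : Matrix ι κ ℚ) (N : Matrix κ μ ℚ)
    (v : μ → Lam) : pwFun (M * N) v = pwFun M (pwFun N v) := by
  funext i
  simp [pwFun_apply, Matrix.mul_apply, Finset.sum_smul, Finset.smul_sum, mul_smul]
  exact Finset.sum_comm

theorem pwFun_one {ι : Type} [Fintype ι] [DecidableEq ι] (v : ι → Lam) :
    pwFun (1 : Matrix ι ι ℚ) v = v := by
  funext i; simp [pwFun_apply, Matrix.one_apply]

theorem pwFun_add {ι κ : Type} [Fintype κ] (M N : Matrix ι κ ℚ) (v : κ → Lam) :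
    pwFun (M + N) v = pwFun M v + pwFun N v := by
  funext i; simp [pwFun_apply, add_smul, Finset.sum_add_distrib]

theorem pwFun_map {ι κ : Type} [Fintype κ] (M : Matrix ι κ ℚ) (L : Lam →ₗ[ℚ] Lam) (v : κ → Lam) :
    pwFun M (fun k => L (v k)) = fun i => L (pwFun M v i) := by
  funext i; simp [pwFun_apply, map_sum]

theorem pwFun_gr {ι κ : Type} [Fintype κ] (M : Matrix ι κ ℚ) {v : κ → Lam} {k : ℤ}
    (hv : ∀ j, v j ∈ Lam.gr k) (i : ι) : pwFun M v i ∈ Lam.gr k :=
  Submodule.sum_mem _ fun j _ => Submodule.smul_mem _ _ (hv j)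

variable {ι : Type} [Fintype ι] (E : Quad ι)

/-- The differential. -/
def dW : (ι → Lam) →ₗ[ℚ] (ι → Lam) where
  toFun v r := Lam.d (v r) + ∑ b, Lam.xi b * pwFun (E b) v r
  map_add' v w := by funext r; simp [mul_add, Finset.sum_add_distrib]; abel
  map_smul' q v := by funext r; simp [mul_smul_comm, Finset.smul_sum, smul_add]

theorem dW_apply (v : ι → Lam) (r : ι) :
    dW E v r = Lam.d (v r) + ∑ b, Lam.xi b * pwFun (E b) v r := rfl

theorem sigma_xi (b : Fin 4) : Lam.sigma (Lam.xi b) = -Lam.xi b := by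
  rw [Lam.xi, Lam.sigma_mon, (by decide +kernel : ∀ b : Fin 4, par (one4 b) = -1) b]
  simp

theorem xi_anticomm (a b : Fin 4) : Lam.xi a * Lam.xi b = -(Lam.xi b * Lam.xi a) := by
  rw [Lam.xi_comm, sigma_xi, neg_mul]

variable {E} (hE : IsRep E)

include hE

theorem rep_identity (f : Lam →ₗ[ℚ] Lam →ₗ[ℚ] Lam) (y : ι → Lam) (r : ι) :
    (∑ a, f (Lam.d (Lam.xi a)) (pwFun (E a) y r)) +
      ∑ a, ∑ b, f (Lam.xi a * Lam.xi b) (pwFun (E a) (pwFun (E b) y) r) = 0 := by
  have key : ∀ x : Lam, ∀ z : Lam, f x z = ∑ u, x u • f (Lam.mon u) z := fun x z => by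
    conv_lhs => rw [Lam.eq_sum x]
    simp
  have h : ∀ u, (∑ a, Lam.d (Lam.xi a) u • pwFun (E a) y r) +
      ∑ a, ∑ b, (Lam.xi a * Lam.xi b) u • pwFun (E a) (pwFun (E b) y) r = 0 := fun u => by
    have h2 : ∀ w : Matrix ι ι ℚ, w = 0 → pwFun w y r = 0 := fun w hw => by
      subst hw; simp [pwFun_apply]
    have h3 := h2 _ (hE u)
    simp only [pwFun_apply, Matrix.add_apply, Matrix.sum_apply, Matrix.smul_apply, add_smul,
      Finset.sum_smul, Finset.sum_add_distrib, smul_eq_mul, mul_smul] at h3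
    simp only [← pwFun_mul, Lam.xi, Lam.d, Lam.table_mon_apply, Lam.mon_mul_mon, Lam.smul_apply,
      Lam.mon_apply, mul_ite, mul_one, mul_zero]
    simp only [pwFun_apply, Finset.smul_sum]
    rw [← h3]
    congr 1
    · exact Finset.sum_comm
    · symm
      rw [Finset.sum_comm]
      refine Finset.sum_congr rfl fun a _ => ?_
      rw [Finset.sum_comm]
  calc _ = ∑ u, ((∑ a, Lam.d (Lam.xi a) u • f (Lam.mon u) (pwFun (E a) y r)) +
        ∑ a, ∑ b, (Lam.xi a * Lam.xi b) u •
          f (Lam.mon u) (pwFun (E a) (pwFun (E b) y) r)) := by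
        rw [Finset.sum_add_distrib]
        congr 1
        · rw [Finset.sum_comm]; exact Finset.sum_congr rfl fun a _ => key _ _
        · conv_rhs => rw [Finset.sum_comm]
          refine Finset.sum_congr rfl fun a _ => ?_
          conv_rhs => rw [Finset.sum_comm]
          exact Finset.sum_congr rfl fun b _ => key _ _
    _ = 0 := Finset.sum_eq_zero fun u _ => by
        have := congrArg (f (Lam.mon u)) (h u)
        simpa [map_sum] using this

theorem rep_left (y : ι → Lam) (r : ι) :
    (∑ a, Lam.d (Lam.xi a) * pwFun (E a) y r) +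
      ∑ a, ∑ b, Lam.xi a * Lam.xi b * pwFun (E a) (pwFun (E b) y) r = 0 :=
  rep_identity hE Lam.mulB y r

theorem rep_right (y : ι → Lam) (r : ι) :
    (∑ a, Lam.sigma (pwFun (E a) y r) * Lam.d (Lam.xi a)) +
      ∑ a, ∑ b, Lam.sigma (pwFun (E a) (pwFun (E b) y) r) * (Lam.xi a * Lam.xi b) = 0 :=
  rep_identity hE ((LinearMap.lcomp ℚ Lam Lam.sigma).comp Lam.mulB.flip) y r

theorem dW_sq (v : ι → Lam) : dW E (dW E v) = 0 := by
  funext r
  have h1 : ∀ b, pwFun (E b) (dW E v) r =
      Lam.d (pwFun (E b) v r) + ∑ c, Lam.xi c * pwFun (E b) (pwFun (E c) v) r := by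
    intro b
    simp only [pwFun_apply, dW_apply, smul_add, Finset.smul_sum, Finset.sum_add_distrib, map_sum,
      map_smul, Finset.mul_sum, mul_smul_comm]
    congr 1
    rw [Finset.sum_comm]
  rw [dW_apply, dW_apply, map_add, map_sum, Lam.d_d, zero_add]
  simp only [h1, mul_add, Finset.sum_add_distrib, Lam.d_mul_rule, sigma_xi, neg_mul,
    Finset.mul_sum, ← mul_assoc, Finset.sum_neg_distrib]
  have := rep_left hE v r
  rw [Pi.zero_apply]
  linear_combination (norm := abel) this

omit hE
variable (E)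

/-- Left multiplication by `Lam`. -/
def lamEnd : Lam →ₐ[ℚ] Module.End ℚ (ι → Lam) :=
  AlgHom.ofLinearMap
    { toFun := fun a =>
        { toFun := fun v r => a * v r
          map_add' := fun v w => by funext r; simp [mul_add]
          map_smul' := fun q v => by funext r; simp }
      map_add' := fun a b => LinearMap.ext fun v => funext fun r => add_mul a b (v r)
      map_smul' := fun q a => LinearMap.ext fun v => funext fun r => smul_mul_assoc q a (v r) }
    (LinearMap.ext fun v => funext fun r => one_mul (v r))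
    (fun a b => LinearMap.ext fun v => funext fun r => mul_assoc a b (v r))

theorem lamEnd_apply (a : Lam) (v : ι → Lam) (r : ι) : lamEnd a v r = a * v r := rfl

theorem dW_lam (a : Lam) (v : ι → Lam) : dW E (lamEnd a v) =
    lamEnd (Lam.d a) v + lamEnd (Lam.sigma a) (dW E v) := by
  funext r
  have h1 : ∀ b, pwFun (E b) (lamEnd a v) r = a * pwFun (E b) v r := fun b => by
    simp [pwFun_apply, lamEnd_apply, Finset.mul_sum]
  simp only [Pi.add_apply, dW_apply, lamEnd_apply, h1, Lam.d_mul_rule, mul_add, Finset.mul_sum,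
    ← mul_assoc, Lam.xi_comm _ a, add_assoc]

/-- The endomorphism action of `D`. -/
def ceHom (hE : IsRep E) : Dal →ₐ[ℚ] Module.End ℚ (ι → Lam) :=
  Dal.lift lamEnd (dW E) (LinearMap.ext fun v => dW_sq hE v)
    (fun a => LinearMap.ext fun v => dW_lam E a v)

/-- A representation, bundled. -/
structure Rep (ι : Type) [Fintype ι] where
  mat : Quad ι
  isRep : IsRep mat

omit [Fintype ι] in
theorem eta_eq (v : ι → Lam) : (fun s => v s) = v := rfl

section raw

/-- `sum_b (E_b v) xi_b`. -/
def capR : (ι → Lam) →ₗ[ℚ] (ι → Lam) where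
  toFun v r := ∑ b, pwFun (E b) v r * Lam.xi b
  map_add' v w := by funext r; simp [add_mul, Finset.sum_add_distrib]
  map_smul' q v := by funext r; simp [Finset.smul_sum]

theorem capR_apply (v : ι → Lam) (r : ι) :
    capR E v r = ∑ b, pwFun (E b) v r * Lam.xi b := rfl

theorem capR_lam (a : Lam) (v : ι → Lam) (r : ι) :
    capR E (lamEnd a v) r = a * capR E v r := by
  simp [capR_apply, pwFun_apply, lamEnd_apply, Finset.mul_sum, Finset.sum_mul, mul_assoc]

theorem capR_gr {v : ι → Lam} {k : ℤ} (hv : ∀ r, v r ∈ Lam.gr k) (r : ι) :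
    capR E v r ∈ Lam.gr (k + 1) := by
  rw [capR_apply]
  exact Submodule.sum_mem _ fun b _ => Lam.gr_mul (pwFun_gr _ hv r) (Lam.xi_gr b)

theorem pwFun_dW (b : Fin 4) (v : ι → Lam) (r : ι) : pwFun (E b) (dW E v) r =
    Lam.d (pwFun (E b) v r) + ∑ c, Lam.xi c * pwFun (E b) (pwFun (E c) v) r := by
  simp only [pwFun_apply, dW_apply, smul_add, Finset.smul_sum, Finset.sum_add_distrib, map_sum,
    map_smul, Finset.mul_sum, mul_smul_comm]
  congr 1
  rw [Finset.sum_comm]

theorem pwFun_capR (c : Fin 4) (v : ι → Lam) (r : ι) : pwFun (E c) (capR E v) r =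
    ∑ b, pwFun (E c) (pwFun (E b) v) r * Lam.xi b := by
  simp only [pwFun_apply, capR_apply, Finset.smul_sum, Finset.sum_mul, smul_mul_assoc]
  rw [Finset.sum_comm]

variable {E}

theorem capR_dW (hE : IsRep E) (v : ι → Lam) (r : ι) :
    capR E (dW E v) r = Lam.d (capR E v r) := by
  have h2 : ∀ b c (z : Lam), Lam.xi c * z * Lam.xi b = -(Lam.sigma z * (Lam.xi b * Lam.xi c)) :=
    fun b c z => by rw [Lam.xi_comm, mul_assoc, xi_anticomm, mul_neg]
  simp only [capR_apply, pwFun_dW, add_mul, Finset.sum_mul, Finset.sum_add_distrib, map_sum,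
    Lam.d_mul_rule, h2, Finset.sum_neg_distrib]
  have := rep_right hE v r
  linear_combination (norm := abel) -this

theorem dW_capR (hE : IsRep E) (v : ι → Lam) (r : ι) :
    dW E (capR E v) r = capR E (fun s => Lam.d (v s)) r := by
  have h2 : ∀ b c (z : Lam), Lam.xi c * (z * Lam.xi b) = Lam.sigma z * (Lam.xi c * Lam.xi b) :=
    fun b c z => by rw [← mul_assoc, Lam.xi_comm, mul_assoc]
  rw [dW_apply]
  simp only [pwFun_capR, capR_apply, Finset.mul_sum, h2, map_sum, Lam.d_mul_rule, pwFun_map]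
  rw [Finset.sum_add_distrib]
  have := rep_right hE v r
  linear_combination (norm := abel) this

theorem dW_eq (v : ι → Lam) (r : ι) :
    dW E v r = Lam.d (v r) + capR E (fun s => Lam.sigma (v s)) r := by
  simp only [dW_apply, capR_apply, pwFun_map, Lam.xi_comm]

theorem sigma_capR (v : ι → Lam) (r : ι) :
    Lam.sigma (capR E v r) = -capR E (fun s => Lam.sigma (v s)) r := by
  simp [capR_apply, pwFun_map, map_sum, Lam.sigma_mul, sigma_xi]

end raw

variable (M : Rep ι)

/-- The Chevalley-Eilenberg module. -/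
def CE (_M : Rep ι) : Type := ι → Lam

instance : AddCommGroup (CE M) := inferInstanceAs (AddCommGroup (ι → Lam))
instance : Module ℚ (CE M) := inferInstanceAs (Module ℚ (ι → Lam))
instance : Module.Finite ℚ (CE M) := inferInstanceAs (Module.Finite ℚ (ι → Lam))

instance : Module Dal (CE M) :=
  letI : Module Dal (ι → Lam) := Module.compHom (ι → Lam) (ceHom M.mat M.isRep).toRingHom
  inferInstanceAs (Module Dal (ι → Lam))

/-- The underlying tuple. -/
def CE.raw {M : Rep ι} : CE M ≃ₗ[ℚ] (ι → Lam) := LinearEquiv.refl ℚ (ι → Lam)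

theorem CE.ext {v w : CE M} (h : ∀ r, CE.raw v r = CE.raw w r) : v = w :=
  CE.raw.injective (funext h)

theorem CE.smul_def (z : Dal) (v : CE M) :
    CE.raw (z • v) = lamEnd z.a (CE.raw v) + lamEnd z.b (dW M.mat (CE.raw v)) := rfl

theorem CE.smul_apply (z : Dal) (v : CE M) (r : ι) :
    CE.raw (z • v) r = z.a * CE.raw v r + z.b * dW M.mat (CE.raw v) r := rfl

instance : IsScalarTower ℚ Dal (CE M) :=
  ⟨fun q z v => CE.ext M fun r => by
    rw [CE.smul_apply, map_smul (CE.raw (M := M)) q, Pi.smul_apply, CE.smul_apply]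
    simp [smul_add]⟩

/-- The projection of the standard resolution. -/
def resPi : (ι → Dal) →ₗ[Dal] CE M where
  toFun w := CE.raw.symm ((fun r => (w r).a) + capR M.mat fun s => (w s).b)
  map_add' w w' := by
    rw [← map_add]
    congr 1
    rw [show (fun s => ((w + w') s).b) = (fun s => (w s).b) + fun s => (w' s).b from rfl, map_add,
      show (fun s => ((w + w') s).a) = (fun s => (w s).a) + fun s => (w' s).a from rfl]
    abel
  map_smul' z w := by
    refine CE.ext M fun r => ?_
    rw [RingHom.id_apply, CE.smul_apply, LinearEquiv.apply_symm_apply,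
      LinearEquiv.apply_symm_apply, map_add, Pi.add_apply, Pi.add_apply, Pi.add_apply,
      dW_capR M.isRep, dW_eq]
    have e1 : (fun s => ((z • w) s).b) = lamEnd z.a (fun s => (w s).b) +
        lamEnd z.b (fun s => Lam.sigma (w s).a) + lamEnd z.b (fun s => Lam.d (w s).b) :=
      funext fun s => Dal.mul_snd z (w s)
    rw [e1, map_add, map_add, Pi.add_apply, Pi.add_apply, capR_lam, capR_lam, capR_lam,
      Pi.smul_apply, smul_eq_mul, Dal.mul_fst]
    noncomm_ring

theorem resPi_apply (w : ι → Dal) :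
    CE.raw (resPi M w) = (fun r => (w r).a) + capR M.mat fun s => (w s).b := rfl

/-- The inclusion of the kernel. -/
def resJ : CE M →ₗ[Dal] (ι → Dal) where
  toFun v r := Dal.mk (-capR M.mat (CE.raw v) r) (CE.raw v r)
  map_add' v w := by
    funext r
    simp only [map_add, Pi.add_apply]
    ext1 <;> simp [add_comm]
  map_smul' z v := by
    funext r
    rw [RingHom.id_apply, Pi.smul_apply, smul_eq_mul]
    ext1
    · rw [Dal.mk_fst, Dal.mul_fst, Dal.mk_fst, CE.smul_def, map_add, Pi.add_apply, capR_lam,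
        capR_lam, capR_dW M.isRep, map_neg]
      noncomm_ring
    · rw [Dal.mk_snd, Dal.mul_snd, Dal.mk_snd, Dal.mk_fst, CE.smul_apply, dW_eq, map_neg,
        sigma_capR]
      noncomm_ring

theorem resJ_apply (v : CE M) (r : ι) :
    resJ M v r = Dal.mk (-capR M.mat (CE.raw v) r) (CE.raw v r) := rfl

theorem resJ_injective : Function.Injective (resJ M) := fun v w h => CE.ext M fun r => by
  have := congrArg Dal.b (congrFun h r)
  rwa [resJ_apply, resJ_apply, Dal.mk_snd, Dal.mk_snd] at this

theorem resPi_resJ (v : CE M) : resPi M (resJ M v) = 0 := by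
  refine CE.ext M fun r => ?_
  rw [resPi_apply, map_zero, Pi.add_apply, Pi.zero_apply]
  simp [resJ_apply]

theorem resJ_of_resPi {w : ι → Dal} (hw : resPi M w = 0) :
    resJ M (CE.raw.symm fun s => (w s).b) = w := by
  funext r
  have h := congrFun (resPi_apply M w) r
  rw [hw, map_zero, Pi.zero_apply, Pi.add_apply] at h
  rw [resJ_apply, LinearEquiv.apply_symm_apply]
  ext1
  · rw [Dal.mk_fst]; exact (eq_neg_of_add_eq_zero_left h.symm).symm
  · rw [Dal.mk_snd]

theorem resPi_section (v : CE M) : resPi M (fun r => Dal.inl (CE.raw v r)) = v := by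
  refine CE.ext M fun r => ?_
  rw [resPi_apply, Pi.add_apply]
  simp [show (fun _ : ι => (0 : Lam)) = 0 from rfl]

end

end Vale.Agent.P176
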