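import Vale.Agent.P176.Extension
import Mathlib.Algebra.Module.Submodule.Equiv

/-!
The connecting map and the inductive step for projective dimensions over the extension.
-/

namespace Vale.Agent.P176.Twist

noncomputable section

variable {B : Type} [Ring B] [Algebra ℚ B] {T : Twist B}
variable {F K P : Type}
variable [AddCommGroup F] [Module ℚ F] [Module B F] [IsScalarTower ℚ B F]
variable [AddCommGroup K] [Module ℚ K] [Module B K] [IsScalarTower ℚ B K]
variable [AddCommGroup P] [Module ℚ P] [Module B P] [IsScalarTower ℚ B P]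
variable {j : K →ₗ[B] P} {π : P →ₗ[B] F}

theorem srcMap_surjective (hπ : Function.Surjective π) (y : T.Src F) :
    ∃ y', T.srcMap π y' = y := by
  choose g hg using hπ
  refine ⟨T.srcMk P (mv (T.H 1) (fun i => g (y.1 i))) (by
    rw [← mv_mul, ← T.H_mul, one_mul]), Subtype.ext (funext fun i => ?_)⟩
  rw [srcMap_apply]
  show π (mv (T.H 1) _ i) = _
  rw [map_mv]
  simp only [hg]
  exact congrFun y.2 i

theorem srcMap_exact (hj : Function.Injective j) (hex : Function.Exact j π) (y : T.Src P)
    (hy : T.srcMap π y = 0) : ∃ k, T.srcMap j k = y := by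
  have h : ∀ i, ∃ k, j k = y.1 i := fun i => (hex _).1 (congrFun (congrArg Subtype.val hy) i)
  choose k hk using h
  refine ⟨T.srcMk K k (funext fun i => hj ?_), Subtype.ext (funext hk)⟩
  rw [map_mv]
  simp only [hk]
  exact congrFun y.2 i

theorem tgtMap_injective (hj : Function.Injective j) : Function.Injective (T.tgtMap j) :=
  fun _ _ h => T.tgt_ext _ fun z o => hj (congrFun (congrArg (fun p : T.Tgt P => p.1 z) h) o)

theorem tgtMap_exact (hj : Function.Injective j) (hex : Function.Exact j π) (p : T.Tgt P)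
    (hp : T.tgtMap π p = 0) : ∃ k, T.tgtMap j k = p := by
  have h : ∀ z o, ∃ k, j k = p.1 z o := fun z o =>
    (hex _).1 (congrFun (congrArg (fun p : T.Tgt F => p.1 z) hp) o)
  choose k hk using h
  refine ⟨T.tgtMk K { toFun := k, map_add' := ?_, map_smul' := ?_ } (fun z o => hj ?_),
    T.tgt_ext _ fun z o => hk z o⟩
  · intro z z'; funext o; apply hj
    calc j (k (z + z') o) = p.1 z o + p.1 z' o := by
          rw [hk]; exact congrFun (map_add p.1 z z') o
      _ = j (k z o + k z' o) := by rw [map_add, hk, hk]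
  · intro q z; funext o; apply hj
    calc j (k (q • z) o) = q • p.1 z o := by
          rw [hk]; exact congrFun (map_smul p.1 q z) o
      _ = j (q • k z o) := by rw [LinearMap.map_smul_of_tower, hk]
  · show j (T.e • k z o) = j (k z o)
    rw [map_smul, hk, p.2 z o]

theorem tgtMap_surjective (hπ : Function.Surjective π) : Function.Surjective (T.tgtMap π) := by
  intro p
  obtain ⟨s, hs⟩ := (π.restrictScalars ℚ).exists_rightInverse_of_surjective
    (LinearMap.range_eq_top.2 hπ)
  have hs' : ∀ f, π (s f) = f := fun f => LinearMap.congr_fun hs f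
  refine ⟨T.tgtMk P { toFun := fun z o => T.e • s (p.1 z o), map_add' := ?_, map_smul' := ?_ }
    (fun z o => ?_), T.tgt_ext _ fun z o => ?_⟩
  · intro z z'; funext o; simp
  · intro q z; funext o; simp [smul_comm T.e q]
  · show T.e • T.e • s (p.1 z o) = T.e • s (p.1 z o)
    rw [← mul_smul, T.e_e]
  · rw [tgtMap_apply]
    show π (T.e • s (p.1 z o)) = _
    rw [map_smul, hs', p.2]

variable (hj : Function.Injective j) (hπ : Function.Surjective π) (hex : Function.Exact j π)
  (hP : T.Inj P)

include hπ in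
theorem delta_exists (hj : Function.Injective j) (hex : Function.Exact j π) (y : T.T1 F) :
    ∃ z y', T.srcMap π y' = y.1 ∧ T.tgtMap j z = T.phi P y' := by
  obtain ⟨y', hy'⟩ := srcMap_surjective hπ y.1
  obtain ⟨z, hz⟩ := tgtMap_exact hj hex (T.phi P y') (by
    rw [← phi_natural, hy', LinearMap.mem_ker.1 y.2])
  exact ⟨z, y', hy', hz⟩

/-- A representative of the value of the connecting map. -/
def deltaRep (y : T.T1 F) : T.Tgt K := (delta_exists hπ hj hex y).choose

include hj hex in
theorem delta_unique (y : T.T1 F) {z z' : T.Tgt K} {u u' : T.Src P} (hu : T.srcMap π u = y.1)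
    (hz : T.tgtMap j z = T.phi P u) (hu' : T.srcMap π u' = y.1)
    (hz' : T.tgtMap j z' = T.phi P u') : T.cls K z = T.cls K z' := by
  obtain ⟨k, hk⟩ := srcMap_exact hj hex (u - u') (by rw [map_sub, hu, hu', sub_self])
  refine (Submodule.Quotient.eq _).2 ⟨k, tgtMap_injective hj ?_⟩
  rw [← phi_natural, hk, map_sub, map_sub, hz, hz']

/-- The connecting map. -/
def delta : T.T1 F →ₗ[B] T.X K where
  toFun y := T.cls K (deltaRep hj hπ hex y)
  map_add' y y' := by
    rw [← map_add]
    obtain ⟨u, hu, hz⟩ := (delta_exists hπ hj hex y).choose_spec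
    obtain ⟨u', hu', hz'⟩ := (delta_exists hπ hj hex y').choose_spec
    obtain ⟨u'', hu'', hz''⟩ := (delta_exists hπ hj hex (y + y')).choose_spec
    refine delta_unique hj hex (y + y') hu'' hz'' (u' := u + u') ?_ ?_
    · rw [map_add, hu, hu']; rfl
    · rw [map_add, map_add]; exact congrArg₂ (· + ·) hz hz'
  map_smul' b y := by
    rw [RingHom.id_apply, ← map_smul]
    obtain ⟨u, hu, hz⟩ := (delta_exists hπ hj hex y).choose_spec
    obtain ⟨u'', hu'', hz''⟩ := (delta_exists hπ hj hex (b • y)).choose_spec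
    refine delta_unique hj hex (b • y) hu'' hz'' (u' := b • u) ?_ ?_
    · rw [map_smul, hu]; rfl
    · rw [map_smul, map_smul]; exact congrArg (b • ·) hz

include hP in
theorem delta_injective : Function.Injective (delta (T := T) hj hπ hex) := by
  intro y y' h
  have h0 : delta (T := T) hj hπ hex (y - y') = 0 := by rw [map_sub, h, sub_self]
  obtain ⟨u, hu, hz⟩ := (delta_exists hπ hj hex (y - y')).choose_spec
  obtain ⟨k, hk⟩ := (Submodule.Quotient.mk_eq_zero _).1 h0
  have hz' : T.tgtMap j (deltaRep hj hπ hex (y - y')) = T.phi P u := hz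
  rw [← hk, ← phi_natural] at hz'
  have : u = T.srcMap j k := (hP hz').symm
  refine sub_eq_zero.1 (Subtype.ext ?_)
  rw [← hu, this]
  exact Subtype.ext (funext fun i => hex.apply_apply_eq_zero (k.1 i))

theorem map_exact_left : Function.Exact (delta (T := T) hj hπ hex) (T.map j) := by
  intro x
  obtain ⟨z, rfl⟩ := Submodule.mkQ_surjective _ x
  constructor
  · intro h
    rw [map_cls] at h
    obtain ⟨u, hu⟩ := (Submodule.Quotient.mk_eq_zero _).1 h
    have hy : T.phi F (T.srcMap π u) = 0 := by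
      rw [phi_natural, hu]
      exact T.tgt_ext _ fun w o => hex.apply_apply_eq_zero (z.1 w o)
    refine ⟨⟨T.srcMap π u, hy⟩, ?_⟩
    obtain ⟨u', hu', hz'⟩ := (delta_exists hπ hj hex ⟨T.srcMap π u, hy⟩).choose_spec
    exact delta_unique hj hex ⟨T.srcMap π u, hy⟩ hu' hz' rfl hu.symm
  · rintro ⟨y, hy⟩
    rw [← hy]
    obtain ⟨u, -, hz⟩ := (delta_exists hπ hj hex y).choose_spec
    exact (Submodule.Quotient.mk_eq_zero _).2 ⟨u, hz.symm⟩

include hj hπ hex in
theorem map_exact_right : Function.Exact (T.map j) (T.map π) := by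
  intro x
  constructor
  · intro h
    obtain ⟨z, rfl⟩ := Submodule.mkQ_surjective _ x
    rw [map_cls] at h
    obtain ⟨y, hy⟩ := (Submodule.Quotient.mk_eq_zero _).1 h
    obtain ⟨u, hu⟩ := srcMap_surjective hπ y
    obtain ⟨w, hw⟩ := tgtMap_exact hj hex (z - T.phi P u) (by
      rw [map_sub, ← phi_natural, hu, hy, sub_self])
    refine ⟨T.cls K w, ?_⟩
    rw [map_cls, hw, map_sub]
    exact (sub_eq_self.2 ((Submodule.Quotient.mk_eq_zero _).2 ⟨u, rfl⟩))
  · rintro ⟨w, rfl⟩
    rw [map_comp, show π ∘ₗ j = 0 from LinearMap.ext hex.apply_apply_eq_zero, map_zero_fun]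

include hπ in
theorem map_surjective : Function.Surjective (T.map π) := by
  intro x
  obtain ⟨z, rfl⟩ := Submodule.mkQ_surjective _ x
  obtain ⟨p, rfl⟩ := tgtMap_surjective hπ z
  exact ⟨T.cls P p, rfl⟩

/-- The connecting map into the induced module. -/
def deltaInd : Res T (T.T1 F) →ₗ[T.Alg] T.Ind K :=
  T.inclX ∘ₗ T.resMap (delta hj hπ hex)

include hP in
theorem deltaInd_injective : Function.Injective (deltaInd (T := T) hj hπ hex) :=
  (T.inclX_injective).comp (delta_injective hj hπ hex hP)

theorem ind_exact_left : Function.Exact (deltaInd (T := T) hj hπ hex) (T.indMap j) := by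
  intro u
  constructor
  · intro h
    have h1 : u.1 = 0 := hj (by rw [← T.indMap_fst, h, map_zero]; rfl)
    obtain ⟨y, hy⟩ := (map_exact_left hj hπ hex u.2).1 (congrArg Prod.snd h)
    exact ⟨y, Prod.ext h1.symm hy⟩
  · rintro ⟨y, rfl⟩
    exact Prod.ext (map_zero j) ((map_exact_left hj hπ hex _).2 ⟨y, rfl⟩)

include hj hπ hex in
theorem ind_exact_right : Function.Exact (T.indMap j) (T.indMap π) := by
  intro u
  constructor
  · intro h
    obtain ⟨k, hk⟩ := (hex u.1).1 (congrArg Prod.fst h)
    obtain ⟨x, hx⟩ := (map_exact_right hj hπ hex u.2).1 (congrArg Prod.snd h)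
    exact ⟨(k, x), Prod.ext hk hx⟩
  · rintro ⟨v, rfl⟩
    exact Prod.ext (hex.apply_apply_eq_zero v.1)
      ((map_exact_right hj hπ hex _).2 ⟨v.2, rfl⟩)

include hπ in
theorem ind_surjective : Function.Surjective (T.indMap π) := by
  intro u
  obtain ⟨p, hp⟩ := hπ u.1
  obtain ⟨x, hx⟩ := map_surjective (T := T) hπ u.2
  exact ⟨(p, x), Prod.ext hp hx⟩

include hj hπ hex hP in
theorem ind_injective_of_inj (hF : T.Inj F) : Function.Injective (T.indMap j) := by
  intro u v h
  rw [← sub_eq_zero]
  obtain ⟨y, hy⟩ := (ind_exact_left hj hπ hex (u - v)).1 (by rw [map_sub, h, sub_self])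
  have : (show T.T1 F from y) = 0 := Subtype.ext (hF ((LinearMap.mem_ker.1 y.2).trans (map_zero _).symm))
  rw [← hy, show y = 0 from this, map_zero]

include hj hπ hex hP in
theorem step [Module.Projective T.Alg (T.Ind P)] (e : T.T1 F ≃ₗ[B] T.X F) {c m : ℕ}
    (hK : PdLT T.Alg (T.Ind K) c) (hc : c ≤ m) (hm : 1 ≤ m)
    (h : PdLT T.Alg (Res T (T.X F)) (m + 1)) (h' : ¬ PdLT T.Alg (Res T (T.X F)) m) :
    PdLT T.Alg (Res T F) (m + 3) ∧ ¬ PdLT T.Alg (Res T F) (m + 2) := by
  have hT : PdLT T.Alg (Res T (T.T1 F)) (m + 1) := PdLT.of_equiv (T.resEquiv e.symm) h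
  have hT' : ¬ PdLT T.Alg (Res T (T.T1 F)) m := fun g => h' (PdLT.of_equiv (T.resEquiv e) g)
  obtain ⟨hI, hI'⟩ := pd_four_term (deltaInd (T := T) hj hπ hex) (T.indMap j) (T.indMap π)
    (deltaInd_injective hj hπ hex hP) (ind_exact_left hj hπ hex) (ind_exact_right hj hπ hex)
    (ind_surjective hπ) hK hc hm hT hT'
  exact ⟨pdLT_right T.exact_incl_proj T.inclX_injective T.projRes_surjective
      (h.mono (by omega)) hI,
    fun g => hI' (pdLT_mid T.exact_incl_proj T.inclX_injective T.projRes_surjective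
      (h.mono (by omega)) g)⟩

end

end Vale.Agent.P176.Twist
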