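import Mathlib.Algebra.Algebra.Basic
import Mathlib.Algebra.Module.Submodule.RestrictScalars
import Mathlib.LinearAlgebra.Quotient.Basic
import Mathlib.LinearAlgebra.Span.Basic
import Mathlib.LinearAlgebra.Basis.VectorSpace
import Mathlib.LinearAlgebra.Matrix.FiniteDimensional
import Mathlib.Data.Matrix.Mul

/-!
A right exact functor `X` on modules over an algebra `B`, given as the cokernel of a natural map
`Phi` from a corner of a free functor to a coinduced functor.
-/

namespace Vale.Agent.P176

noncomputable section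

/-- Data describing the functor `X`. -/
structure Twist (B : Type) [Ring B] [Algebra ℚ B] where
  J : Type
  O : Type
  [fintJ : Fintype J]
  [fintO : Fintype O]
  H : B →ₗ[ℚ] Matrix J J B
  H_mul : ∀ a b : B, H (a * b) = H a * H b
  Z : Type
  [acgZ : AddCommGroup Z]
  [modZ : Module ℚ Z]
  [finZ : Module.Finite ℚ Z]
  actZ : Z →ₗ[ℚ] B →ₗ[ℚ] Z
  actZ_one : ∀ z, actZ z 1 = z
  actZ_mul : ∀ z a b, actZ z (a * b) = actZ (actZ z a) b
  e : B
  e_e : e * e = e
  row : Z →ₗ[ℚ] Matrix O J B
  row_act : ∀ z b, row (actZ z b) = row z * H b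
  e_row : ∀ z o j, e * row z o j = row z o j

attribute [instance] Twist.fintJ Twist.fintO Twist.acgZ Twist.modZ Twist.finZ

section mv

variable {B : Type} [Ring B] {F G : Type} [AddCommGroup F] [Module B F] [AddCommGroup G] [Module B G]
variable {I J K : Type} [Fintype J] [Fintype K]

/-- A matrix over `B` acting on a tuple of module elements. -/
def mv (M : Matrix I J B) (m : J → F) : I → F := fun i => ∑ j, M i j • m j

theorem mv_mul (M : Matrix I J B) (N : Matrix J K B) (m : K → F) :
    mv (M * N) m = mv M (mv N m) := by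
  funext i
  simp only [mv, Matrix.mul_apply, Finset.sum_smul, Finset.smul_sum, mul_smul]
  rw [Finset.sum_comm]

theorem mv_add (M : Matrix I J B) (m m' : J → F) : mv M (m + m') = mv M m + mv M m' := by
  funext i; simp [mv, smul_add, Finset.sum_add_distrib]

theorem mv_zero (M : Matrix I J B) : mv M (0 : J → F) = 0 := by
  funext i; simp [mv]

theorem add_mv (M M' : Matrix I J B) (m : J → F) : mv (M + M') m = mv M m + mv M' m := by
  funext i; simp [mv, add_smul, Finset.sum_add_distrib]

theorem zero_mv (m : J → F) : mv (0 : Matrix I J B) m = 0 := by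
  funext i; simp [mv]

theorem map_mv (f : F →ₗ[B] G) (M : Matrix I J B) (m : J → F) (i : I) :
    f (mv M m i) = mv M (fun j => f (m j)) i := by
  simp [mv, map_sum]

variable [Algebra ℚ B] [Module ℚ F] [IsScalarTower ℚ B F]

theorem mv_smul (M : Matrix I J B) (q : ℚ) (m : J → F) : mv M (q • m) = q • mv M m := by
  funext i; simp only [mv, Pi.smul_apply, Finset.smul_sum]
  exact Finset.sum_congr rfl fun j _ => smul_comm _ _ _

theorem smul_mv (M : Matrix I J B) (q : ℚ) (m : J → F) : mv (q • M) m = q • mv M m := by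
  funext i; simp [mv, Finset.smul_sum]

end mv

namespace Twist

variable {B : Type} [Ring B] [Algebra ℚ B] (T : Twist B)
variable (F : Type) [AddCommGroup F] [Module ℚ F] [Module B F] [IsScalarTower ℚ B F]

/-- The source of `Phi`. -/
def srcSub : Submodule ℚ (T.J → F) where
  carrier := {m | mv (T.H 1) m = m}
  add_mem' := by intro a b ha hb; simp only [Set.mem_ofPred_eq] at *; rw [mv_add, ha, hb]
  zero_mem' := mv_zero _
  smul_mem' := by intro q a ha; simp only [Set.mem_ofPred_eq] at *; rw [mv_smul, ha]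

/-- The source of `Phi`, as a type. -/
def Src : Type := ↥(T.srcSub F)

instance instGroupSrc : AddCommGroup (T.Src F) := inferInstanceAs (AddCommGroup ↥(T.srcSub F))

instance instRatSrc : Module ℚ (T.Src F) := inferInstanceAs (Module ℚ ↥(T.srcSub F))

instance instSMulSrc : SMul B (T.Src F) :=
  ⟨fun b m => ⟨mv (T.H b) m.1, by
    show mv (T.H 1) (mv (T.H b) m.1) = mv (T.H b) m.1
    rw [← mv_mul, ← T.H_mul, one_mul]⟩⟩

theorem src_smul_coe (b : B) (m : T.Src F) : (b • m).1 = mv (T.H b) m.1 := rfl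

/-- Constructor for elements of the source. -/
def srcMk (m : T.J → F) (h : mv (T.H 1) m = m) : T.Src F := ⟨m, h⟩

instance instModuleSrc : Module B (T.Src F) where
  one_smul m := Subtype.ext m.2
  mul_smul a b m := Subtype.ext (by simp [src_smul_coe, T.H_mul, mv_mul])
  smul_zero b := Subtype.ext (mv_zero _)
  smul_add b m m' := Subtype.ext (mv_add _ _ _)
  add_smul a b m := Subtype.ext (by
    show mv (T.H (a + b)) m.1 = mv (T.H a) m.1 + mv (T.H b) m.1
    rw [map_add, add_mv])
  zero_smul m := Subtype.ext (by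
    show mv (T.H 0) m.1 = 0
    rw [map_zero, zero_mv])

instance : IsScalarTower ℚ B (T.Src F) :=
  ⟨fun q b m => Subtype.ext (by
    show mv (T.H (q • b)) m.1 = q • mv (T.H b) m.1
    rw [map_smul, smul_mv])⟩

/-- The target of `Phi`. -/
def tgtSub : Submodule ℚ (T.Z →ₗ[ℚ] (T.O → F)) where
  carrier := {p | ∀ z o, T.e • p z o = p z o}
  add_mem' := by intro a b ha hb z o; simp [smul_add, ha z o, hb z o]
  zero_mem' := by intro z o; simp
  smul_mem' := by intro q a ha z o; simp [smul_comm T.e q, ha z o]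

/-- The target of `Phi`, as a type. -/
def Tgt : Type := ↥(T.tgtSub F)

instance instGroupTgt : AddCommGroup (T.Tgt F) := inferInstanceAs (AddCommGroup ↥(T.tgtSub F))

instance instRatTgt : Module ℚ (T.Tgt F) := inferInstanceAs (Module ℚ ↥(T.tgtSub F))

instance finite_Tgt [Module.Finite ℚ F] : Module.Finite ℚ (T.Tgt F) :=
  inferInstanceAs (Module.Finite ℚ ↥(T.tgtSub F))

instance instSMulTgt : SMul B (T.Tgt F) :=
  ⟨fun b p => ⟨p.1 ∘ₗ T.actZ.flip b, fun z o => p.2 (T.actZ z b) o⟩⟩

theorem tgt_smul_apply (b : B) (p : T.Tgt F) (z : T.Z) : (b • p).1 z = p.1 (T.actZ z b) := rfl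

theorem tgt_ext {p p' : T.Tgt F} (h : ∀ z o, p.1 z o = p'.1 z o) : p = p' :=
  Subtype.ext (LinearMap.ext fun z => funext (h z))

/-- Constructor for elements of the target. -/
def tgtMk (p : T.Z →ₗ[ℚ] (T.O → F)) (h : ∀ z o, T.e • p z o = p z o) : T.Tgt F := ⟨p, h⟩

@[simp] theorem tgtMk_apply (p : T.Z →ₗ[ℚ] (T.O → F)) (h : ∀ z o, T.e • p z o = p z o)
    (z : T.Z) : (T.tgtMk F p h).1 z = p z := rfl

@[simp] theorem tgt_zero (z : T.Z) : (0 : T.Tgt F).1 z = 0 := rfl

@[simp] theorem tgt_add (p p' : T.Tgt F) (z : T.Z) : (p + p').1 z = p.1 z + p'.1 z := rfl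

@[simp] theorem tgt_rat (q : ℚ) (p : T.Tgt F) (z : T.Z) : (q • p).1 z = q • p.1 z := rfl

instance instModuleTgt : Module B (T.Tgt F) where
  one_smul p := T.tgt_ext F fun z o => by simp [tgt_smul_apply, T.actZ_one]
  mul_smul a b p := T.tgt_ext F fun z o => by simp [tgt_smul_apply, T.actZ_mul]
  smul_zero b := T.tgt_ext F fun z o => by simp [tgt_smul_apply]
  smul_add b p p' := T.tgt_ext F fun z o => by simp [tgt_smul_apply]
  add_smul a b p := T.tgt_ext F fun z o => by simp [tgt_smul_apply]
  zero_smul p := T.tgt_ext F fun z o => by simp [tgt_smul_apply]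

instance : IsScalarTower ℚ B (T.Tgt F) :=
  ⟨fun q b p => T.tgt_ext F fun z o => by simp [tgt_smul_apply]⟩

/-- The natural map defining `X`. -/
def phi : T.Src F →ₗ[B] T.Tgt F where
  toFun m := ⟨{ toFun := fun z => mv (T.row z) m.1
                map_add' := fun z z' => by rw [map_add, add_mv]
                map_smul' := fun q z => by rw [map_smul, smul_mv]; rfl },
    fun z o => by simp [mv, Finset.smul_sum, ← mul_smul, T.e_row]⟩
  map_add' m m' := T.tgt_ext F fun z o => congrFun (mv_add (T.row z) m.1 m'.1) o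
  map_smul' b m := T.tgt_ext F fun z o => by
    show mv (T.row z) (mv (T.H b) m.1) o = mv (T.row (T.actZ z b)) m.1 o
    rw [T.row_act, mv_mul]

theorem phi_apply (m : T.Src F) (z : T.Z) : (T.phi F m).1 z = mv (T.row z) m.1 := rfl

/-- The functor `X`. -/
abbrev X : Type := T.Tgt F ⧸ LinearMap.range (T.phi F)

/-- The class of an element of the target. -/
abbrev cls : T.Tgt F →ₗ[B] T.X F := (LinearMap.range (T.phi F)).mkQ

example : Module ℚ (T.X F) := inferInstance
example : IsScalarTower ℚ B (T.X F) := inferInstance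

instance finite_X [Module.Finite ℚ F] : Module.Finite ℚ (T.X F) :=
  Module.Finite.quotient ℚ _

section functoriality

variable {F} {G : Type} [AddCommGroup G] [Module ℚ G] [Module B G] [IsScalarTower ℚ B G]
variable {L : Type} [AddCommGroup L] [Module ℚ L] [Module B L] [IsScalarTower ℚ B L]

/-- Functoriality of the source. -/
def srcMap (f : F →ₗ[B] G) : T.Src F →ₗ[B] T.Src G where
  toFun m := ⟨fun j => f (m.1 j), by
    show mv (T.H 1) (fun j => f (m.1 j)) = fun j => f (m.1 j)
    funext j; rw [← map_mv, m.2]⟩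
  map_add' m m' := Subtype.ext (funext fun j => map_add f _ _)
  map_smul' b m := Subtype.ext (funext fun j => map_mv f (T.H b) m.1 j)

theorem srcMap_apply (f : F →ₗ[B] G) (m : T.Src F) (j : T.J) : (T.srcMap f m).1 j = f (m.1 j) := rfl

/-- Functoriality of the target. -/
def tgtMap (f : F →ₗ[B] G) : T.Tgt F →ₗ[B] T.Tgt G where
  toFun p := ⟨{ toFun := fun z o => f (p.1 z o)
                map_add' := fun z z' => funext fun o => by simp
                map_smul' := fun q z => funext fun o => by
                  simp [LinearMap.map_smul_of_tower] },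
    fun z o => by simp [← map_smul, p.2 z o]⟩
  map_add' p p' := T.tgt_ext G fun z o => map_add f _ _
  map_smul' b p := T.tgt_ext G fun z o => rfl

theorem tgtMap_apply (f : F →ₗ[B] G) (p : T.Tgt F) (z : T.Z) (o : T.O) :
    (T.tgtMap f p).1 z o = f (p.1 z o) := rfl

theorem phi_natural (f : F →ₗ[B] G) (m : T.Src F) :
    T.phi G (T.srcMap f m) = T.tgtMap f (T.phi F m) :=
  T.tgt_ext G fun z o => by
    rw [phi_apply, tgtMap_apply, phi_apply, map_mv]; rfl

/-- Functoriality of `X`. -/
def map (f : F →ₗ[B] G) : T.X F →ₗ[B] T.X G :=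
  Submodule.mapQ _ _ (T.tgtMap f) (by
    rintro _ ⟨m, rfl⟩
    exact ⟨T.srcMap f m, T.phi_natural f m⟩)

theorem map_cls (f : F →ₗ[B] G) (p : T.Tgt F) : T.map f (T.cls F p) = T.cls G (T.tgtMap f p) := rfl

theorem map_comp (g : G →ₗ[B] L) (f : F →ₗ[B] G) (x : T.X F) :
    T.map g (T.map f x) = T.map (g ∘ₗ f) x := by
  obtain ⟨p, rfl⟩ := Submodule.mkQ_surjective _ x
  rfl

theorem map_id (x : T.X F) : T.map (LinearMap.id : F →ₗ[B] F) x = x := by
  obtain ⟨p, rfl⟩ := Submodule.mkQ_surjective _ x
  rfl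

theorem map_add_fun (f g : F →ₗ[B] G) (x : T.X F) : T.map (f + g) x = T.map f x + T.map g x := by
  obtain ⟨p, rfl⟩ := Submodule.mkQ_surjective _ x
  rw [map_cls, map_cls, map_cls, ← map_add]
  congr 1

theorem map_zero_fun (x : T.X F) : T.map (0 : F →ₗ[B] G) x = 0 := by
  obtain ⟨p, rfl⟩ := Submodule.mkQ_surjective _ x
  rw [map_cls, show T.tgtMap (0 : F →ₗ[B] G) p = 0 from T.tgt_ext G fun z o => rfl, map_zero]

theorem map_sum_fun {ι : Type} (s : Finset ι) (f : ι → (F →ₗ[B] G)) (x : T.X F) :
    T.map (∑ i ∈ s, f i) x = ∑ i ∈ s, T.map (f i) x := by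
  classical
  induction s using Finset.induction_on with
  | empty => simp [map_zero_fun]
  | insert a t h ih => rw [Finset.sum_insert h, map_add_fun, ih, Finset.sum_insert h]

end functoriality

/-- The kernel of `Phi`. -/
abbrev T1 : Type := ↥(LinearMap.ker (T.phi F))

/-- `Phi` is injective on `F`. -/
def Inj : Prop := Function.Injective (T.phi F)

theorem inj_of_sub {G : Type} [AddCommGroup G] [Module ℚ G] [Module B G] [IsScalarTower ℚ B G]
    (f : F →ₗ[B] G) (hf : Function.Injective f) (hG : T.Inj G) : T.Inj F := by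
  intro a b h
  have h2 := congrArg (T.tgtMap f) h
  rw [← phi_natural, ← phi_natural] at h2
  exact Subtype.ext (funext fun j => hf (congrFun (congrArg Subtype.val (hG h2)) j))

theorem inj_of_family {G : Type} [AddCommGroup G] [Module ℚ G] [Module B G] [IsScalarTower ℚ B G]
    {ι : Type} (f : ι → (F →ₗ[B] G)) (hf : ∀ a b, (∀ i, f i a = f i b) → a = b)
    (hG : T.Inj G) : T.Inj F := by
  intro a b h
  refine Subtype.ext (funext fun j => hf _ _ fun i => ?_)
  have h2 := congrArg (T.tgtMap (f i)) h
  rw [← phi_natural, ← phi_natural] at h2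
  exact congrFun (congrArg Subtype.val (hG h2)) j

end Twist

end

end Vale.Agent.P176
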