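import Vale.Agent.P176.Grading
import Vale.Agent.P176.Twist
import Mathlib.Algebra.Algebra.Subalgebra.Basic
import Mathlib.LinearAlgebra.Matrix.FiniteDimensional

/-!
The window algebra `B` of five by five matrices with homogeneous entries in `D`,
and the twist data on it.
-/

namespace Vale.Agent.P176

noncomputable section

/-- The homogeneity condition. -/
def winSub : Subalgebra ℚ (Matrix (Fin 5) (Fin 5) Dal) where
  carrier := {M | ∀ i j : Fin 5, M i j ∈ Dal.gr ((i : ℤ) - (j : ℤ))}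
  add_mem' := by intro M N hM hN i j; exact add_mem (hM i j) (hN i j)
  mul_mem' := by
    intro M N hM hN i j
    rw [Matrix.mul_apply]
    exact Submodule.sum_mem _ fun k _ => Dal.gr_mul_of_eq (hM i k) (hN k j) (by ring)
  algebraMap_mem' := by
    intro q i j
    rw [Matrix.algebraMap_matrix_apply]
    split_ifs with h
    · subst h
      rw [sub_self, Algebra.algebraMap_eq_smul_one]
      exact Submodule.smul_mem _ _ Dal.one_gr
    · exact zero_mem _

/-- The window algebra. -/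
abbrev Bal : Type := ↥winSub

instance : Module.Finite ℚ Bal :=
  have : Module.Finite ℚ (Matrix (Fin 5) (Fin 5) Dal) := inferInstance
  Module.Finite.of_injective winSub.val.toLinearMap Subtype.val_injective

@[ext] theorem Bal.ext' {a b : Bal} (h : ∀ i j, a.1 i j = b.1 i j) : a = b :=
  Subtype.ext (Matrix.ext h)

theorem Bal.mem (b : Bal) (i j : Fin 5) : b.1 i j ∈ Dal.gr ((i : ℤ) - (j : ℤ)) := b.2 i j

/-- A single entry, cut off outside the window. -/
def sg (i j : ℤ) (x : Dal) : Bal :=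
  open Classical in
  if h : (0 ≤ i ∧ i ≤ 4) ∧ (0 ≤ j ∧ j ≤ 4) ∧ x ∈ Dal.gr (i - j) then
    ⟨Matrix.single ⟨i.toNat, by omega⟩ ⟨j.toNat, by omega⟩ x, fun p q => by
      unfold Matrix.single
      simp only [Matrix.of_apply]
      split_ifs with hpq
      · obtain ⟨rfl, rfl⟩ := hpq
        simp only [Int.toNat_of_nonneg h.1.1, Int.toNat_of_nonneg h.2.1.1]
        exact h.2.2
      · exact zero_mem _⟩
  else 0

theorem sg_of_mem {a c : Fin 5} {x : Dal} (hx : x ∈ Dal.gr ((a : ℤ) - (c : ℤ))) :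
    (sg (a : ℤ) (c : ℤ) x).1 = Matrix.single a c x := by
  unfold sg
  rw [dif_pos ⟨⟨by omega, by omega⟩, ⟨by omega, by omega⟩, hx⟩]
  congr 1

theorem sg_out {i j : ℤ} (h : ¬(0 ≤ i ∧ i ≤ 4 ∧ 0 ≤ j ∧ j ≤ 4)) (x : Dal) : sg i j x = 0 := by
  unfold sg
  rw [dif_neg]
  rintro ⟨hi, hj, -⟩
  exact h ⟨hi.1, hi.2, hj.1, hj.2⟩

theorem fin5 {i : ℤ} (h : 0 ≤ i) (h' : i ≤ 4) : ∃ a : Fin 5, (a : ℤ) = i :=
  ⟨⟨i.toNat, by omega⟩, by simp [h]⟩

theorem sg_zero (i j : ℤ) : sg i j 0 = 0 := by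
  by_cases h : 0 ≤ i ∧ i ≤ 4 ∧ 0 ≤ j ∧ j ≤ 4
  · obtain ⟨a, rfl⟩ := fin5 h.1 h.2.1
    obtain ⟨c, rfl⟩ := fin5 h.2.2.1 h.2.2.2
    exact Subtype.ext (by rw [sg_of_mem (zero_mem _), Matrix.single_zero]; rfl)
  · exact sg_out h 0

theorem sg_add {i j : ℤ} {x y : Dal} (hx : x ∈ Dal.gr (i - j)) (hy : y ∈ Dal.gr (i - j)) :
    sg i j (x + y) = sg i j x + sg i j y := by
  by_cases h : 0 ≤ i ∧ i ≤ 4 ∧ 0 ≤ j ∧ j ≤ 4
  · obtain ⟨a, rfl⟩ := fin5 h.1 h.2.1
    obtain ⟨c, rfl⟩ := fin5 h.2.2.1 h.2.2.2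
    refine Subtype.ext ?_
    show _ = (sg _ _ x).1 + (sg _ _ y).1
    rw [sg_of_mem (add_mem hx hy), sg_of_mem hx, sg_of_mem hy, Matrix.single_add]
  · simp [sg_out h]

theorem sg_sum {ι : Type} (s : Finset ι) {i j : ℤ} (f : ι → Dal)
    (hf : ∀ k, f k ∈ Dal.gr (i - j)) : sg i j (∑ k ∈ s, f k) = ∑ k ∈ s, sg i j (f k) := by
  classical
  induction s using Finset.induction_on with
  | empty => simp [sg_zero]
  | insert a t h ih =>
    rw [Finset.sum_insert h, Finset.sum_insert h,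
      sg_add (hf a) (Submodule.sum_mem _ fun k _ => hf k), ih]

theorem sg_smul {i j : ℤ} {x : Dal} (hx : x ∈ Dal.gr (i - j)) (q : ℚ) :
    sg i j (q • x) = q • sg i j x := by
  by_cases h : 0 ≤ i ∧ i ≤ 4 ∧ 0 ≤ j ∧ j ≤ 4
  · obtain ⟨a, rfl⟩ := fin5 h.1 h.2.1
    obtain ⟨c, rfl⟩ := fin5 h.2.2.1 h.2.2.2
    refine Subtype.ext ?_
    show _ = q • (sg _ _ x).1
    rw [sg_of_mem (Submodule.smul_mem _ q hx), sg_of_mem hx, Matrix.smul_single]
  · simp [sg_out h]

theorem sg_mul {i j k : ℤ} {x y : Dal} (hx : x ∈ Dal.gr (i - j)) (hy : y ∈ Dal.gr (j - k)) :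
    sg i j x * sg j k y = sg i k (x * y) := by
  by_cases hi : 0 ≤ i ∧ i ≤ 4
  swap
  · rw [sg_out (fun h => hi ⟨h.1, h.2.1⟩), zero_mul, sg_out fun h => hi ⟨h.1, h.2.1⟩]
  by_cases hk : 0 ≤ k ∧ k ≤ 4
  swap
  · rw [sg_out (i := j) (fun h => hk h.2.2), mul_zero, sg_out fun h => hk h.2.2]
  by_cases hji : i < j
  · rw [Dal.gr_eq_bot (Or.inl (by omega)) hx, sg_zero, zero_mul, zero_mul, sg_zero]
  by_cases hkj : j < k
  · rw [Dal.gr_eq_bot (Or.inl (by omega)) hy, sg_zero, mul_zero, mul_zero, sg_zero]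
  obtain ⟨a, rfl⟩ := fin5 hi.1 hi.2
  obtain ⟨c, rfl⟩ := fin5 hk.1 hk.2
  obtain ⟨b, rfl⟩ := fin5 (i := j) (by omega) (by omega)
  refine Subtype.ext ?_
  show (sg _ _ x).1 * (sg _ _ y).1 = _
  rw [sg_of_mem hx, sg_of_mem hy, sg_of_mem (Dal.gr_mul_of_eq hx hy (by ring)),
    Matrix.single_mul_single_same]

theorem sg_mul_ne {i j j' k : ℤ} (x y : Dal) (h : j ≠ j') : sg i j x * sg j' k y = 0 := by
  unfold sg
  split_ifs with h1 h2
  · refine Subtype.ext ?_
    show Matrix.single _ _ x * Matrix.single _ _ y = 0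
    apply Matrix.single_mul_single_of_ne
    intro e
    have := congrArg Fin.val e
    simp only at this
    exact h (by omega)
  · exact mul_zero _
  · exact zero_mul _
  · exact zero_mul _

/-- The vertex of a summand of the source. -/
def vtx (x : Fin 5 × Kap) : ℤ := (x.1 : ℤ) + sh x.2

theorem twist_entry_gr (b : Bal) (x y : Fin 5 × Kap) :
    twistHom (b.1 x.1 y.1) x.2 y.2 ∈ Dal.gr (vtx x - vtx y) := by
  have h := twistHom_gr (b.mem x.1 y.1) x.2 y.2
  unfold vtx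
  rwa [show (x.1 : ℤ) + sh x.2 - ((y.1 : ℤ) + sh y.2) =
    (x.1 : ℤ) - (y.1 : ℤ) + sh x.2 - sh y.2 by ring]

/-- The matrix of the twist on the window algebra. -/
def winH : Bal →ₗ[ℚ] Matrix (Fin 5 × Kap) (Fin 5 × Kap) Bal where
  toFun b := fun x y => sg (vtx x) (vtx y) (twistHom (b.1 x.1 y.1) x.2 y.2)
  map_add' a b := by
    funext x y
    show sg _ _ (twistHom (a.1 x.1 y.1 + b.1 x.1 y.1) x.2 y.2) = _
    rw [map_add, Matrix.add_apply, sg_add (twist_entry_gr a x y) (twist_entry_gr b x y)]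
    rfl
  map_smul' q b := by
    funext x y
    show sg _ _ (twistHom (q • b.1 x.1 y.1) x.2 y.2) = _
    rw [map_smul, Matrix.smul_apply, sg_smul (twist_entry_gr b x y)]
    rfl

theorem winH_apply (b : Bal) (x y : Fin 5 × Kap) :
    winH b x y = sg (vtx x) (vtx y) (twistHom (b.1 x.1 y.1) x.2 y.2) := rfl

theorem sum_sg_twist {i : ℤ} {m : Fin 5} {c : Kap} (f : Fin 5 → Dal) (a : Kap) (b : Bal)
    (hf : ∀ l : Fin 5, ∀ e, twistHom (f l) a e ∈ Dal.gr (i - vtx (l, e))) :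
    ∑ w : Fin 5 × Kap, sg i (vtx w) (twistHom (f w.1) a w.2) * winH b w (m, c) =
      sg i (vtx (m, c)) (twistHom (∑ l, f l * b.1 l m) a c) := by
  have hg : ∀ l : Fin 5, ∀ e, twistHom (f l) a e * twistHom (b.1 l m) e c ∈
      Dal.gr (i - vtx (m, c)) := fun l e =>
    Dal.gr_mul_of_eq (hf l e) (twist_entry_gr b (l, e) (m, c)) (by ring)
  rw [map_sum, Matrix.sum_apply, sg_sum _ _ (fun l => by
    rw [map_mul, Matrix.mul_apply]; exact Submodule.sum_mem _ fun e _ => hg l e),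
    Fintype.sum_prod_type]
  refine Finset.sum_congr rfl fun l _ => ?_
  rw [map_mul, Matrix.mul_apply, sg_sum _ _ (hg l)]
  exact Finset.sum_congr rfl fun e _ =>
    sg_mul (hf l e) (twist_entry_gr b (l, e) (m, c))

theorem winH_mul (a b : Bal) : winH (a * b) = winH a * winH b := by
  funext x y
  obtain ⟨m, c⟩ := y
  rw [Matrix.mul_apply]
  exact (sum_sg_twist (fun l => a.1 x.1 l) x.2 b (fun l e => twist_entry_gr a x (l, e))).symm

/-- Rows: tuples with entries of degree `5 - p`. -/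
def rowSub : Submodule ℚ (Fin 5 → Dal) where
  carrier := {z | ∀ p : Fin 5, z p ∈ Dal.gr (5 - (p : ℤ))}
  add_mem' := by intro x y hx hy p; exact add_mem (hx p) (hy p)
  zero_mem' := fun p => zero_mem _
  smul_mem' := by intro q x hx p; exact Submodule.smul_mem _ q (hx p)

/-- Right multiplication of rows. -/
def rowAct : ↥rowSub →ₗ[ℚ] Bal →ₗ[ℚ] ↥rowSub :=
  LinearMap.mk₂ ℚ
    (fun z b => ⟨fun p => ∑ l, z.1 l * b.1 l p, fun p =>
      Submodule.sum_mem _ fun l _ => Dal.gr_mul_of_eq (z.2 l) (b.mem l p) (by ring)⟩)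
    (fun z z' b => Subtype.ext (funext fun p => by simp [add_mul, Finset.sum_add_distrib]))
    (fun q z b => Subtype.ext (funext fun p => by simp [Finset.smul_sum]))
    (fun z b b' => Subtype.ext (funext fun p => by simp [mul_add, Finset.sum_add_distrib]))
    (fun q z b => Subtype.ext (funext fun p => by simp [Finset.smul_sum]))

theorem rowAct_apply (z : ↥rowSub) (b : Bal) (p : Fin 5) :
    (rowAct z b).1 p = ∑ l, z.1 l * b.1 l p := rfl

theorem row_entry_gr (z : ↥rowSub) (o : Fin 2) (y : Fin 5 × Kap) :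
    twistHom (z.1 y.1) (Sum.inl o) y.2 ∈ Dal.gr (4 - vtx y) := by
  have h := twistHom_gr (z.2 y.1) (Sum.inl o) y.2
  unfold vtx
  rwa [show (4 : ℤ) - ((y.1 : ℤ) + sh y.2) = 5 - (y.1 : ℤ) + sh (Sum.inl o) - sh y.2 by
    simp [sh]; ring]

/-- The matrix of the evaluation at the top vertex. -/
def rowMat : ↥rowSub →ₗ[ℚ] Matrix (Fin 2) (Fin 5 × Kap) Bal where
  toFun z := fun o y => sg 4 (vtx y) (twistHom (z.1 y.1) (Sum.inl o) y.2)
  map_add' z w := by
    funext o y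
    show sg _ _ (twistHom (z.1 y.1 + w.1 y.1) (Sum.inl o) y.2) = _
    rw [map_add, Matrix.add_apply, sg_add (row_entry_gr z o y) (row_entry_gr w o y)]
    rfl
  map_smul' q z := by
    funext o y
    show sg _ _ (twistHom (q • z.1 y.1) (Sum.inl o) y.2) = _
    rw [map_smul, Matrix.smul_apply, sg_smul (row_entry_gr z o y)]
    rfl

/-- The idempotent at the top vertex. -/
def topIdem : Bal := sg 4 4 1

/-- The twist data. -/
@[reducible] def tw : Twist Bal where
  J := Fin 5 × Kap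
  O := Fin 2
  H := winH
  H_mul := winH_mul
  Z := ↥rowSub
  actZ := rowAct
  actZ_one z := by
    refine Subtype.ext (funext fun p => ?_)
    rw [rowAct_apply]
    show ∑ l, z.1 l * (1 : Matrix (Fin 5) (Fin 5) Dal) l p = z.1 p
    simp [Matrix.one_apply]
  actZ_mul z a b := by
    refine Subtype.ext (funext fun p => ?_)
    simp only [rowAct_apply]
    show ∑ l, z.1 l * (a.1 * b.1) l p = _
    simp only [Matrix.mul_apply, Finset.mul_sum, Finset.sum_mul, mul_assoc]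
    rw [Finset.sum_comm]
  e := topIdem
  e_e := by
    rw [topIdem, sg_mul (by rw [sub_self]; exact Dal.one_gr) (by rw [sub_self]; exact Dal.one_gr),
      mul_one]
  row := rowMat
  row_act z b := by
    funext o y
    obtain ⟨m, c⟩ := y
    rw [Matrix.mul_apply]
    exact (sum_sg_twist (fun l => z.1 l) (Sum.inl o) b
      (fun l e => row_entry_gr z o (l, e))).symm
  e_row z o y := by
    show topIdem * sg 4 (vtx y) _ = sg 4 (vtx y) _
    rw [topIdem, sg_mul (by rw [sub_self]; exact Dal.one_gr) (row_entry_gr z o y), one_mul]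

end

end Vale.Agent.P176
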