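import Vale.Agent.P176.Complex
import Vale.Agent.P176.Window
import Vale.Agent.P176.Snake

/-!
Windows of graded `D`-modules as modules over the window algebra.
-/

namespace Vale.Agent.P176

noncomputable section

/-- A graded module over `D`. -/
structure GMod (N : Type) [AddCommGroup N] [Module ℚ N] [Module Dal N] where
  gr : ℤ → Submodule ℚ N
  smul_mem : ∀ {z : Dal} {v : N} {i j k : ℤ}, z ∈ Dal.gr i → v ∈ gr j → i + j = k → z • v ∈ gr k

variable {N N' : Type} [AddCommGroup N] [Module ℚ N] [Module Dal N] [IsScalarTower ℚ Dal N]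
variable [AddCommGroup N'] [Module ℚ N'] [Module Dal N'] [IsScalarTower ℚ Dal N']

/-- The window with shift `q`. -/
def GMod.winSub (Γ : GMod N) (q : ℤ) : Submodule ℚ (Fin 5 → N) where
  carrier := {v | ∀ p : Fin 5, v p ∈ Γ.gr ((p : ℤ) - q)}
  add_mem' := by intro v w hv hw p; exact add_mem (hv p) (hw p)
  zero_mem' := fun p => zero_mem _
  smul_mem' := by intro a v hv p; exact Submodule.smul_mem _ a (hv p)

/-- The window module. -/
def Win (Γ : GMod N) (q : ℤ) : Type := ↥(Γ.winSub q)

variable {Γ : GMod N} {Γ' : GMod N'} {q q' : ℤ}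

instance : AddCommGroup (Win Γ q) := inferInstanceAs (AddCommGroup ↥(Γ.winSub q))
instance : Module ℚ (Win Γ q) := inferInstanceAs (Module ℚ ↥(Γ.winSub q))

instance [Module.Finite ℚ N] : Module.Finite ℚ (Win Γ q) :=
  inferInstanceAs (Module.Finite ℚ ↥(Γ.winSub q))

namespace Win

/-- The components. -/
def comp (v : Win Γ q) : Fin 5 → N := v.1

/-- Constructor. -/
def mk (v : Fin 5 → N) (h : ∀ p : Fin 5, v p ∈ Γ.gr ((p : ℤ) - q)) : Win Γ q := ⟨v, h⟩

omit [IsScalarTower ℚ Dal N] in
theorem comp_mem (v : Win Γ q) (p : Fin 5) : v.comp p ∈ Γ.gr ((p : ℤ) - q) := v.2 p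

omit [IsScalarTower ℚ Dal N] in
@[simp] theorem comp_mk (v : Fin 5 → N) (h : ∀ p : Fin 5, v p ∈ Γ.gr ((p : ℤ) - q)) :
    (mk v h).comp = v := rfl

omit [IsScalarTower ℚ Dal N] in
theorem ext {v w : Win Γ q} (h : ∀ p, v.comp p = w.comp p) : v = w := Subtype.ext (funext h)

omit [IsScalarTower ℚ Dal N] in
@[simp] theorem comp_add (v w : Win Γ q) (p : Fin 5) : (v + w).comp p = v.comp p + w.comp p := rfl

omit [IsScalarTower ℚ Dal N] in
@[simp] theorem comp_zero (p : Fin 5) : (0 : Win Γ q).comp p = 0 := rfl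

omit [IsScalarTower ℚ Dal N] in
@[simp] theorem comp_rat (a : ℚ) (v : Win Γ q) (p : Fin 5) : (a • v).comp p = a • v.comp p := rfl

instance : SMul Bal (Win Γ q) :=
  ⟨fun b v => mk (fun i => ∑ j, b.1 i j • v.comp j) fun i =>
    Submodule.sum_mem _ fun j _ => Γ.smul_mem (b.mem i j) (v.comp_mem j) (by ring)⟩

omit [IsScalarTower ℚ Dal N] in
theorem comp_smul (b : Bal) (v : Win Γ q) (i : Fin 5) :
    (b • v).comp i = ∑ j, b.1 i j • v.comp j := rfl

instance : Module Bal (Win Γ q) where
  one_smul v := ext fun i => by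
    rw [comp_smul]
    show ∑ j, (1 : Matrix (Fin 5) (Fin 5) Dal) i j • v.comp j = v.comp i
    simp [Matrix.one_apply]
  mul_smul a b v := ext fun i => by
    simp only [comp_smul]
    show ∑ j, (a.1 * b.1) i j • v.comp j = _
    simp only [Matrix.mul_apply, Finset.sum_smul, Finset.smul_sum, mul_smul]
    exact Finset.sum_comm
  smul_zero b := ext fun i => by simp [comp_smul]
  smul_add b v w := ext fun i => by simp [comp_smul, Finset.sum_add_distrib]
  add_smul a b v := ext fun i => by
    simp only [comp_smul, comp_add, ← Finset.sum_add_distrib]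
    exact Finset.sum_congr rfl fun j _ => add_smul (a.1 i j) (b.1 i j) (v.comp j)
  zero_smul v := ext fun i => by simp [comp_smul]

instance : IsScalarTower ℚ Bal (Win Γ q) :=
  ⟨fun a b v => ext fun i => by
    simp only [comp_smul, comp_rat, Finset.smul_sum]
    exact Finset.sum_congr rfl fun j _ => smul_assoc a (b.1 i j) (v.comp j)⟩

/-- A graded linear map gives a map of windows. -/
def map (f : N →ₗ[Dal] N') (m : ℤ) (hm : q' + m = q)
    (hf : ∀ k, ∀ v ∈ Γ.gr k, f v ∈ Γ'.gr (k + m)) : Win Γ q →ₗ[Bal] Win Γ' q' where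
  toFun v := mk (fun p => f (v.comp p)) fun p => by
    have := hf _ _ (v.comp_mem p)
    rwa [show (p : ℤ) - q + m = (p : ℤ) - q' by omega] at this
  map_add' v w := ext fun p => map_add f _ _
  map_smul' b v := ext fun p => by simp [comp_smul, map_sum, map_smul]

theorem comp_map (f : N →ₗ[Dal] N') (m : ℤ) (hm : q' + m = q)
    (hf : ∀ k, ∀ v ∈ Γ.gr k, f v ∈ Γ'.gr (k + m)) (v : Win Γ q) (p : Fin 5) :
    (map f m hm hf v).comp p = f (v.comp p) := rfl

/-- The component at an integer vertex, zero outside the window. -/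
def ev (i : ℤ) (v : Win Γ q) : N :=
  if h : 0 ≤ i ∧ i ≤ 4 then v.comp ⟨i.toNat, by omega⟩ else 0

omit [IsScalarTower ℚ Dal N] in
theorem ev_nat (p : Fin 5) (v : Win Γ q) : ev (p : ℤ) v = v.comp p := by
  unfold ev
  rw [dif_pos ⟨by omega, by omega⟩]
  congr 1

omit [IsScalarTower ℚ Dal N] in
theorem ev_out {i : ℤ} (h : ¬(0 ≤ i ∧ i ≤ 4)) (v : Win Γ q) : ev i v = 0 := dif_neg h

omit [IsScalarTower ℚ Dal N] in
theorem ev_mem (i : ℤ) (v : Win Γ q) : ev i v ∈ Γ.gr (i - q) := by
  by_cases h : 0 ≤ i ∧ i ≤ 4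
  · obtain ⟨p, rfl⟩ := fin5 h.1 h.2
    rw [ev_nat]
    exact v.comp_mem p
  · rw [ev_out h]
    exact zero_mem _

omit [IsScalarTower ℚ Dal N] in
theorem ev_ext {v w : Win Γ q} (h : ∀ i, ev i v = ev i w) : v = w :=
  ext fun p => by rw [← ev_nat, ← ev_nat, h]

omit [IsScalarTower ℚ Dal N] in
@[simp] theorem ev_add (i : ℤ) (v w : Win Γ q) : ev i (v + w) = ev i v + ev i w := by
  unfold ev; split_ifs <;> simp

omit [IsScalarTower ℚ Dal N] in
@[simp] theorem ev_zero (i : ℤ) : ev i (0 : Win Γ q) = 0 := by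
  unfold ev; split_ifs <;> simp

omit [IsScalarTower ℚ Dal N] in
@[simp] theorem ev_rat (i : ℤ) (a : ℚ) (v : Win Γ q) : ev i (a • v) = a • ev i v := by
  unfold ev; split_ifs <;> simp

omit [IsScalarTower ℚ Dal N] in
theorem ev_sum (i : ℤ) {ι : Type} (s : Finset ι) (f : ι → Win Γ q) :
    ev i (∑ x ∈ s, f x) = ∑ x ∈ s, ev i (f x) :=
  map_sum (AddMonoidHom.mk' (fun v : Win Γ q => ev i v) (ev_add i)) f s

omit [IsScalarTower ℚ Dal N] in
theorem ev_sg_ne {i j l : ℤ} (x : Dal) (v : Win Γ q) (h : l ≠ i) : ev l (sg i j x • v) = 0 := by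
  by_cases hl : 0 ≤ l ∧ l ≤ 4
  swap
  · exact ev_out hl _
  obtain ⟨p, rfl⟩ := fin5 hl.1 hl.2
  rw [ev_nat, comp_smul]
  refine Finset.sum_eq_zero fun c _ => ?_
  have : (sg i j x).1 p c = 0 := by
    unfold sg
    split_ifs with h1
    · show Matrix.single _ _ x p c = 0
      unfold Matrix.single
      simp only [Matrix.of_apply]
      refine if_neg fun e => h ?_
      have := congrArg Fin.val e.1
      simp only at this
      omega
    · rfl
  rw [this, zero_smul]

omit [IsScalarTower ℚ Dal N] in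
theorem ev_sg {i j : ℤ} (hi : 0 ≤ i ∧ i ≤ 4) {x : Dal} (hx : x ∈ Dal.gr (i - j)) (v : Win Γ q) :
    ev i (sg i j x • v) = x • ev j v := by
  by_cases hj : 0 ≤ j ∧ j ≤ 4
  · obtain ⟨p, rfl⟩ := fin5 hi.1 hi.2
    obtain ⟨c, rfl⟩ := fin5 hj.1 hj.2
    rw [ev_nat, ev_nat, comp_smul, sg_of_mem hx, Finset.sum_eq_single c
      (fun c' _ hc => by simp [Ne.symm hc]) (by simp), Matrix.single_apply_same]
  · rw [ev_out hj, smul_zero, sg_out (fun h => hj h.2.2), zero_smul, ev_zero]

end Win

variable (ι : Type) [Fintype ι]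

/-- The free graded module. -/
def freeG : GMod (ι → Dal) where
  gr k := ⨅ r : ι, (Dal.gr k).comap (LinearMap.proj r)
  smul_mem := by
    intro z v i j k hz hv h
    simp only [Submodule.mem_iInf, Submodule.mem_comap, LinearMap.proj_apply] at hv ⊢
    intro r
    exact Dal.gr_mul_of_eq hz (hv r) h

omit [Fintype ι] in
theorem mem_freeG {v : ι → Dal} {k : ℤ} : v ∈ (freeG ι).gr k ↔ ∀ r, v r ∈ Dal.gr k := by
  simp [freeG]

/-- The projective module generated at vertex `q`. -/
abbrev PMod (q : ℤ) : Type := Win (freeG ι) q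

variable {ι}

/-- The column map of a projective module. -/
def colMap (q : Fin 5) : PMod ι (q : ℤ) →ₗ[Bal] (ι → Bal) where
  toFun v r := ⟨fun i j => if j = q then v.comp i r else 0, fun i j => by
    show (if j = q then v.comp i r else 0) ∈ _
    split_ifs with h
    · subst h; exact (mem_freeG ι).1 (v.comp_mem i) r
    · exact zero_mem _⟩
  map_add' v w := funext fun r => Bal.ext' fun i j => by
    show (if j = q then (v + w).comp i r else 0) =
      (if j = q then v.comp i r else 0) + if j = q then w.comp i r else 0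
    split_ifs <;> simp
  map_smul' b v := funext fun r => Bal.ext' fun i j => by
    show (if j = q then (b • v).comp i r else 0) =
      ∑ l, b.1 i l * if j = q then v.comp l r else 0
    split_ifs <;> simp [Win.comp_smul, Finset.sum_apply]

/-- The retraction to a projective module. -/
def colRet (q : Fin 5) : (ι → Bal) →ₗ[Bal] PMod ι (q : ℤ) where
  toFun f := Win.mk (fun p r => (f r).1 p q) fun p => (mem_freeG ι).2 fun r => (f r).mem p q
  map_add' f g := Win.ext fun p => rfl
  map_smul' b f := Win.ext fun p => funext fun r => by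
    show (b * f r).1 p q = _
    simp [Win.comp_smul, Matrix.mul_apply, Finset.sum_apply]

omit [Fintype ι] in
theorem colRet_colMap (q : Fin 5) (v : PMod ι (q : ℤ)) : colRet q (colMap q v) = v :=
  Win.ext fun p => funext fun r => if_pos rfl

instance projective_ind_PMod (q : Fin 5) :
    Module.Projective tw.Alg (tw.Ind (PMod ι (q : ℤ))) := by
  let e : (Fin (Fintype.card ι) → Bal) ≃ₗ[Bal] (ι → Bal) :=
    LinearEquiv.funCongrLeft Bal Bal (Fintype.equivFin ι)
  refine tw.projective_ind (e.symm.toLinearMap ∘ₗ colMap q) (colRet q ∘ₗ e.toLinearMap) fun v => ?_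
  simp [colRet_colMap]

omit [Fintype ι] in
theorem inj_PMod (h : tw.Inj Bal) (q : Fin 5) : tw.Inj (PMod ι (q : ℤ)) :=
  tw.inj_of_family _ (fun r => LinearMap.proj r ∘ₗ colMap q)
    (fun v w hvw => by
      rw [← colRet_colMap q v, ← colRet_colMap q w]
      exact congrArg _ (funext hvw)) h

variable [Fintype ι] (M : Rep ι)

/-- The grading of a Chevalley-Eilenberg module. -/
def ceG : GMod (CE M) where
  gr k := (⨅ r : ι, (Lam.gr k).comap (LinearMap.proj r)).comap (CE.raw (M := M)).toLinearMap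
  smul_mem := by
    intro z v i j k hz hv h
    subst h
    simp only [Submodule.mem_comap, Submodule.mem_iInf, LinearMap.proj_apply,
      LinearEquiv.coe_coe] at hv ⊢
    intro r
    rw [CE.smul_apply, dW_apply]
    refine add_mem (Lam.gr_mul hz.1 (hv r)) ?_
    have h2 : Lam.d (CE.raw v r) + ∑ b, Lam.xi b * pwFun (M.mat b) (CE.raw v) r ∈
        Lam.gr (1 + j) :=
      add_mem (by rw [add_comm]; exact Lam.d_gr (hv r))
        (Submodule.sum_mem _ fun b _ => Lam.gr_mul (Lam.xi_gr b) (pwFun_gr _ hv r))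
    have := Lam.gr_mul hz.2 h2
    rwa [show i - 1 + (1 + j) = i + j by ring] at this

theorem mem_ceG {v : CE M} {k : ℤ} : v ∈ (ceG M).gr k ↔ ∀ r, CE.raw v r ∈ Lam.gr k := by
  simp [ceG]

/-- The module `F` with shift `q`. -/
abbrev FMod (q : ℤ) : Type := Win (ceG M) q

/-- The inclusion of the kernel. -/
def winJ (q : ℤ) : FMod M (q + 1) →ₗ[Bal] PMod ι q :=
  Win.map (resJ M) 1 rfl fun k v hv => (mem_freeG ι).2 fun r => by
    rw [resJ_apply]
    have hv' := (mem_ceG M).1 hv
    refine ⟨?_, ?_⟩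
    · rw [Dal.mk_fst]; exact neg_mem (capR_gr _ hv' r)
    · rw [Dal.mk_snd, add_sub_cancel_right]; exact hv' r

/-- The projection of the resolution. -/
def winPi (q : ℤ) : PMod ι q →ₗ[Bal] FMod M q :=
  Win.map (resPi M) 0 (add_zero q) fun k w hw => (mem_ceG M).2 fun r => by
    have hw' := (mem_freeG ι).1 hw
    rw [resPi_apply, Pi.add_apply, add_zero]
    refine add_mem (hw' r).1 ?_
    have := capR_gr M.mat (fun s => (hw' s).2) r
    rwa [sub_add_cancel] at this

theorem winJ_injective (q : ℤ) : Function.Injective (winJ M q) :=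
  fun _ _ h => Win.ext fun p => resJ_injective M (congrArg (fun v => Win.comp v p) h)

theorem winPi_surjective (q : ℤ) : Function.Surjective (winPi M q) := by
  intro v
  refine ⟨Win.mk (fun p r => Dal.inl (CE.raw (v.comp p) r)) fun p =>
    (mem_freeG ι).2 fun r => Dal.inl_gr ((mem_ceG M).1 (v.comp_mem p) r), Win.ext fun p => ?_⟩
  exact resPi_section M (v.comp p)

theorem win_exact (q : ℤ) : Function.Exact (winJ M q) (winPi M q) := by
  intro w
  constructor
  · intro h
    refine ⟨Win.mk (fun p => CE.raw.symm fun r => (w.comp p r).b) (fun p => (mem_ceG M).2 fun r => ?_),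
      Win.ext fun p => ?_⟩
    · rw [LinearEquiv.apply_symm_apply]
      have := ((mem_freeG ι).1 (w.comp_mem p) r).2
      rwa [show (p : ℤ) - (q + 1) = (p : ℤ) - q - 1 by ring]
    · exact resJ_of_resPi M (congrArg (fun v => Win.comp v p) h)
  · rintro ⟨v, rfl⟩
    exact Win.ext fun p => resPi_resJ M (v.comp p)

theorem subsingleton_FMod_five : Subsingleton (FMod M 5) := by
  refine ⟨fun v w => Win.ext fun p => CE.ext M fun r => ?_⟩
  have hp : (p : ℤ) - 5 < 0 := by omega
  rw [Lam.gr_eq_bot (Or.inl hp) ((mem_ceG M).1 (v.comp_mem p) r),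
    Lam.gr_eq_bot (Or.inl hp) ((mem_ceG M).1 (w.comp_mem p) r)]

end

end Vale.Agent.P176
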