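import Vale.Agent.P176.Coords
import Vale.Agent.P176.Modules

/-!
The kernel and the cokernel of `Phi` on a Chevalley-Eilenberg window module.
-/

namespace Vale.Agent.P176

open Tab

noncomputable section

namespace Lam

/-- Projection to degree `k`. -/
def proj (k : ℤ) : Lam →ₗ[ℚ] Lam where
  toFun x := fun u => if (pc u : ℤ) = k then x u else 0
  map_add' x y := funext fun u => by
    show (if (pc u : ℤ) = k then x u + y u else 0) =
      (if (pc u : ℤ) = k then x u else 0) + if (pc u : ℤ) = k then y u else 0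
    split_ifs <;> simp
  map_smul' q x := funext fun u => by
    show (if (pc u : ℤ) = k then q * x u else 0) = q * if (pc u : ℤ) = k then x u else 0
    split_ifs <;> simp

theorem proj_mem (k : ℤ) (x : Lam) : proj k x ∈ gr k := fun _ hu => if_neg hu

theorem proj_eq {k : ℤ} {x : Lam} (hx : x ∈ gr k) : proj k x = x := by
  ext u
  show (if (pc u : ℤ) = k then x u else 0) = x u
  split_ifs with h
  · rfl
  · exact (hx u h).symm

theorem eq_zero_of_gr4 {x : Lam} (hx : x ∈ gr 4) (h : x 15 = 0) : x = 0 := by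
  ext u
  rcases (by decide +kernel : ∀ u : Fin 16, u = 15 ∨ pc u ≠ 4) u with rfl | hu
  · exact h
  · exact hx u (by exact_mod_cast hu)

theorem compl_facts : ∀ u : Fin 16,
    (pc (sd 15 u) : ℤ) = 4 - pc u ∧ sd 15 (sd 15 u) = u ∧
      sgn (sd 15 u) u * sgn (sd 15 u) u = 1 ∧
      sgn (sd 15 u) (sd 15 (sd 15 u)) *
        (if (15 : Fin 16).val &&& (sd 15 u).val = (sd 15 u).val then 1 else 0) =
          sgn (sd 15 u) u := by decide +kernel

theorem mon_compl_mul (u : Fin 16) (x : Lam) :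
    (mon (sd 15 u) * x) 15 = (sgn (sd 15 u) u : ℚ) * x u := by
  rw [mon_mul_apply, (compl_facts u).2.2.2, (compl_facts u).2.1]

theorem nondeg {x : Lam} {j : ℤ} (hx : x ∈ gr j) (h : ∀ a ∈ gr (4 - j), a * x = 0) : x = 0 := by
  ext u
  by_cases hu : (pc u : ℤ) = j
  · have h1 : (mon (sd 15 u) * x) 15 = 0 := by
      rw [h _ ?_]; rfl
      have := mon_gr (sd 15 u)
      rwa [(compl_facts u).1, hu] at this
    rw [mon_compl_mul] at h1
    have h2 : (sgn (sd 15 u) u : ℚ) * sgn (sd 15 u) u = 1 := by exact_mod_cast (compl_facts u).2.2.1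
    calc x u = (sgn (sd 15 u) u : ℚ) * ((sgn (sd 15 u) u : ℚ) * x u) := by
          rw [← mul_assoc, h2, one_mul]
      _ = 0 := by rw [h1, mul_zero]
  · exact hx u hu

theorem exists_dual (j : ℤ) (g : Lam →ₗ[ℚ] Lam) (hg : ∀ a ∈ gr (4 - j), g a ∈ gr 4) :
    ∃ x ∈ gr j, ∀ a ∈ gr (4 - j), a * x = g a := by
  refine ⟨proj j (fun u => (sgn (sd 15 u) u : ℚ) * g (mon (sd 15 u)) 15), proj_mem _ _,
    fun a ha => ?_⟩
  rw [← sub_eq_zero]
  have hm : a * proj j (fun u => (sgn (sd 15 u) u : ℚ) * g (mon (sd 15 u)) 15) ∈ gr 4 := by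
    have := gr_mul ha (proj_mem j (fun u => (sgn (sd 15 u) u : ℚ) * g (mon (sd 15 u)) 15))
    rwa [sub_add_cancel] at this
  refine eq_zero_of_gr4 (sub_mem hm (hg a ha)) ?_
  rw [sub_apply, sub_eq_zero]
  conv_lhs => rw [eq_sum a]
  conv_rhs => rw [eq_sum a, map_sum]
  rw [Finset.sum_mul, sum_apply, sum_apply]
  refine Finset.sum_congr rfl fun s _ => ?_
  rw [smul_mul_assoc, map_smul, smul_apply, smul_apply]
  by_cases hs : (pc s : ℤ) = 4 - j
  · congr 1
    obtain ⟨u, rfl⟩ : ∃ u, sd 15 u = s := ⟨sd 15 s, (compl_facts s).2.1⟩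
    rw [mon_compl_mul]
    have hu : (pc u : ℤ) = j := by have := (compl_facts u).1; omega
    show (sgn (sd 15 u) u : ℚ) * (if (pc u : ℤ) = j then _ else 0) = _
    rw [if_pos hu, ← mul_assoc]
    rw [show (sgn (sd 15 u) u : ℚ) * sgn (sd 15 u) u = 1 by
      exact_mod_cast (compl_facts u).2.2.1, one_mul]
  · rw [ha s hs, zero_mul, zero_mul]

end Lam

variable {ι : Type} [Fintype ι] [DecidableEq ι] {M : Rep ι}

/-- Membership of a degree, componentwise. -/
def InGr {κ : Type} (k : ℤ) (m : κ → Lam) : Prop := ∀ x, m x ∈ Lam.gr k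

theorem InGr.of_eq {κ : Type} {k k' : ℤ} {m : κ → Lam} (h : InGr k m) (hk : k = k') : InGr k' m :=
  hk ▸ h

theorem InGr.eq_zero {κ : Type} {k : ℤ} {m : κ → Lam} (h : InGr k m) (hk : k < 0 ∨ 4 < k) :
    m = 0 := funext fun x => Lam.gr_eq_bot hk (h x)

theorem InGr.pw {κ μ : Type} [Fintype κ] {k : ℤ} {m : κ → Lam} (h : InGr k m)
    (A : Matrix μ κ ℚ) : InGr k (pwFun A m) := fun x => pwFun_gr A h x

theorem InGr.lam {κ : Type} [Fintype κ] {k l : ℤ} {m : κ → Lam} (h : InGr k m) {a : Lam}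
    (ha : a ∈ Lam.gr l) : InGr (l + k) (lamEnd a m) := fun x => Lam.gr_mul ha (h x)

theorem InGr.dW {κ : Type} [Fintype κ] {k : ℤ} {m : κ → Lam} (h : InGr k m) (E : Quad κ) :
    InGr (k + 1) (P176.dW E m) := fun x => by
  rw [dW_apply]
  refine add_mem (Lam.d_gr (h x)) (Submodule.sum_mem _ fun b _ => ?_)
  rw [add_comm k 1]
  exact Lam.gr_mul (Lam.xi_gr b) (pwFun_gr _ h x)

theorem InGr.hop {k : ℤ} {m : Fin 2 × ι → Lam} (h : InGr k m) :
    InGr (k - 1) (P176.hop m) := fun x => by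
  rw [hop_apply]
  exact Submodule.sum_mem _ fun c _ => pwFun_gr _ (fun y => Lam.iota_gr c (h y)) x

/-- The value of a source element at a summand. -/
def srcVal (m : tw.Src (FMod M 0)) (x : Fin 5 × Kap) : CE M := Win.ev (vtx x) (m.1 x)

omit [DecidableEq ι] in
theorem srcVal_mem (m : tw.Src (FMod M 0)) (x : Fin 5 × Kap) :
    srcVal m x ∈ (ceG M).gr (vtx x) := by
  have := Win.ev_mem (vtx x) (m.1 x)
  rwa [sub_zero] at this

omit [DecidableEq ι] in
@[simp] theorem srcVal_add (m m' : tw.Src (FMod M 0)) (x : Fin 5 × Kap) :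
    srcVal (m + m') x = srcVal m x + srcVal m' x := Win.ev_add _ _ _

theorem vtx_le (x : Fin 5 × Kap) : -1 ≤ vtx x ∧ vtx x ≤ 4 := by
  obtain ⟨p, o | o⟩ := x <;> simp only [vtx, sh] <;> omega

omit [DecidableEq ι] in
theorem ev_sg_low {i j : ℤ} (hi : -1 ≤ i ∧ i ≤ 4) {x : Dal} (hx : x ∈ Dal.gr (i - j))
    (v : FMod M 0) : Win.ev i (sg i j x • v) = x • Win.ev j v := by
  by_cases h : 0 ≤ i
  · exact Win.ev_sg ⟨h, hi.2⟩ hx v
  · rw [Win.ev_out (fun h' => h h'.1)]
    have hm := (ceG M).smul_mem hx (Win.ev_mem j v) (k := i) (by ring)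
    refine (CE.ext M fun r => ?_).symm
    rw [map_zero]
    exact Lam.gr_eq_bot (Or.inl (by omega)) ((mem_ceG M).1 hm r)

omit [DecidableEq ι] in
theorem srcVal_smul (b : Bal) (m : tw.Src (FMod M 0)) (x : Fin 5 × Kap) :
    srcVal (b • m) x = ∑ y : Fin 5 × Kap, twistHom (b.1 x.1 y.1) x.2 y.2 • srcVal m y := by
  show Win.ev (vtx x) (∑ y : Fin 5 × Kap, winH b x y • m.1 y) = _
  rw [Win.ev_sum]
  refine Finset.sum_congr rfl fun y _ => ?_
  rw [winH_apply, ev_sg_low (vtx_le x) (twist_entry_gr b x y)]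
  rfl

omit [DecidableEq ι] in
theorem winH_one_smul (m : Fin 5 × Kap → FMod M 0) (x : Fin 5 × Kap) :
    (∑ y : Fin 5 × Kap, winH 1 x y • m y) = sg (vtx x) (vtx x) 1 • m x := by
  classical
  rw [Finset.sum_eq_single x]
  · rw [winH_apply]
    congr 2
    show twistHom ((1 : Matrix (Fin 5) (Fin 5) Dal) x.1 x.1) x.2 x.2 = 1
    rw [Matrix.one_apply_eq, map_one, Matrix.one_apply_eq]
  · intro y _ hy
    rw [winH_apply]
    have : twistHom ((1 : Matrix (Fin 5) (Fin 5) Dal) x.1 y.1) x.2 y.2 = 0 := by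
      by_cases h : x.1 = y.1
      · rw [h, Matrix.one_apply_eq, map_one, Matrix.one_apply_ne]
        exact fun e => hy (Prod.ext h.symm e.symm)
      · rw [Matrix.one_apply_ne h, map_zero, Matrix.zero_apply]
    show sg _ _ (twistHom ((1 : Matrix (Fin 5) (Fin 5) Dal) x.1 y.1) x.2 y.2) • m y = 0
    rw [this, sg_zero, zero_smul]
  · simp

omit [DecidableEq ι] in
theorem srcVal_ext {m m' : tw.Src (FMod M 0)} (h : ∀ x, srcVal m x = srcVal m' x) : m = m' := by
  refine Subtype.ext (funext fun x => Win.ev_ext fun l => ?_)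
  by_cases hl : l = vtx x
  · subst hl; exact h x
  · have e1 : (sg (vtx x) (vtx x) 1 • m.1 x : FMod M 0) = m.1 x :=
      (winH_one_smul m.1 x).symm.trans (congrFun m.2 x)
    have e2 : (sg (vtx x) (vtx x) 1 • m'.1 x : FMod M 0) = m'.1 x :=
      (winH_one_smul m'.1 x).symm.trans (congrFun m'.2 x)
    rw [← e1, ← e2, Win.ev_sg_ne _ _ hl, Win.ev_sg_ne _ _ hl]

omit [DecidableEq ι] in
theorem srcVal_surj (μ : Fin 5 × Kap → CE M) (hμ : ∀ x, μ x ∈ (ceG M).gr (vtx x)) :
    ∃ m : tw.Src (FMod M 0), ∀ x, srcVal m x = μ x := by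
  let f : Fin 5 × Kap → FMod M 0 := fun x =>
    Win.mk (fun p => if (p : ℤ) = vtx x then μ x else 0) fun p => by
      split_ifs with h
      · rw [sub_zero, h]; exact hμ x
      · exact zero_mem _
  refine ⟨tw.srcMk (FMod M 0) f (funext fun x => ?_), fun x => ?_⟩
  · show (∑ y : Fin 5 × Kap, winH 1 x y • f y) = f x
    rw [winH_one_smul]
    refine Win.ev_ext fun l => ?_
    by_cases hl : l = vtx x
    · subst hl
      rw [ev_sg_low (vtx_le x) (by rw [sub_self]; exact Dal.one_gr), one_smul]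
    · rw [Win.ev_sg_ne _ _ hl]
      by_cases hr : 0 ≤ l ∧ l ≤ 4
      · obtain ⟨p, rfl⟩ := fin5 hr.1 hr.2
        rw [Win.ev_nat]
        exact (if_neg hl).symm
      · exact (Win.ev_out hr _).symm
  · show Win.ev (vtx x) (f x) = μ x
    by_cases hr : 0 ≤ vtx x
    · obtain ⟨p, hp⟩ := fin5 hr (vtx_le x).2
      rw [← hp, Win.ev_nat]
      exact if_pos hp
    · rw [Win.ev_out fun h => hr h.1]
      refine CE.ext M fun r => ?_
      rw [map_zero]
      exact (Lam.gr_eq_bot (Or.inl (by omega)) ((mem_ceG M).1 (hμ x) r)).symm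

/-- The lower coordinate. -/
def botC (m : tw.Src (FMod M 0)) (p : Fin 5) : Fin 2 × ι → Lam :=
  flat fun o => srcVal m (p, Sum.inr o)

/-- The upper coordinate. -/
def topC (m : tw.Src (FMod M 0)) (p : Fin 5) : Fin 2 × ι → Lam :=
  flat (fun o => srcVal m (p, Sum.inl o)) - hop (botC m p)

theorem coords_srcVal (m : tw.Src (FMod M 0)) (p : Fin 5) :
    coords (topC m p) (botC m p) = fun a => srcVal m (p, a) := by
  funext a
  obtain o | o := a
  · simp only [coords, Sum.elim_inl, topC, sub_add_cancel, unflat_flat]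
  · simp only [coords, Sum.elim_inr, botC, unflat_flat]

theorem botC_gr (m : tw.Src (FMod M 0)) (p : Fin 5) : InGr (p : ℤ) (botC m p) := fun x => by
  have := (mem_ceG M).1 (srcVal_mem m (p, Sum.inr x.1)) x.2
  simp only [vtx, sh, add_zero] at this
  exact this

theorem topC_gr (m : tw.Src (FMod M 0)) (p : Fin 5) : InGr ((p : ℤ) - 1) (topC m p) := fun x => by
  refine sub_mem ?_ ((botC_gr m p).hop x)
  have := (mem_ceG M).1 (srcVal_mem m (p, Sum.inl x.1)) x.2
  simp only [vtx, sh] at this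
  exact this

theorem exists_src (k m : Fin 5 → (Fin 2 × ι → Lam)) (hk : ∀ p : Fin 5, InGr ((p : ℤ) - 1) (k p))
    (hm : ∀ p : Fin 5, InGr (p : ℤ) (m p)) :
    ∃ s : tw.Src (FMod M 0), ∀ p, topC s p = k p ∧ botC s p = m p := by
  obtain ⟨s, hs⟩ := srcVal_surj (M := M) (fun x => coords (k x.1) (m x.1) x.2) fun x => by
    refine (mem_ceG M).2 fun r => ?_
    obtain ⟨p, o | o⟩ := x
    · show CE.raw (unflat (M := M) (k p + hop (m p)) o) r ∈ Lam.gr ((p : ℤ) + -1)
      simp only [unflat, LinearEquiv.apply_symm_apply, Pi.add_apply]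
      exact add_mem (hk p (o, r)) ((hm p).hop (o, r))
    · show CE.raw (unflat (M := M) (m p) o) r ∈ Lam.gr ((p : ℤ) + 0)
      simp only [unflat, LinearEquiv.apply_symm_apply, add_zero]
      exact hm p (o, r)
  refine ⟨s, fun p => ?_⟩
  have h2 : botC s p = m p := by
    unfold botC
    simp only [hs, coords, Sum.elim_inr]
    exact flat_unflat (m p)
  refine ⟨?_, h2⟩
  unfold topC
  rw [h2]
  simp only [hs, coords, Sum.elim_inl]
  rw [flat_unflat (M := M), add_sub_cancel_right]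

theorem src_ext {s s' : tw.Src (FMod M 0)}
    (h : ∀ p, topC s p = topC s' p ∧ botC s p = botC s' p) : s = s' := by
  refine srcVal_ext fun x => ?_
  have h1 := congrFun (coords_srcVal s x.1) x.2
  have h2 := congrFun (coords_srcVal s' x.1) x.2
  rw [(h x.1).1, (h x.1).2] at h1
  exact h1.symm.trans h2

theorem coords_sum {J : Type} (s : Finset J) (k m : J → (Fin 2 × ι → Lam)) :
    coords (M := M) (∑ j ∈ s, k j) (∑ j ∈ s, m j) = ∑ j ∈ s, coords (k j) (m j) := by
  classical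
  induction s using Finset.induction_on with
  | empty => simp [coords_zero]
  | insert a t h ih =>
    rw [Finset.sum_insert h, Finset.sum_insert h, Finset.sum_insert h, coords_add, ih]

theorem coords_smul (b : Bal) (m : tw.Src (FMod M 0)) (p : Fin 5) :
    botC (b • m) p = ∑ l, botAct M.mat (b.1 p l) (botC m l) ∧
      topC (b • m) p = ∑ l, topAct M.mat (b.1 p l) (topC m l) (botC m l) := by
  have h : (fun a => srcVal (b • m) (p, a)) = coords
      (∑ l, topAct M.mat (b.1 p l) (topC m l) (botC m l))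
      (∑ l, botAct M.mat (b.1 p l) (botC m l)) := by
    rw [coords_sum]
    funext a
    rw [srcVal_smul, Fintype.sum_prod_type, Finset.sum_apply]
    refine Finset.sum_congr rfl fun l _ => ?_
    rw [← twist_coords, coords_srcVal]
    rfl
  have h2 : botC (b • m) p = ∑ l, botAct M.mat (b.1 p l) (botC m l) := by
    unfold botC
    rw [show (fun o => srcVal (b • m) (p, Sum.inr o)) = unflat _ from
      funext fun o => (congrFun h (Sum.inr o)).trans rfl, flat_unflat]
    rfl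
  refine ⟨h2, ?_⟩
  unfold topC
  rw [h2, show (fun o => srcVal (b • m) (p, Sum.inl o)) = unflat _ from
    funext fun o => (congrFun h (Sum.inl o)).trans rfl, flat_unflat, add_sub_cancel_right]
  rfl

/-- The top values of a target element. -/
def tgtVal (ψ : tw.Tgt (FMod M 0)) (ζ : ↥rowSub) : Fin 2 × ι → Lam :=
  flat fun o => Win.ev 4 (ψ.1 ζ o)

omit [DecidableEq ι] in
theorem tgtVal_gr (ψ : tw.Tgt (FMod M 0)) (ζ : ↥rowSub) : InGr 4 (tgtVal ψ ζ) := fun x => by
  have := (mem_ceG M).1 (Win.ev_mem 4 (ψ.1 ζ x.1)) x.2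
  rwa [sub_zero] at this

omit [DecidableEq ι] in
theorem tgt_ext' {ψ ψ' : tw.Tgt (FMod M 0)} (h : ∀ ζ, tgtVal ψ ζ = tgtVal ψ' ζ) : ψ = ψ' := by
  refine tw.tgt_ext _ fun ζ o => Win.ev_ext fun l => ?_
  by_cases hl : l = 4
  · subst hl; exact congrFun (flat_injective (h ζ)) o
  · rw [← ψ.2 ζ o, ← ψ'.2 ζ o]
    show Win.ev l (sg 4 4 1 • (ψ.1 ζ o : FMod M 0)) = Win.ev l (sg 4 4 1 • (ψ'.1 ζ o : FMod M 0))
    rw [Win.ev_sg_ne _ _ hl, Win.ev_sg_ne _ _ hl]

omit [DecidableEq ι] in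
@[simp] theorem tgtVal_add (ψ ψ' : tw.Tgt (FMod M 0)) (ζ : ↥rowSub) :
    tgtVal (ψ + ψ') ζ = tgtVal ψ ζ + tgtVal ψ' ζ := by
  unfold tgtVal
  rw [← flat_add]
  exact congrArg flat (funext fun o => Win.ev_add 4 _ _)

omit [DecidableEq ι] in
@[simp] theorem tgtVal_zero (ζ : ↥rowSub) : tgtVal (0 : tw.Tgt (FMod M 0)) ζ = 0 := by
  funext x
  show CE.raw (Win.ev 4 (0 : FMod M 0)) x.2 = 0
  simp

omit [DecidableEq ι] in
theorem tgtVal_smul (b : Bal) (ψ : tw.Tgt (FMod M 0)) (ζ : ↥rowSub) :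
    tgtVal (b • ψ) ζ = tgtVal ψ (rowAct ζ b) := rfl

omit [DecidableEq ι] in
theorem tgtVal_surj (g : ↥rowSub →ₗ[ℚ] (Fin 2 × ι → Lam)) (hg : ∀ ζ, InGr 4 (g ζ)) :
    ∃ ψ : tw.Tgt (FMod M 0), ∀ ζ, tgtVal ψ ζ = g ζ := by
  let w : ↥rowSub → Fin 2 → FMod M 0 := fun ζ o =>
    Win.mk (fun p => if p = 4 then unflat (g ζ) o else 0) fun p => by
      split_ifs with h
      · subst h
        refine (mem_ceG M).2 fun r => ?_
        simp only [unflat, LinearEquiv.apply_symm_apply]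
        exact hg ζ (o, r)
      · exact zero_mem _
  have hw : ∀ ζ o, Win.ev 4 (w ζ o) = unflat (g ζ) o := fun ζ o => by
    rw [show (4 : ℤ) = ((4 : Fin 5) : ℤ) from rfl, Win.ev_nat]
    show (if (4 : Fin 5) = 4 then unflat (g ζ) o else 0) = _
    exact if_pos rfl
  refine ⟨tw.tgtMk (FMod M 0)
    { toFun := w
      map_add' := fun ζ ζ' => funext fun o => Win.ext fun p => ?_
      map_smul' := fun q ζ => funext fun o => Win.ext fun p => ?_ } (fun ζ o => ?_), fun ζ => ?_⟩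
  · show (if p = 4 then unflat (g (ζ + ζ')) o else 0) =
      (if p = 4 then unflat (g ζ) o else 0) + if p = 4 then unflat (g ζ') o else 0
    rw [map_add, unflat_add]
    split_ifs <;> simp
  · show (if p = 4 then unflat (g (q • ζ)) o else 0) = q • if p = 4 then unflat (g ζ) o else 0
    split_ifs with h
    · refine CE.ext M fun r => ?_
      simp [unflat]
    · simp
  · show (sg 4 4 1 • w ζ o : FMod M 0) = w ζ o
    refine Win.ev_ext fun l => ?_
    by_cases hl : l = 4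
    · subst hl
      rw [ev_sg_low ⟨by norm_num, le_rfl⟩ (by rw [sub_self]; exact Dal.one_gr), one_smul]
    · rw [Win.ev_sg_ne _ _ hl]
      by_cases hr : 0 ≤ l ∧ l ≤ 4
      · obtain ⟨p, rfl⟩ := fin5 hr.1 hr.2
        rw [Win.ev_nat]
        refine (if_neg ?_).symm
        intro h; subst h; exact hl rfl
      · exact (Win.ev_out hr _).symm
  · unfold tgtVal
    refine Eq.trans (congrArg flat (funext fun o => ?_)) (flat_unflat (M := M) (g ζ))
    exact hw ζ o

theorem tgtVal_phi (m : tw.Src (FMod M 0)) (ζ : ↥rowSub) :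
    tgtVal (tw.phi _ m) ζ = ∑ p, topAct M.mat (ζ.1 p) (topC m p) (botC m p) := by
  have h : (fun o => Win.ev 4 ((tw.phi (FMod M 0) m).1 ζ o)) = fun o =>
      ∑ p, coords (topAct M.mat (ζ.1 p) (topC m p) (botC m p))
        (botAct M.mat (ζ.1 p) (botC m p)) (Sum.inl o) := by
    funext o
    show Win.ev 4 (∑ y : Fin 5 × Kap, rowMat ζ o y • m.1 y) = _
    rw [Win.ev_sum, Fintype.sum_prod_type]
    refine Finset.sum_congr rfl fun p _ => ?_
    rw [← twist_coords, coords_srcVal]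
    refine Finset.sum_congr rfl fun c _ => ?_
    show Win.ev 4 (sg 4 (vtx (p, c)) _ • m.1 (p, c)) = _
    rw [ev_sg_low ⟨by norm_num, le_rfl⟩ (row_entry_gr ζ o (p, c))]
    rfl
  have h0 : ∀ p, botAct M.mat (ζ.1 p) (botC m p) = 0 := by
    intro p
    refine InGr.eq_zero (k := 5) (fun x => add_mem ?_ ?_) (Or.inr (by norm_num))
    · have := (botC_gr m p).lam (ζ.2 p).1
      rw [sub_add_cancel] at this
      exact this x
    · have := ((botC_gr m p).dW (tq M.mat)).lam (ζ.2 p).2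
      rw [show (5 : ℤ) - p - 1 + (p + 1) = 5 by ring] at this
      exact this x
  unfold tgtVal
  rw [h]
  funext x
  simp only [flat, map_sum, Finset.sum_apply, h0, coords, Sum.elim_inl, map_zero, add_zero, unflat,
    LinearEquiv.apply_symm_apply]

/-- A row with a single entry. -/
def row1 (p : Fin 5) (z : Dal) (hz : z ∈ Dal.gr (5 - (p : ℤ))) : ↥rowSub :=
  ⟨Pi.single p z, fun p' => by
    by_cases h : p' = p
    · subst h; rwa [Pi.single_eq_same]
    · rw [Pi.single_eq_of_ne h]; exact zero_mem _⟩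

theorem inl_row (p : Fin 5) {a : Lam} (ha : a ∈ Lam.gr (5 - (p : ℤ))) :
    Dal.mk a 0 ∈ Dal.gr (5 - (p : ℤ)) := ⟨ha, zero_mem _⟩

theorem tau_row (p : Fin 5) {b : Lam} (hb : b ∈ Lam.gr (4 - (p : ℤ))) :
    Dal.mk 0 b ∈ Dal.gr (5 - (p : ℤ)) :=
  ⟨zero_mem _, by rw [show (5 : ℤ) - p - 1 = 4 - p by ring]; exact hb⟩

theorem sum_row1 {N : Type} [AddCommGroup N] (F : Fin 5 → Dal → N) (hF : ∀ p, F p 0 = 0)
    (p : Fin 5) (z : Dal) (hz : z ∈ Dal.gr (5 - (p : ℤ))) :
    ∑ p', F p' ((row1 p z hz).1 p') = F p z := by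
  rw [Finset.sum_eq_single p (fun p' _ h => by
    show F p' (Pi.single (M := fun _ : Fin 5 => Dal) p z p') = 0
    rw [Pi.single_eq_of_ne h, hF]) (by simp)]
  show F p (Pi.single (M := fun _ : Fin 5 => Dal) p z p) = F p z
  rw [Pi.single_eq_same]

theorem topAct_zero (k m : Fin 2 × ι → Lam) : topAct M.mat 0 k m = 0 := by
  simp [topAct, show (0 : Dal).a = 0 from rfl, show (0 : Dal).b = 0 from rfl]

theorem phi_row_inl (m : tw.Src (FMod M 0)) (p : Fin 5) {a : Lam}
    (ha : a ∈ Lam.gr (5 - (p : ℤ))) :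
    tgtVal (tw.phi _ m) (row1 p _ (inl_row p ha)) = lamEnd (Lam.sigma a) (topC m p) := by
  rw [tgtVal_phi, sum_row1 (fun p' z => topAct M.mat z (topC m p') (botC m p'))
    (fun p' => topAct_zero _ _)]
  simp [topAct]

theorem phi_row_tau (m : tw.Src (FMod M 0)) (p : Fin 5) {b : Lam}
    (hb : b ∈ Lam.gr (4 - (p : ℤ))) :
    tgtVal (tw.phi _ m) (row1 p _ (tau_row p hb)) = -lamEnd (Lam.sigma b)
      (dW (tq M.mat) (topC m p) + pwFun (th M.mat) (botC m p)) := by
  rw [tgtVal_phi, sum_row1 (fun p' z => topAct M.mat z (topC m p') (botC m p'))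
    (fun p' => topAct_zero _ _)]
  simp [topAct]

/-- The top values, as a linear map in the row. -/
def tgtLin (ψ : tw.Tgt (FMod M 0)) : ↥rowSub →ₗ[ℚ] (Fin 2 × ι → Lam) where
  toFun := tgtVal ψ
  map_add' ζ ζ' := funext fun x => by
    have h := congrArg (fun w : Fin 2 → FMod M 0 => CE.raw (Win.ev 4 (w x.1)) x.2)
      (LinearMap.map_add (Subtype.val (p := fun q => q ∈ tw.tgtSub (FMod M 0)) ψ) ζ ζ')
    simpa [tgtVal, flat] using h
  map_smul' q ζ := funext fun x => by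
    have h := congrArg (fun w : Fin 2 → FMod M 0 => CE.raw (Win.ev 4 (w x.1)) x.2)
      (LinearMap.map_smul (Subtype.val (p := fun q => q ∈ tw.tgtSub (FMod M 0)) ψ) q ζ)
    simpa [tgtVal, flat] using h

omit [DecidableEq ι] in
theorem tgtVal_split (ψ : tw.Tgt (FMod M 0)) (ζ : ↥rowSub) :
    tgtVal ψ ζ = ∑ p, (tgtVal ψ (row1 p _ (inl_row p (ζ.2 p).1)) +
      tgtVal ψ (row1 p _ (tau_row p (show (ζ.1 p).b ∈ Lam.gr (4 - (p : ℤ)) by
        have := (ζ.2 p).2; rwa [show (5 : ℤ) - p - 1 = 4 - p by ring] at this)))) := by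
  let f := tgtLin ψ
  show f ζ = ∑ p, (f _ + f _)
  simp only [← map_add, ← map_sum]
  congr 1
  refine Subtype.ext (funext fun p' => ?_)
  rw [Submodule.coe_sum, Finset.sum_apply, Finset.sum_eq_single p']
  · show ζ.1 p' = Pi.single (M := fun _ : Fin 5 => Dal) p' _ p' +
      Pi.single (M := fun _ : Fin 5 => Dal) p' _ p'
    rw [Pi.single_eq_same, Pi.single_eq_same]
    ext1 <;> simp
  · intro p _ h
    show Pi.single (M := fun _ : Fin 5 => Dal) p _ p' +
      Pi.single (M := fun _ : Fin 5 => Dal) p _ p' = 0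
    rw [Pi.single_eq_of_ne (Ne.symm h), Pi.single_eq_of_ne (Ne.symm h), add_zero]
  · simp

theorem phi_eq_zero_iff (m : tw.Src (FMod M 0)) :
    tw.phi _ m = 0 ↔ ∀ p, topC m p = 0 ∧ pwFun (th M.mat) (botC m p) = 0 := by
  constructor
  · intro h p
    have hk : topC m p = 0 := by
      funext x
      refine Lam.nondeg (topC_gr m p x) fun a ha => ?_
      have ha' : Lam.sigma a ∈ Lam.gr (5 - (p : ℤ)) := by
        rw [show (5 : ℤ) - p = 4 - (p - 1) by ring]; exact Lam.sigma_gr ha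
      have := congrFun (phi_row_inl m p ha') x
      rw [h, tgtVal_zero, Lam.sigma_sigma, lamEnd_apply] at this
      exact this.symm
    refine ⟨hk, funext fun x => Lam.nondeg ((botC_gr m p).pw _ x) fun b hb => ?_⟩
    have := congrFun (phi_row_tau m p (Lam.sigma_gr hb)) x
    rw [h, tgtVal_zero, hk, map_zero, zero_add, Lam.sigma_sigma, Pi.neg_apply, lamEnd_apply,
      Pi.zero_apply, eq_comm, neg_eq_zero] at this
    exact this
  · intro h
    refine tgt_ext' fun ζ => ?_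
    rw [tgtVal_phi, tgtVal_zero]
    refine Finset.sum_eq_zero fun p _ => ?_
    rw [topAct, (h p).1, (h p).2]
    simp

/-- The datum needed to identify kernel and cokernel. -/
structure Lowering {ι' : Type} [Fintype ι'] [DecidableEq ι'] (M : Rep ι) (M' : Rep ι') where
  j : Matrix (Fin 2 × ι) ι' ℚ
  p : Matrix ι' (Fin 2 × ι) ℚ
  s : Matrix (Fin 2 × ι) ι' ℚ
  l : Matrix ι' (Fin 2 × ι) ℚ
  P : Matrix (Fin 2 × ι) (Fin 2 × ι) ℚ
  Q : Matrix (Fin 2 × ι) (Fin 2 × ι) ℚ
  j_comm : ∀ b, tq M.mat b * j = j * M'.mat b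
  p_comm : ∀ b, p * tq M.mat b = M'.mat b * p
  th_j : th M.mat * j = 0
  p_th : p * th M.mat = 0
  l_j : l * j = 1
  p_s : p * s = 1
  ker_split : j * l + P * th M.mat = 1
  coker_split : th M.mat * Q + s * p = 1

variable {ι' : Type} [Fintype ι'] [DecidableEq ι'] {M' : Rep ι'}

omit [DecidableEq ι'] in
theorem raw_win_smul (b : Bal) (v : FMod M' 0) (p : Fin 5) :
    CE.raw ((b • v).comp p) = ∑ l, (lamEnd (b.1 p l).a (CE.raw (v.comp l)) +
      lamEnd (b.1 p l).b (dW M'.mat (CE.raw (v.comp l)))) := by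
  rw [Win.comp_smul, map_sum]
  exact Finset.sum_congr rfl fun l _ => CE.smul_def M' _ _

omit [DecidableEq ι] [DecidableEq ι'] in
theorem pwFun_dW_comm {E : Quad ι} {E' : Quad ι'} (A : Matrix ι ι' ℚ)
    (h : ∀ b, E b * A = A * E' b) (v : ι' → Lam) :
    pwFun A (dW E' v) = dW E (pwFun A v) := by
  funext x
  rw [dW_apply, show dW E' v = (fun y => Lam.d (v y)) +
    ∑ b, fun y => Lam.mulB (Lam.xi b) (pwFun (E' b) v y) from
      funext fun y => by simp [dW_apply, Lam.mulB_apply], map_add, map_sum, Pi.add_apply,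
    Finset.sum_apply, pwFun_map]
  congr 1
  refine Finset.sum_congr rfl fun b _ => ?_
  rw [pwFun_map, ← pwFun_mul, ← h, pwFun_mul]
  rfl

theorem pwFun_botAct (A : Matrix (Fin 2 × ι) ι' ℚ) (h : ∀ b, tq M.mat b * A = A * M'.mat b)
    (z : Dal) (v : ι' → Lam) : botAct M.mat z (pwFun A v) =
      pwFun A (lamEnd z.a v + lamEnd z.b (dW M'.mat v)) := by
  rw [map_add, botAct, ← pwFun_dW_comm A h]
  congr 1 <;> exact (pwFun_map A (Lam.mulB _) _).symm

theorem pwFun_botAct' (A : Matrix ι' (Fin 2 × ι) ℚ) (h : ∀ b, A * tq M.mat b = M'.mat b * A)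
    (z : Dal) (m : Fin 2 × ι → Lam) : pwFun A (botAct M.mat z m) =
      lamEnd z.a (pwFun A m) + lamEnd z.b (dW M'.mat (pwFun A m)) := by
  rw [← pwFun_dW_comm A (fun b => (h b).symm), botAct, map_add]
  congr 1 <;> exact pwFun_map A (Lam.mulB _) _

variable (W : Lowering M M')

/-- The kernel element attached to an element of the smaller module. -/
def kerRep (v : FMod M' 0) : tw.Src (FMod M 0) :=
  (exists_src (fun _ => 0) (fun p => pwFun W.j (CE.raw (v.comp p)))
    (fun _ _ => zero_mem _) (fun p => InGr.of_eq (InGr.pw (k := (p : ℤ) - 0)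
      (fun r => (mem_ceG M').1 (v.comp_mem p) r) W.j) (sub_zero _))).choose

theorem kerRep_spec (v : FMod M' 0) (p : Fin 5) :
    topC (kerRep W v) p = 0 ∧ botC (kerRep W v) p = pwFun W.j (CE.raw (v.comp p)) :=
  (exists_src (fun _ => 0) (fun p => pwFun W.j (CE.raw (v.comp p)))
    (fun _ _ => zero_mem _) (fun p => InGr.of_eq (InGr.pw (k := (p : ℤ) - 0)
      (fun r => (mem_ceG M').1 (v.comp_mem p) r) W.j) (sub_zero _))).choose_spec p

theorem th_pw_j (x : ι' → Lam) : pwFun (th M.mat) (pwFun W.j x) = 0 := by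
  rw [← pwFun_mul, W.th_j]
  funext y
  simp [pwFun_apply]

theorem topC_add (a b : tw.Src (FMod M 0)) (p : Fin 5) :
    topC (a + b) p = topC a p + topC b p ∧ botC (a + b) p = botC a p + botC b p := by
  have h : botC (a + b) p = botC a p + botC b p := by
    unfold botC
    rw [← flat_add]
    exact congrArg flat (funext fun o => srcVal_add a b _)
  refine ⟨?_, h⟩
  unfold topC
  rw [h, map_add, show flat (fun o => srcVal (a + b) (p, Sum.inl o)) =
    flat (fun o => srcVal a (p, Sum.inl o)) + flat (fun o => srcVal b (p, Sum.inl o)) from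
      (congrArg flat (funext fun o => srcVal_add a b _)).trans (flat_add _ _)]
  abel

theorem kerRep_mem (v : FMod M' 0) : tw.phi _ (kerRep W v) = 0 :=
  (phi_eq_zero_iff _).2 fun p =>
    ⟨(kerRep_spec W v p).1, by rw [(kerRep_spec W v p).2, th_pw_j]⟩

theorem kerRep_add (v w : FMod M' 0) : kerRep W (v + w) = kerRep W v + kerRep W w := by
  refine src_ext fun p => ?_
  rw [(topC_add _ _ p).1, (topC_add _ _ p).2, (kerRep_spec W _ p).1, (kerRep_spec W _ p).2,
    (kerRep_spec W v p).1, (kerRep_spec W v p).2, (kerRep_spec W w p).1, (kerRep_spec W w p).2,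
    Win.comp_add, map_add, map_add]
  exact ⟨(add_zero 0).symm, rfl⟩

theorem kerRep_smul (b : Bal) (v : FMod M' 0) : kerRep W (b • v) = b • kerRep W v := by
  refine src_ext fun p => ?_
  rw [(coords_smul b _ p).1, (coords_smul b _ p).2, (kerRep_spec W _ p).1, (kerRep_spec W _ p).2]
  simp only [(kerRep_spec W v _).1, (kerRep_spec W v _).2]
  constructor
  · refine (Finset.sum_eq_zero fun l _ => ?_).symm
    simp [topAct, th_pw_j]
  · rw [raw_win_smul, map_sum]
    exact Finset.sum_congr rfl fun l _ => (pwFun_botAct W.j W.j_comm _ _).symm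

/-- The map to the kernel. -/
def kerMap : FMod M' 0 →ₗ[Bal] tw.T1 (FMod M 0) :=
  LinearMap.codRestrict _
    { toFun := kerRep W, map_add' := kerRep_add W, map_smul' := kerRep_smul W }
    (fun v => LinearMap.mem_ker.2 (kerRep_mem W v))

theorem kerMap_injective : Function.Injective (kerMap W) := by
  intro v w h
  refine Win.ext fun p => CE.raw.injective ?_
  have h1 : botC (kerRep W v) p = botC (kerRep W w) p :=
    congrArg (fun u => botC (Subtype.val u) p) h
  rw [(kerRep_spec W v p).2, (kerRep_spec W w p).2] at h1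
  have h2 := congrArg (pwFun W.l) h1
  rwa [← pwFun_mul, ← pwFun_mul, W.l_j, pwFun_one, pwFun_one] at h2

theorem kerMap_surjective : Function.Surjective (kerMap W) := by
  intro u
  have hu := (phi_eq_zero_iff u.1).1 (LinearMap.mem_ker.1 u.2)
  refine ⟨Win.mk (fun p => CE.raw.symm (pwFun W.l (botC u.1 p))) (fun p => (mem_ceG M').2
    fun r => ?_), Subtype.ext (src_ext fun p => ?_)⟩
  · rw [LinearEquiv.apply_symm_apply, sub_zero]
    exact (botC_gr u.1 p).pw W.l r
  · show topC (kerRep W _) p = topC u.1 p ∧ botC (kerRep W _) p = botC u.1 p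
    rw [(kerRep_spec W _ p).1, (kerRep_spec W _ p).2, (hu p).1, Win.comp_mk,
      LinearEquiv.apply_symm_apply, ← pwFun_mul]
    refine ⟨rfl, ?_⟩
    have h3 := pwFun_add (W.j * W.l) (W.P * th M.mat) (botC u.1 p)
    rw [W.ker_split, pwFun_one, pwFun_mul W.P, (hu p).2, map_zero, add_zero] at h3
    exact h3.symm

/-- The identification of the kernel. -/
def kerEquiv : FMod M' 0 ≃ₗ[Bal] tw.T1 (FMod M 0) :=
  LinearEquiv.ofBijective (kerMap W) ⟨kerMap_injective W, kerMap_surjective W⟩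

/-- The target element attached to a lifted tuple. -/
theorem exists_psi (y : Fin 5 → (Fin 2 × ι → Lam)) (hy : ∀ p : Fin 5, InGr (p : ℤ) (y p)) :
    ∃ ψ : tw.Tgt (FMod M 0), ∀ ζ, tgtVal ψ ζ = ∑ p, lamEnd (Lam.sigma (ζ.1 p).b) (y p) := by
  refine tgtVal_surj
    { toFun := fun ζ => ∑ p, lamEnd (Lam.sigma (ζ.1 p).b) (y p)
      map_add' := fun ζ ζ' => by simp [Finset.sum_add_distrib]
      map_smul' := fun q ζ => by simp [Finset.smul_sum] } fun ζ x => ?_
  show (∑ p, lamEnd (Lam.sigma (ζ.1 p).b) (y p)) x ∈ Lam.gr 4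
  rw [Finset.sum_apply]
  refine Submodule.sum_mem _ fun p _ => ?_
  have := (hy p).lam (Lam.sigma_gr (ζ.2 p).2) x
  rwa [show (5 : ℤ) - p - 1 + p = 4 by ring] at this

theorem raw_gr' (v : FMod M' 0) (p : Fin 5) : InGr (p : ℤ) (CE.raw (v.comp p)) :=
  InGr.of_eq (fun r => (mem_ceG M').1 (v.comp_mem p) r) (sub_zero _)

/-- The class attached to an element of the smaller module. -/
def cokRep (v : FMod M' 0) : tw.Tgt (FMod M 0) :=
  (exists_psi (M := M) (fun p => pwFun W.s (CE.raw (v.comp p)))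
    (fun p => (raw_gr' v p).pw W.s)).choose

theorem cokRep_spec (v : FMod M' 0) (ζ : ↥rowSub) : tgtVal (cokRep W v) ζ =
    ∑ p, lamEnd (Lam.sigma (ζ.1 p).b) (pwFun W.s (CE.raw (v.comp p))) :=
  (exists_psi (M := M) (fun p => pwFun W.s (CE.raw (v.comp p)))
    (fun p => (raw_gr' v p).pw W.s)).choose_spec ζ

theorem topAct_identity (z w : Dal) (y : Fin 2 × ι → Lam) :
    lamEnd (Lam.sigma (z * w).b) y - lamEnd (Lam.sigma z.b) (botAct M.mat w y) =
      topAct M.mat z (lamEnd (Lam.sigma (Lam.sigma w.b) * 0 + w.b) 0 + lamEnd (Lam.sigma w.b) y)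
        0 := by
  funext x
  simp only [topAct, botAct, map_zero, add_zero, mul_zero, zero_add, Dal.mul_snd, map_add,
    Lam.sigma_mul, Lam.sigma_sigma, dW_lam, Lam.d_sigma, map_neg, Pi.sub_apply, Pi.add_apply,
    Pi.neg_apply, lamEnd_apply, LinearMap.add_apply, LinearMap.neg_apply]
  noncomm_ring

theorem Dal.b_sum {J : Type} (s : Finset J) (f : J → Dal) :
    (∑ j ∈ s, f j).b = ∑ j ∈ s, (f j).b := by
  classical
  induction s using Finset.induction_on with
  | empty => simp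
  | insert a t h ih => rw [Finset.sum_insert h, Finset.sum_insert h, Dal.add_snd, ih]

theorem cls_eq_of_bot {ψ ψ' : tw.Tgt (FMod M 0)} (k m : Fin 5 → (Fin 2 × ι → Lam))
    (hk : ∀ p : Fin 5, InGr ((p : ℤ) - 1) (k p)) (hm : ∀ p : Fin 5, InGr (p : ℤ) (m p))
    (h : ∀ ζ, tgtVal ψ ζ = tgtVal ψ' ζ + ∑ p, topAct M.mat (ζ.1 p) (k p) (m p)) :
    tw.cls (FMod M 0) ψ = tw.cls (FMod M 0) ψ' := by
  obtain ⟨u, hu⟩ := exists_src (M := M) k m hk hm
  refine (Submodule.Quotient.eq _).2 ⟨u, ?_⟩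
  rw [eq_sub_iff_add_eq]
  refine tgt_ext' fun ζ => ?_
  rw [tgtVal_add, h ζ, tgtVal_phi, add_comm]
  simp only [hu]

/-- The map to the cokernel. -/
def cokMap : FMod M' 0 →ₗ[Bal] tw.X (FMod M 0) := by
  refine
    { toFun := fun v => tw.cls _ (cokRep W v)
      map_add' := ?_
      map_smul' := ?_ }
  · intro v w
    rw [← map_add]
    refine congrArg _ (tgt_ext' fun ζ => ?_)
    rw [tgtVal_add, cokRep_spec, cokRep_spec, cokRep_spec, ← Finset.sum_add_distrib]
    simp only [Win.comp_add, map_add]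
  · intro b v
    rw [RingHom.id_apply, ← map_smul]
    have hy : ∀ p : Fin 5, InGr (p : ℤ) (pwFun W.s (CE.raw (v.comp p))) := fun p => (raw_gr' v p).pw W.s
    let y : Fin 5 → (Fin 2 × ι → Lam) := fun p => pwFun W.s (CE.raw (v.comp p))
    let y' : Fin 5 → (Fin 2 × ι → Lam) := fun p => pwFun W.s (CE.raw ((b • v).comp p))
    let yb : Fin 5 → (Fin 2 × ι → Lam) := fun p => ∑ l, botAct M.mat (b.1 p l) (y l)
    have hyb : ∀ p : Fin 5, InGr (p : ℤ) (yb p) := by
      intro p x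
      show (∑ l, botAct M.mat (b.1 p l) (y l)) x ∈ _
      rw [Finset.sum_apply]
      refine Submodule.sum_mem _ fun l _ => add_mem ?_ ?_
      · have := (hy l).lam (b.mem p l).1 x
        rwa [sub_add_cancel] at this
      · have := ((hy l).dW (tq M.mat)).lam (b.mem p l).2 x
        rwa [show (p : ℤ) - l - 1 + (l + 1) = p by ring] at this
    let m : Fin 5 → (Fin 2 × ι → Lam) := fun p => pwFun W.Q (yb p - y' p)
    have hm : ∀ p : Fin 5, InGr (p : ℤ) (m p) := fun p => InGr.pw (fun x =>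
      sub_mem (hyb p x) (((raw_gr' (b • v) p).pw W.s) x)) W.Q
    have hth : ∀ p, pwFun (th M.mat) (m p) = yb p - y' p := by
      intro p
      have e : pwFun W.p (yb p - y' p) = 0 := by
        rw [map_sub, ← pwFun_mul, W.p_s, pwFun_one, raw_win_smul, map_sum, sub_eq_zero]
        refine Finset.sum_congr rfl fun l _ => ?_
        rw [pwFun_botAct' W.p W.p_comm, ← pwFun_mul, W.p_s, pwFun_one]
      have h3 := pwFun_add (th M.mat * W.Q) (W.s * W.p) (yb p - y' p)
      rw [W.coker_split, pwFun_one, pwFun_mul W.s, e, map_zero, add_zero, pwFun_mul] at h3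
      exact h3.symm
    let k : Fin 5 → (Fin 2 × ι → Lam) := fun l => ∑ p, lamEnd (Lam.sigma (b.1 l p).b) (y p)
    have hk : ∀ l : Fin 5, InGr ((l : ℤ) - 1) (k l) := by
      intro l x
      show (∑ p, lamEnd (Lam.sigma (b.1 l p).b) (y p)) x ∈ _
      rw [Finset.sum_apply]
      refine Submodule.sum_mem _ fun p _ => ?_
      have := (hy p).lam (Lam.sigma_gr (b.mem l p).2) x
      rwa [show (l : ℤ) - p - 1 + p = l - 1 by ring] at this
    refine (cls_eq_of_bot k (fun p => -m p) hk (fun p x => neg_mem (hm p x)) fun ζ => ?_).symm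
    rw [tgtVal_smul, cokRep_spec, cokRep_spec]
    simp only [rowAct_apply]
    show ∑ p, lamEnd (Lam.sigma (∑ l, ζ.1 l * b.1 l p).b) (y p) =
      ∑ p, lamEnd (Lam.sigma (ζ.1 p).b) (y' p) + ∑ p, topAct M.mat (ζ.1 p) (k p) (-m p)
    have e1 : ∑ p, lamEnd (Lam.sigma (∑ l, ζ.1 l * b.1 l p).b) (y p) =
        ∑ l, ∑ p, lamEnd (Lam.sigma (ζ.1 l * b.1 l p).b) (y p) := by
      rw [Finset.sum_comm]
      refine Finset.sum_congr rfl fun p _ => ?_
      rw [Dal.b_sum, map_sum, map_sum, LinearMap.sum_apply]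
    rw [e1, ← Finset.sum_add_distrib]
    refine Finset.sum_congr rfl fun l _ => ?_
    have e2 : ∀ p, lamEnd (Lam.sigma (ζ.1 l * b.1 l p).b) (y p) =
        lamEnd (Lam.sigma (ζ.1 l).b) (botAct M.mat (b.1 l p) (y p)) +
          (lamEnd (Lam.sigma (ζ.1 l).a) (lamEnd (Lam.sigma (b.1 l p).b) (y p)) -
            lamEnd (Lam.sigma (ζ.1 l).b) (dW (tq M.mat) (lamEnd (Lam.sigma (b.1 l p).b) (y p)))) := by
      intro p
      have := topAct_identity (M := M) (ζ.1 l) (b.1 l p) (y p)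
      rw [sub_eq_iff_eq_add'] at this
      simpa [topAct] using this
    simp only [e2, Finset.sum_add_distrib, Finset.sum_sub_distrib]
    rw [topAct, map_neg, hth, map_add, map_neg, map_sub]
    simp only [k, yb, map_sum]
    abel

theorem cokMap_injective : Function.Injective (cokMap W) := by
  intro v w h
  obtain ⟨u, hu⟩ := (Submodule.Quotient.eq _).1 h
  have hu' : ∀ ζ, tgtVal (tw.phi _ u) ζ + tgtVal (cokRep W w) ζ = tgtVal (cokRep W v) ζ := by
    intro ζ
    rw [← tgtVal_add, hu, sub_add_cancel]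
  refine Win.ext fun p => CE.raw.injective ?_
  have hk : topC u p = 0 := by
    funext x
    refine Lam.nondeg (topC_gr u p x) fun a ha => ?_
    have ha' : Lam.sigma a ∈ Lam.gr (5 - (p : ℤ)) := by
      rw [show (5 : ℤ) - p = 4 - (p - 1) by ring]; exact Lam.sigma_gr ha
    have := congrFun (hu' (row1 p _ (inl_row p ha'))) x
    rw [Pi.add_apply, phi_row_inl u p ha', cokRep_spec, cokRep_spec,
      sum_row1 (fun p' z => lamEnd (Lam.sigma z.b) (pwFun W.s (CE.raw (w.comp p'))))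
        (fun p' => by simp [show (0 : Dal).b = 0 from rfl]),
      sum_row1 (fun p' z => lamEnd (Lam.sigma z.b) (pwFun W.s (CE.raw (v.comp p'))))
        (fun p' => by simp [show (0 : Dal).b = 0 from rfl])] at this
    simpa [Lam.sigma_sigma, lamEnd_apply] using this
  have hy : pwFun W.s (CE.raw (v.comp p)) - pwFun W.s (CE.raw (w.comp p)) +
      pwFun (th M.mat) (botC u p) = 0 := by
    funext x
    refine Lam.nondeg (add_mem (sub_mem ((raw_gr' v p).pw W.s x) ((raw_gr' w p).pw W.s x))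
      ((botC_gr u p).pw _ x)) fun b hb => ?_
    have := congrFun (hu' (row1 p _ (tau_row p (Lam.sigma_gr hb)))) x
    rw [Pi.add_apply, phi_row_tau u p (Lam.sigma_gr hb), hk, cokRep_spec, cokRep_spec,
      sum_row1 (fun p' z => lamEnd (Lam.sigma z.b) (pwFun W.s (CE.raw (w.comp p'))))
        (fun p' => by simp [show (0 : Dal).b = 0 from rfl]),
      sum_row1 (fun p' z => lamEnd (Lam.sigma z.b) (pwFun W.s (CE.raw (v.comp p'))))
        (fun p' => by simp [show (0 : Dal).b = 0 from rfl])] at this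
    simp only [Dal.mk_snd, Lam.sigma_sigma, map_zero, zero_add, Pi.add_apply, Pi.neg_apply,
      lamEnd_apply] at this
    simp only [Pi.add_apply, Pi.sub_apply, mul_add, mul_sub, ← this]
    abel
  have h2 := congrArg (pwFun W.p) hy
  rw [map_add, map_sub, ← pwFun_mul, ← pwFun_mul, ← pwFun_mul, W.p_s, W.p_th, pwFun_one,
    pwFun_one, map_zero, show pwFun (0 : Matrix ι' (Fin 2 × ι) ℚ) (botC u p) = 0 from
      funext fun y => by simp [pwFun_apply], add_zero, sub_eq_zero] at h2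
  exact h2

/-- A row with a single entry, linearly. -/
def rowLin (p : Fin 5) (f : Lam →ₗ[ℚ] Dal) (hf : ∀ a, f a ∈ Dal.gr (5 - (p : ℤ))) :
    Lam →ₗ[ℚ] ↥rowSub :=
  LinearMap.codRestrict _ (LinearMap.single ℚ (fun _ : Fin 5 => Dal) p ∘ₗ f)
    (fun a => (row1 p _ (hf a)).2)

theorem tgtVal_row_dual (ψ : tw.Tgt (FMod M 0)) (p : Fin 5) (j : ℤ) (x : Fin 2 × ι)
    (f : Lam →ₗ[ℚ] Dal) (hf : ∀ a, f a ∈ Dal.gr (5 - (p : ℤ))) :
    ∃ k ∈ Lam.gr j, ∀ a ∈ Lam.gr (4 - j),
      Lam.sigma a * k = tgtVal ψ (row1 p _ (hf a)) x := by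
  obtain ⟨k, hk, hk'⟩ := Lam.exists_dual j
    (LinearMap.proj (φ := fun _ : Fin 2 × ι => Lam) x ∘ₗ tgtLin ψ ∘ₗ rowLin p f hf ∘ₗ Lam.sigma)
    (fun a _ => tgtVal_gr ψ _ x)
  refine ⟨k, hk, fun a ha => ?_⟩
  rw [hk' _ (Lam.sigma_gr ha)]
  show tgtVal ψ (rowLin p f hf (Lam.sigma (Lam.sigma a))) x = _
  rw [Lam.sigma_sigma]
  rfl

/-- The embedding of `Lam` into degree `k` of the first component. -/
def inlLin (k : ℤ) : Lam →ₗ[ℚ] Dal where
  toFun a := Dal.mk (Lam.proj k a) 0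
  map_add' a b := by ext1 <;> simp
  map_smul' q a := by ext1 <;> simp

/-- The embedding of `Lam` into degree `k` of the second component. -/
def tauLin (k : ℤ) : Lam →ₗ[ℚ] Dal where
  toFun a := Dal.mk 0 (Lam.proj k a)
  map_add' a b := by ext1 <;> simp
  map_smul' q a := by ext1 <;> simp

theorem exists_top (ψ : tw.Tgt (FMod M 0)) (p : Fin 5) (x : Fin 2 × ι) :
    ∃ k ∈ Lam.gr ((p : ℤ) - 1), ∀ (a : Lam) (ha : a ∈ Lam.gr (5 - (p : ℤ))),
      Lam.sigma a * k = tgtVal ψ (row1 p _ (inl_row p ha)) x := by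
  obtain ⟨k, hk, hk'⟩ := tgtVal_row_dual ψ p ((p : ℤ) - 1) x (inlLin (5 - (p : ℤ)))
    (fun a => inl_row p (Lam.proj_mem _ a))
  refine ⟨k, hk, fun a ha => ?_⟩
  rw [hk' a (by rwa [show (4 : ℤ) - (p - 1) = 5 - p by ring])]
  congr 2
  show Dal.mk (Lam.proj _ a) 0 = Dal.mk a 0
  rw [Lam.proj_eq ha]

theorem exists_bot (ψ : tw.Tgt (FMod M 0)) (p : Fin 5) (x : Fin 2 × ι) :
    ∃ y ∈ Lam.gr (p : ℤ), ∀ (b : Lam) (hb : b ∈ Lam.gr (4 - (p : ℤ))),
      Lam.sigma b * y = tgtVal ψ (row1 p _ (tau_row p hb)) x := by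
  obtain ⟨k, hk, hk'⟩ := tgtVal_row_dual ψ p (p : ℤ) x (tauLin (4 - (p : ℤ)))
    (fun a => tau_row p (Lam.proj_mem _ a))
  refine ⟨k, hk, fun a ha => ?_⟩
  rw [hk' a ha]
  congr 2
  show Dal.mk 0 (Lam.proj _ a) = Dal.mk 0 a
  rw [Lam.proj_eq ha]

theorem cokMap_surjective : Function.Surjective (cokMap W) := by
  intro X
  obtain ⟨ψ, rfl⟩ := Submodule.mkQ_surjective _ X
  choose k hk hk' using exists_top ψ
  obtain ⟨u, hu⟩ := exists_src (M := M) k (fun _ => 0) hk (fun _ _ => zero_mem _)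
  choose y hy hy' using exists_bot ψ
  let Y : Fin 5 → (Fin 2 × ι → Lam) := fun p => y p + dW (tq M.mat) (k p)
  have hY : ∀ p : Fin 5, InGr (p : ℤ) (Y p) := by
    intro p x
    refine add_mem (hy p x) ?_
    have := InGr.dW (hk p) (tq M.mat) x
    rwa [sub_add_cancel] at this
  refine ⟨Win.mk (fun p => CE.raw.symm (pwFun W.p (Y p))) (fun p => (mem_ceG M').2 fun r => ?_),
    ?_⟩
  · rw [LinearEquiv.apply_symm_apply, sub_zero]
    exact InGr.pw (hY p) W.p r
  refine (cls_eq_of_bot k (fun p => -pwFun W.Q (Y p)) hk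
    (fun p x => neg_mem (InGr.pw (hY p) W.Q x)) fun ζ => ?_).symm
  rw [tgtVal_split ψ ζ, cokRep_spec, ← Finset.sum_add_distrib]
  refine Finset.sum_congr rfl fun p _ => ?_
  simp only [Win.comp_mk, LinearEquiv.apply_symm_apply]
  have hb : (ζ.1 p).b ∈ Lam.gr (4 - (p : ℤ)) := by
    have := (ζ.2 p).2; rwa [show (5 : ℤ) - p - 1 = 4 - p by ring] at this
  funext x
  have h3 := pwFun_add (th M.mat * W.Q) (W.s * W.p) (Y p)
  rw [W.coker_split, pwFun_one, pwFun_mul, pwFun_mul] at h3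
  have h4 : pwFun W.s (pwFun W.p (Y p)) x =
      y p x + dW (tq M.mat) (k p) x - pwFun (th M.mat) (pwFun W.Q (Y p)) x := by
    rw [eq_sub_iff_add_eq, add_comm]
    exact (congrFun h3 x).symm
  simp only [Pi.add_apply, lamEnd_apply, Pi.sub_apply, topAct, map_neg, Pi.neg_apply, h4,
    ← hk' p x _ (ζ.2 p).1, ← hy' p x _ hb]
  noncomm_ring

/-- The identification of the cokernel. -/
def cokEquiv : FMod M' 0 ≃ₗ[Bal] tw.X (FMod M 0) :=
  LinearEquiv.ofBijective (cokMap W) ⟨cokMap_injective W, cokMap_surjective W⟩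

end

end Vale.Agent.P176
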