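import Vale.Agent.P176.Complex
import Vale.Agent.P176.Twist

/-!
The change of coordinates in which the twisted module becomes a cone.
-/

namespace Vale.Agent.P176

open Tab

noncomputable section

variable {ι : Type} [Fintype ι] [DecidableEq ι] (E : Quad ι)

/-- The matrices of the tensor product with the two dimensional representation. -/
def tq : Quad (Fin 2 × ι) := fun b x y =>
  (if x.1 = y.1 then E b x.2 y.2 else 0) + if x.2 = y.2 then (sig b x.1 y.1 : ℚ) else 0

/-- The matrices of the intertwiner coefficients. -/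
def gq : Quad (Fin 2 × ι) := fun c x y => if x.2 = y.2 then (gm c x.1 y.1 : ℚ) else 0

/-- The intertwiner. -/
def th : Matrix (Fin 2 × ι) (Fin 2 × ι) ℚ := ∑ c, gq c * tq E c

theorem pwFun_tq (b : Fin 4) (m : Fin 2 × ι → Lam) (o : Fin 2) (r : ι) :
    pwFun (tq E b) m (o, r) = pwFun (E b) (fun s => m (o, s)) r +
      ∑ o', (sig b o o' : ℚ) • m (o', r) := by
  simp only [pwFun_apply, tq, add_smul, Finset.sum_add_distrib, Fintype.sum_prod_type, ite_smul,
    zero_smul, Finset.sum_ite_irrel, Finset.sum_const_zero, Finset.sum_ite_eq, Finset.mem_univ,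
    if_true]

theorem pwFun_gq (c : Fin 4) (m : Fin 2 × ι → Lam) (o : Fin 2) (r : ι) :
    pwFun (gq c) m (o, r) = ∑ o', (gm c o o' : ℚ) • m (o', r) := by
  simp only [pwFun_apply, gq, Fintype.sum_prod_type, ite_smul, zero_smul, Finset.sum_ite_eq,
    Finset.mem_univ, if_true]

/-- The homotopy. -/
def hop : (Fin 2 × ι → Lam) →ₗ[ℚ] (Fin 2 × ι → Lam) :=
  ∑ c, (pwFun (gq c)).comp ((Lam.iota c).compLeft (Fin 2 × ι))

theorem hop_apply (m : Fin 2 × ι → Lam) (x : Fin 2 × ι) :
    hop m x = ∑ c, pwFun (gq c) (fun y => Lam.iota c (m y)) x := by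
  simp [hop, Finset.sum_apply]
  rfl

theorem iota_xi (c b : Fin 4) : Lam.iota c (Lam.xi b) = if c = b then 1 else 0 := by
  ext u
  rw [Lam.xi, Lam.iota, Lam.table_mon_apply,
    (by decide +kernel : ∀ c b : Fin 4, ∀ u : Fin 16,
      iC c (one4 b) u = if c = b ∧ u = 0 then 1 else 0) c b u]
  by_cases h : c = b <;> simp [h, Lam.one_def, Lam.mon_apply]

theorem iota_xi_mul (c b : Fin 4) (x : Lam) :
    Lam.iota c (Lam.xi b * x) = (if c = b then x else 0) - Lam.xi b * Lam.iota c x := by
  rw [Lam.iota_mul_rule, sigma_xi, iota_xi, neg_mul, sub_eq_add_neg]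
  congr 1
  split_ifs <;> simp

theorem hop_homotopy (m : Fin 2 × ι → Lam) :
    hop (dW (tq E) m) + dW (tq E) (hop m) = pwFun (th E) m := by
  funext x
  obtain ⟨o, r⟩ := x
  have hcomm : ∀ b c, pwFun (tq E b) (pwFun (gq c) (fun y => Lam.iota c (m y))) (o, r) -
      pwFun (gq c) (pwFun (tq E b) (fun y => Lam.iota c (m y))) (o, r) =
      ∑ o', (((sig b o 0 * gm c 0 o' + sig b o 1 * gm c 1 o') -
        (gm c o 0 * sig b 0 o' + gm c o 1 * sig b 1 o') : ℤ) : ℚ) • Lam.iota c (m (o', r)) := by
    intro b c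
    simp only [pwFun_tq, pwFun_gq]
    simp only [pwFun_apply, smul_add, Finset.sum_add_distrib, Finset.smul_sum, Fin.sum_univ_two,
      smul_smul]
    push_cast
    simp only [mul_comm]
    module
  have hd : ∀ c, pwFun (gq c) (fun y => Lam.iota c (Lam.d (m y))) (o, r) +
      Lam.d (pwFun (gq c) (fun y => Lam.iota c (m y)) (o, r)) =
      ∑ o', (gm c o o' : ℚ) • (Lam.iota c (Lam.d (m (o', r))) + Lam.d (Lam.iota c (m (o', r)))) := by
    intro c
    simp only [pwFun_gq, map_sum, map_smul, smul_add, Finset.sum_add_distrib]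
  have hx : ∀ b c, pwFun (gq c) (fun y => Lam.iota c (Lam.xi b * pwFun (tq E b) m y)) (o, r) =
      (if c = b then pwFun (gq c * tq E b) m (o, r) else 0) -
        Lam.xi b * pwFun (gq c) (pwFun (tq E b) (fun y => Lam.iota c (m y))) (o, r) := by
    intro b c
    simp only [iota_xi_mul, pwFun_mul]
    rw [show (fun y => (if c = b then pwFun (tq E b) m y else 0) -
        Lam.xi b * Lam.iota c (pwFun (tq E b) m y)) =
      (if c = b then pwFun (tq E b) m else 0) -
        fun y => Lam.mulB (Lam.xi b) (Lam.iota c (pwFun (tq E b) m y)) from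
      funext fun y => by split_ifs with h <;> simp [h, Lam.mulB_apply]]
    rw [map_sub, Pi.sub_apply, pwFun_map _ (Lam.mulB (Lam.xi b)), ← pwFun_map (tq E b)]
    split_ifs <;> simp [Lam.mulB_apply]
  have hh : ∀ b, pwFun (tq E b) (hop m) (o, r) =
      ∑ c, pwFun (tq E b) (pwFun (gq c) (fun y => Lam.iota c (m y))) (o, r) := by
    intro b
    rw [show hop m = ∑ c, pwFun (gq c) (fun y => Lam.iota c (m y)) from
      funext fun y => by rw [hop_apply, Finset.sum_apply], map_sum, Finset.sum_apply]
  have hk : ∀ c, pwFun (gq c) (fun y => Lam.iota c (dW (tq E) m y)) (o, r) =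
      pwFun (gq c) (fun y => Lam.iota c (Lam.d (m y))) (o, r) +
        ∑ b, pwFun (gq c) (fun y => Lam.iota c (Lam.xi b * pwFun (tq E b) m y)) (o, r) := by
    intro c
    rw [show (fun y => Lam.iota c (dW (tq E) m y)) = (fun y => Lam.iota c (Lam.d (m y))) +
        ∑ b, (fun y => Lam.iota c (Lam.xi b * pwFun (tq E b) m y)) from
      funext fun y => by simp [dW_apply, map_add, map_sum, Finset.sum_apply]]
    rw [map_add, Pi.add_apply, map_sum, Finset.sum_apply]
  have hlie : (∑ c, ∑ o', (gm c o o' : ℚ) •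
      (Lam.iota c (Lam.d (m (o', r))) + Lam.d (Lam.iota c (m (o', r))))) +
      ∑ b, ∑ c, Lam.xi b * ∑ o', (((sig b o 0 * gm c 0 o' + sig b o 1 * gm c 1 o') -
        (gm c o 0 * sig b 0 o' + gm c o 1 * sig b 1 o') : ℤ) : ℚ) •
          Lam.iota c (m (o', r)) = 0 := by
    rw [Finset.sum_comm]
    simp only [lie_aux]
    have : ∀ b : Fin 4, ∑ c, Lam.xi b * ∑ o' : Fin 2,
        (((sig b o 0 * gm c 0 o' + sig b o 1 * gm c 1 o') -
        (gm c o 0 * sig b 0 o' + gm c o 1 * sig b 1 o') : ℤ) : ℚ) • Lam.iota c (m (o', r)) =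
        -∑ o', ∑ c, (((gm c o 0 * sig b 0 o' + gm c o 1 * sig b 1 o') -
        (sig b o 0 * gm c 0 o' + sig b o 1 * gm c 1 o') : ℤ) : ℚ) •
          (Lam.xi b * Lam.iota c (m (o', r))) := by
      intro b
      rw [Finset.sum_comm (s := (Finset.univ : Finset (Fin 2))), ← Finset.sum_neg_distrib]
      refine Finset.sum_congr rfl fun c _ => ?_
      rw [Finset.mul_sum, ← Finset.sum_neg_distrib]
      refine Finset.sum_congr rfl fun o' _ => ?_
      rw [mul_smul_comm]
      push_cast
      module
    simp only [this, Finset.sum_neg_distrib]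
    rw [Finset.sum_comm (s := (Finset.univ : Finset (Fin 4)))]
    rw [add_neg_eq_zero]
    refine Finset.sum_congr rfl fun o' _ => ?_
    rw [Finset.sum_comm]
  rw [Pi.add_apply, hop_apply, dW_apply, th]
  simp only [hk, hx, hh, Finset.sum_add_distrib, Finset.sum_sub_distrib, Finset.mul_sum,
    Finset.sum_ite_eq, Finset.mem_univ, if_true]
  rw [show pwFun (∑ c, gq c * tq E c) m (o, r) = ∑ c, pwFun (gq c * tq E c) m (o, r) by
    simp [pwFun_apply, Matrix.sum_apply, Finset.sum_smul]; rw [Finset.sum_comm]]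
  rw [hop_apply, map_sum, Finset.sum_comm (f := fun c b => Lam.xi b * _)]
  have e1 := Finset.sum_congr (s₁ := (Finset.univ : Finset (Fin 4))) rfl fun c _ => hd c
  rw [Finset.sum_add_distrib] at e1
  have e2 : ∀ b, (∑ c, Lam.xi b * pwFun (tq E b) (pwFun (gq c) fun y => Lam.iota c (m y)) (o, r)) -
      ∑ c, Lam.xi b * pwFun (gq c) (pwFun (tq E b) fun y => Lam.iota c (m y)) (o, r) =
      ∑ c, Lam.xi b * ∑ o', (((sig b o 0 * gm c 0 o' + sig b o 1 * gm c 1 o') -
        (gm c o 0 * sig b 0 o' + gm c o 1 * sig b 1 o') : ℤ) : ℚ) •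
          Lam.iota c (m (o', r)) := by
    intro b
    rw [← Finset.sum_sub_distrib]
    exact Finset.sum_congr rfl fun c _ => by rw [← mul_sub, hcomm]
  have e3 := Finset.sum_congr (s₁ := (Finset.univ : Finset (Fin 4))) rfl fun b _ => e2 b
  rw [Finset.sum_sub_distrib] at e3
  linear_combination (norm := abel) e1 + e3 + hlie

/-- Flattening a pair of module elements. -/
def flat {M : Rep ι} (f : Fin 2 → CE M) : Fin 2 × ι → Lam := fun x => CE.raw (f x.1) x.2

/-- The inverse of `flat`. -/
def unflat {M : Rep ι} (m : Fin 2 × ι → Lam) : Fin 2 → CE M :=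
  fun o => CE.raw.symm fun r => m (o, r)

variable {M : Rep ι}

omit [DecidableEq ι] in
theorem flat_unflat (m : Fin 2 × ι → Lam) : flat (M := M) (unflat m) = m :=
  funext fun x => by simp [flat, unflat]

omit [DecidableEq ι] in
theorem unflat_flat (f : Fin 2 → CE M) : unflat (flat f) = f :=
  funext fun o => CE.ext M fun r => by simp [flat, unflat]

omit [DecidableEq ι] in
theorem flat_injective : Function.Injective (flat (M := M)) :=
  Function.LeftInverse.injective unflat_flat

omit [DecidableEq ι] in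
@[simp] theorem flat_add (f g : Fin 2 → CE M) : flat (f + g) = flat f + flat g :=
  funext fun x => by simp [flat]

omit [DecidableEq ι] in
theorem unflat_add (m m' : Fin 2 × ι → Lam) :
    unflat (M := M) (m + m') = unflat m + unflat m' :=
  flat_injective (by rw [flat_add, flat_unflat, flat_unflat, flat_unflat])

omit [DecidableEq ι] in
theorem unflat_zero : unflat (M := M) (0 : Fin 2 × ι → Lam) = 0 :=
  flat_injective (by rw [flat_unflat]; funext x; simp [flat])

omit [DecidableEq ι] in
theorem raw_inl_smul (a : Lam) (v : CE M) (r : ι) :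
    CE.raw (Dal.inl a • v) r = a * CE.raw v r := by
  rw [CE.smul_apply]; simp

omit [DecidableEq ι] in
theorem raw_tau_smul (v : CE M) (r : ι) : CE.raw (Dal.tau • v) r = dW M.mat (CE.raw v) r := by
  rw [CE.smul_apply]; simp [Dal.tau]

omit [DecidableEq ι] in
theorem flat_sc (a : Lam) (m : Fin 2 × ι → Lam) :
    flat (M := M) (mv (sc a) (unflat m)) = lamEnd a m := by
  funext x
  show CE.raw (mv (sc a) (unflat (M := M) m) x.1) x.2 = _
  simp [mv, sc, Matrix.diagonal, raw_inl_smul, unflat, lamEnd_apply]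

theorem flat_gMat (a : Lam) (m : Fin 2 × ι → Lam) :
    flat (M := M) (mv (gMat a) (unflat m)) =
      ∑ c, pwFun (gq c) (lamEnd (Lam.iota c a) m) := by
  funext x
  obtain ⟨o, r⟩ := x
  show CE.raw (mv (gMat a) (unflat (M := M) m) o) r = _
  simp only [mv, gMat, Finset.sum_smul, smul_assoc, map_sum, Finset.sum_apply, LinearEquiv.map_smul,
    Pi.smul_apply, raw_inl_smul, unflat, LinearEquiv.apply_symm_apply, pwFun_gq, lamEnd_apply]
  exact Finset.sum_comm

theorem flat_tMat (m : Fin 2 × ι → Lam) :
    flat (M := M) (mv tMat (unflat m)) = dW (tq M.mat) m := by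
  funext x
  obtain ⟨o, r⟩ := x
  show CE.raw (mv tMat (unflat (M := M) m) o) r = _
  have h : ∀ o', CE.raw ((if o = o' then Dal.tau else 0) • unflat (M := M) m o') r =
      if o = o' then dW M.mat (fun s => m (o, s)) r else 0 := by
    intro o'
    split_ifs with h
    · subst h; rw [raw_tau_smul]; simp [unflat]
    · simp
  simp only [mv, tMat, Matrix.add_apply, Matrix.diagonal, Matrix.of_apply, add_smul, map_sum,
    map_add, Finset.sum_add_distrib, Finset.sum_apply, Pi.add_apply, h, Finset.sum_ite_eq,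
    Finset.mem_univ, if_true]
  rw [dW_apply, dW_apply]
  simp only [pwFun_tq, sMat, Finset.sum_smul, smul_assoc, map_sum, Finset.sum_apply,
    LinearEquiv.map_smul, Pi.smul_apply, raw_inl_smul, unflat, LinearEquiv.apply_symm_apply,
    mul_add, Finset.sum_add_distrib, Finset.mul_sum, mul_smul_comm]
  rw [Finset.sum_comm (γ := Fin 4)]
  abel

theorem hop_lam (a : Lam) (m : Fin 2 × ι → Lam) :
    hop (lamEnd a m) =
      (∑ c, pwFun (gq c) (lamEnd (Lam.iota c a) m)) + lamEnd (Lam.sigma a) (hop m) := by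
  funext x
  simp only [hop_apply, lamEnd_apply, Pi.add_apply, Finset.sum_apply, Finset.mul_sum,
    Lam.iota_mul_rule]
  rw [← Finset.sum_add_distrib]
  refine Finset.sum_congr rfl fun c _ => ?_
  simp only [pwFun_apply, lamEnd_apply, smul_add, Finset.sum_add_distrib, Finset.mul_sum,
    mul_smul_comm]

/-- The new coordinates. -/
def coords (k m : Fin 2 × ι → Lam) : Kap → CE M :=
  Sum.elim (unflat (k + hop m)) (unflat m)

theorem coords_add (k m k' m' : Fin 2 × ι → Lam) :
    coords (M := M) (k + k') (m + m') = coords k m + coords k' m' := by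
  funext x
  obtain o | o := x
  · simp only [coords, Pi.add_apply, Sum.elim_inl, map_add]
    rw [← Pi.add_apply, ← unflat_add, add_add_add_comm]
  · simp only [coords, Pi.add_apply, Sum.elim_inr]
    rw [← Pi.add_apply, ← unflat_add]

theorem coords_zero : coords (M := M) (0 : Fin 2 × ι → Lam) 0 = 0 := by
  funext x
  obtain o | o := x <;> simp [coords, unflat_zero]

theorem mv_blocks {J F : Type} [Fintype J] [AddCommGroup F] [Module Dal F]
    (A B C D : Matrix J J Dal) (f g : J → F) :
    mv (Matrix.fromBlocks A B C D) (Sum.elim f g) =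
      Sum.elim (mv A f + mv B g) (mv C f + mv D g) := by
  funext x
  obtain i | i := x <;> simp [mv, Fintype.sum_sum_type]

theorem phi_coords (a : Lam) (k m : Fin 2 × ι → Lam) :
    mv (Matrix.fromBlocks (sc (Lam.sigma a)) (gMat a) 0 (sc a)) (coords (M := M) k m) =
      coords (lamEnd (Lam.sigma a) k) (lamEnd a m) := by
  rw [coords, mv_blocks, zero_mv, zero_add, coords]
  congr 1
  · refine flat_injective ?_
    rw [flat_add, flat_sc, flat_gMat, flat_unflat, hop_lam, map_add]
    abel
  · exact flat_injective (by rw [flat_sc, flat_unflat])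

theorem tau_coords (k m : Fin 2 × ι → Lam) :
    mv tauTwist (coords (M := M) k m) =
      coords (-(dW (tq M.mat) k + pwFun (th M.mat) m)) (dW (tq M.mat) m) := by
  rw [coords, tauTwist, mv_blocks, zero_mv, zero_mv, zero_add, add_zero, coords]
  congr 1
  · refine flat_injective ?_
    rw [flat_unflat, ← hop_homotopy]
    have : mv (-tMat) (unflat (M := M) (k + hop m)) = -mv tMat (unflat (k + hop m)) := by
      funext o; simp [mv]
    rw [this, show flat (-mv tMat (unflat (M := M) (k + hop m))) =
      -flat (mv tMat (unflat (M := M) (k + hop m))) from funext fun x => by simp [flat],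
      flat_tMat, map_add]
    abel
  · exact flat_injective (by rw [flat_tMat, flat_unflat])

/-- The action of `D` on the lower coordinate. -/
def botAct (z : Dal) (m : Fin 2 × ι → Lam) : Fin 2 × ι → Lam :=
  lamEnd z.a m + lamEnd z.b (dW (tq E) m)

/-- The action of `D` on the upper coordinate. -/
def topAct (z : Dal) (k m : Fin 2 × ι → Lam) : Fin 2 × ι → Lam :=
  lamEnd (Lam.sigma z.a) k - lamEnd (Lam.sigma z.b) (dW (tq E) k + pwFun (th E) m)

theorem twist_coords (z : Dal) (k m : Fin 2 × ι → Lam) :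
    mv (twistHom z) (coords (M := M) k m) =
      coords (topAct M.mat z k m) (botAct M.mat z m) := by
  rw [twistHom_apply, add_mv, mv_mul, tau_coords, phi_coords, phi_coords, ← coords_add]
  congr 1
  rw [topAct, map_neg, sub_eq_add_neg]

end

end Vale.Agent.P176
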