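import Mathlib.Algebra.Category.ModuleCat.ProjectiveDimension
import Mathlib.Algebra.Category.ModuleCat.Ext.Finite
import Mathlib.Algebra.Category.ModuleCat.Projective
import Mathlib.Algebra.Homology.ShortComplex.ModuleCat

/-! Module level wrappers for projective dimension. -/

namespace Vale.Agent.P176

open CategoryTheory

variable {R : Type} [Ring R]
variable {M N L : Type} [AddCommGroup M] [AddCommGroup N] [AddCommGroup L]
variable [Module R M] [Module R N] [Module R L]

/-- `M` has projective dimension less than `n`. -/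
abbrev PdLT (R : Type) [Ring R] (M : Type) [AddCommGroup M] [Module R M] (n : ℕ) : Prop :=
  HasProjectiveDimensionLT (ModuleCat.of R M) n

theorem PdLT.mono {n m : ℕ} (h : PdLT R M n) (hnm : n ≤ m) : PdLT R M m :=
  hasProjectiveDimensionLT_of_ge _ n m hnm

theorem PdLT.of_projective [Module.Projective R M] : PdLT R M 1 :=
  have : Projective (ModuleCat.of R M) := (IsProjective.iff_projective M).1 inferInstance
  inferInstance

theorem PdLT.projective (h : PdLT R M 1) : Module.Projective R M :=
  (IsProjective.iff_projective M).2 (projective_iff_hasProjectiveDimensionLT_one.2 h)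

theorem PdLT.of_equiv (e : M ≃ₗ[R] N) {n : ℕ} (h : PdLT R M n) : PdLT R N n :=
  have := h
  hasProjectiveDimensionLT_of_iso e.toModuleIso n

theorem PdLT.of_subsingleton [Subsingleton M] (n : ℕ) : PdLT R M n :=
  have : HasProjectiveDimensionLT (ModuleCat.of R M) 0 :=
    (ModuleCat.isZero_of_subsingleton (ModuleCat.of R M)).hasProjectiveDimensionLT_zero
  PdLT.mono this (Nat.zero_le n)

section SES

variable (f : M →ₗ[R] N) (g : N →ₗ[R] L)

theorem shortExact_of (hex : Function.Exact f g) (hf : Function.Injective f)
    (hg : Function.Surjective g) :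
    (ModuleCat.shortComplexOfCompEqZero f g hex.linearMap_comp_eq_zero).ShortExact :=
  ModuleCat.shortComplex_shortExact _ hex hf hg

variable {f g} (hex : Function.Exact f g) (hf : Function.Injective f) (hg : Function.Surjective g)
include hex hf hg

theorem pdLT_mid {n : ℕ} (h1 : PdLT R M n) (h3 : PdLT R L n) : PdLT R N n :=
  (shortExact_of f g hex hf hg).hasProjectiveDimensionLT_X₂ n h1 h3

theorem pdLT_right {n : ℕ} (h1 : PdLT R M n) (h2 : PdLT R N (n + 1)) : PdLT R L (n + 1) :=
  (shortExact_of f g hex hf hg).hasProjectiveDimensionLT_X₃ n h1 h2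

theorem pdLT_left {n : ℕ} (h2 : PdLT R N n) (h3 : PdLT R L (n + 1)) : PdLT R M n :=
  (shortExact_of f g hex hf hg).hasProjectiveDimensionLT_X₁ n h2 h3

end SES

/-- The shift of dimension in a four term sequence `0 → M → N → P → L → 0`. -/
theorem pd_four_term {P : Type} [AddCommGroup P] [Module R P] [Module.Projective R P]
    (d : M →ₗ[R] N) (f : N →ₗ[R] P) (g : P →ₗ[R] L)
    (hd : Function.Injective d) (hdf : Function.Exact d f) (hfg : Function.Exact f g)
    (hg : Function.Surjective g) {c m : ℕ} (hN : PdLT R N c) (hc : c ≤ m) (hm : 1 ≤ m)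
    (hM : PdLT R M (m + 1)) (hM' : ¬ PdLT R M m) :
    PdLT R L (m + 3) ∧ ¬ PdLT R L (m + 2) := by
  let g' : N →ₗ[R] LinearMap.range f := f.rangeRestrict
  have hg' : Function.Surjective g' := f.surjective_rangeRestrict
  have hex1 : Function.Exact d g' := by
    intro x
    rw [← hdf x]
    exact ⟨fun h => congrArg Subtype.val h, fun h => Subtype.ext h⟩
  have hex2 : Function.Exact (LinearMap.range f).subtype g := by
    intro x
    rw [hfg x]
    constructor
    · rintro ⟨y, rfl⟩; exact ⟨⟨f y, y, rfl⟩, rfl⟩
    · rintro ⟨⟨y, z, rfl⟩, rfl⟩; exact ⟨z, rfl⟩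
  have hi : Function.Injective (LinearMap.range f).subtype := Subtype.val_injective
  have hP : PdLT R P 1 := PdLT.of_projective
  constructor
  · exact pdLT_right hex2 hi hg (pdLT_right hex1 hd hg' hM (hN.mono (by omega)))
      (hP.mono (by omega))
  · intro h
    exact hM' (pdLT_left hex1 hd hg' (hN.mono hc) (pdLT_left hex2 hi hg (hP.mono (by omega)) h))

end Vale.Agent.P176
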