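import Vale.Agent.P176.Twist
import Vale.Agent.P176.Pd
import Mathlib.RingTheory.Finiteness.Basic

/-!
The trivial extension of `B` by the bimodule `X(B)` and the homological algebra over it.
-/

namespace Vale.Agent.P176.Twist

noncomputable section

variable {B : Type} [Ring B] [Algebra ℚ B] (T : Twist B)
variable {F G K P : Type}
variable [AddCommGroup F] [Module ℚ F] [Module B F] [IsScalarTower ℚ B F]
variable [AddCommGroup G] [Module ℚ G] [Module B G] [IsScalarTower ℚ B G]
variable [AddCommGroup K] [Module ℚ K] [Module B K] [IsScalarTower ℚ B K]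
variable [AddCommGroup P] [Module ℚ P] [Module B P] [IsScalarTower ℚ B P]

/-- An element of `X(B)` times an element of `F`. -/
def xs (x : T.X B) (f : F) : T.X F := T.map (LinearMap.toSpanSingleton B F f) x

theorem xs_add_left (x x' : T.X B) (f : F) : T.xs (x + x') f = T.xs x f + T.xs x' f :=
  map_add _ _ _

theorem xs_zero_left (f : F) : T.xs 0 f = 0 := map_zero _

theorem xs_smul_left (b : B) (x : T.X B) (f : F) : T.xs (b • x) f = b • T.xs x f :=
  map_smul _ _ _

theorem xs_add_right (x : T.X B) (f f' : F) : T.xs x (f + f') = T.xs x f + T.xs x f' := by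
  unfold xs
  rw [← T.map_add_fun]
  congr 2
  ext; simp

theorem xs_zero_right (x : T.X B) : T.xs x (0 : F) = 0 := by
  unfold xs
  rw [show LinearMap.toSpanSingleton B F 0 = 0 by ext; simp, T.map_zero_fun]

theorem map_xs (g : F →ₗ[B] G) (x : T.X B) (f : F) : T.map g (T.xs x f) = T.xs x (g f) := by
  unfold xs
  rw [T.map_comp]
  congr 2
  ext; simp

theorem xs_xs (x : T.X B) (b : B) (f : F) : T.xs (T.xs x b) f = T.xs x (b • f) := by
  show T.map (LinearMap.toSpanSingleton B F f) (T.xs x b) = T.xs x (b • f)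
  rw [T.map_xs, LinearMap.toSpanSingleton_apply]

theorem xs_one (x : T.X B) : T.xs x (1 : B) = x := by
  unfold xs
  rw [show LinearMap.toSpanSingleton B B 1 = LinearMap.id by ext; simp, T.map_id]

theorem xs_algebraMap (x : T.X B) (q : ℚ) : T.xs x (algebraMap ℚ B q) = q • x := by
  obtain ⟨p, rfl⟩ := Submodule.mkQ_surjective _ x
  unfold xs
  rw [T.map_cls, ← LinearMap.map_smul_of_tower]
  congr 1
  refine T.tgt_ext B fun z o => ?_
  show p.1 z o * algebraMap ℚ B q = q • p.1 z o
  rw [← Algebra.commutes, Algebra.smul_def]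

variable (F)

/-- The induced module. -/
def Ind : Type := F × T.X F

instance instGroupInd : AddCommGroup (T.Ind F) := inferInstanceAs (AddCommGroup (F × T.X F))

instance instRatInd : Module ℚ (T.Ind F) := inferInstanceAs (Module ℚ (F × T.X F))

instance instFiniteInd [Module.Finite ℚ F] : Module.Finite ℚ (T.Ind F) :=
  inferInstanceAs (Module.Finite ℚ (F × T.X F))

variable {F}

/-- The extension algebra acts on induced modules. -/
def act (a : T.Ind B) (u : T.Ind F) : T.Ind F := (a.1 • u.1, a.1 • u.2 + T.xs a.2 u.1)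

theorem act_add (a : T.Ind B) (u v : T.Ind F) : T.act a (u + v) = T.act a u + T.act a v := by
  refine Prod.ext ?_ ?_
  · exact smul_add a.1 u.1 v.1
  · show a.1 • (u.2 + v.2) + T.xs a.2 (u.1 + v.1) = _ + _
    rw [smul_add, T.xs_add_right]; exact add_add_add_comm _ _ _ _

theorem add_act (a b : T.Ind B) (u : T.Ind F) : T.act (a + b) u = T.act a u + T.act b u := by
  refine Prod.ext ?_ ?_
  · exact add_smul a.1 b.1 u.1
  · show (a.1 + b.1) • u.2 + T.xs (a.2 + b.2) u.1 = _ + _
    rw [add_smul, T.xs_add_left]; exact add_add_add_comm _ _ _ _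

theorem act_zero (a : T.Ind B) : T.act a (0 : T.Ind F) = 0 := by
  refine Prod.ext ?_ ?_
  · exact smul_zero a.1
  · show a.1 • (0 : T.X F) + T.xs a.2 (0 : F) = 0
    rw [smul_zero, T.xs_zero_right, add_zero]

theorem zero_act (u : T.Ind F) : T.act 0 u = 0 := by
  refine Prod.ext ?_ ?_
  · exact zero_smul B u.1
  · show (0 : B) • u.2 + T.xs 0 u.1 = 0
    rw [zero_smul, T.xs_zero_left, add_zero]

theorem one_act (u : T.Ind F) : T.act ((1 : B), (0 : T.X B)) u = u := by
  refine Prod.ext ?_ ?_
  · exact one_smul B u.1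
  · show (1 : B) • u.2 + T.xs 0 u.1 = u.2
    rw [one_smul, T.xs_zero_left, add_zero]

theorem act_act (a b : T.Ind B) (u : T.Ind F) : T.act (T.act a b) u = T.act a (T.act b u) := by
  refine Prod.ext ?_ ?_
  · exact mul_smul a.1 b.1 u.1
  · show (a.1 • b.1) • u.2 + T.xs (a.1 • b.2 + T.xs a.2 b.1) u.1 =
      a.1 • (b.1 • u.2 + T.xs b.2 u.1) + T.xs a.2 (b.1 • u.1)
    rw [smul_eq_mul, mul_smul, smul_add, T.xs_add_left, T.xs_smul_left, T.xs_xs, add_assoc]

theorem act_one (a : T.Ind B) : T.act a ((1 : B), (0 : T.X B)) = a := by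
  refine Prod.ext ?_ ?_
  · exact mul_one a.1
  · show a.1 • (0 : T.X B) + T.xs a.2 1 = a.2
    rw [smul_zero, zero_add, T.xs_one]

/-- The trivial extension algebra. -/
abbrev Alg : Type := T.Ind B

instance instRingAlg : Ring T.Alg where
  __ := T.instGroupInd B
  mul := T.act
  one := ((1 : B), (0 : T.X B))
  left_distrib := T.act_add
  right_distrib := T.add_act
  zero_mul := T.zero_act
  mul_zero := T.act_zero
  mul_assoc := T.act_act
  one_mul := T.one_act
  mul_one := T.act_one

theorem mul_def (a b : T.Alg) : a * b = T.act a b := rfl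

/-- The unit section. -/
def unitHom : ℚ →+* T.Alg where
  toFun q := (algebraMap ℚ B q, 0)
  map_one' := Prod.ext (map_one _) rfl
  map_zero' := Prod.ext (map_zero _) rfl
  map_add' a b := Prod.ext (map_add _ _ _) (add_zero 0).symm
  map_mul' a b := by
    refine Prod.ext (map_mul _ _ _) ?_
    show (0 : T.X B) = algebraMap ℚ B a • (0 : T.X B) + T.xs 0 (algebraMap ℚ B b)
    rw [smul_zero, T.xs_zero_left, add_zero]

instance instAlgebraAlg : Algebra ℚ T.Alg where
  smul := fun q a => q • a
  algebraMap := T.unitHom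
  commutes' q a := by
    refine Prod.ext (Algebra.commutes q a.1) ?_
    show algebraMap ℚ B q • a.2 + T.xs 0 a.1 = a.1 • (0 : T.X B) + T.xs a.2 (algebraMap ℚ B q)
    rw [T.xs_zero_left, smul_zero, zero_add, add_zero, T.xs_algebraMap, algebraMap_smul]
  smul_def' q a := by
    refine Prod.ext (Algebra.smul_def q a.1) ?_
    show q • a.2 = algebraMap ℚ B q • a.2 + T.xs 0 a.1
    rw [T.xs_zero_left, add_zero, algebraMap_smul]

instance instModuleInd : Module T.Alg (T.Ind F) where
  smul := T.act
  one_smul := T.one_act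
  mul_smul := T.act_act
  smul_zero := T.act_zero
  smul_add := T.act_add
  add_smul := T.add_act
  zero_smul := T.zero_act

theorem smul_ind (a : T.Alg) (u : T.Ind F) : a • u = T.act a u := rfl

/-- Functoriality of induction. -/
def indMap (f : F →ₗ[B] G) : T.Ind F →ₗ[T.Alg] T.Ind G where
  toFun u := (f u.1, T.map f u.2)
  map_add' u v := Prod.ext (map_add f u.1 v.1) (map_add (T.map f) u.2 v.2)
  map_smul' a u := by
    refine Prod.ext (map_smul f a.1 u.1) ?_
    show T.map f (a.1 • u.2 + T.xs a.2 u.1) = a.1 • T.map f u.2 + T.xs a.2 (f u.1)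
    rw [map_add, map_smul, T.map_xs]

theorem indMap_fst (f : F →ₗ[B] G) (u : T.Ind F) : (T.indMap f u).1 = f u.1 := rfl

theorem indMap_snd (f : F →ₗ[B] G) (u : T.Ind F) : (T.indMap f u).2 = T.map f u.2 := rfl

theorem projective_ind {d : ℕ} (i : F →ₗ[B] (Fin d → B)) (r : (Fin d → B) →ₗ[B] F)
    (h : ∀ f, r (i f) = f) : Module.Projective T.Alg (T.Ind F) := by
  let i' : T.Ind F →ₗ[T.Alg] (Fin d → T.Alg) :=
    LinearMap.pi fun k => T.indMap (LinearMap.proj k ∘ₗ i)
  let r' : (Fin d → T.Alg) →ₗ[T.Alg] T.Ind F :=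
    ∑ k, T.indMap (r ∘ₗ LinearMap.single B (fun _ => B) k) ∘ₗ LinearMap.proj k
  have hid : ∑ k, (r ∘ₗ LinearMap.single B (fun _ => B) k) ∘ₗ (LinearMap.proj k ∘ₗ i) =
      LinearMap.id := by
    ext f
    simp only [LinearMap.coe_sum, Finset.sum_apply, LinearMap.comp_apply, LinearMap.id_apply]
    rw [← map_sum]
    conv_rhs => rw [← h f]
    congr 1
    exact Finset.univ_sum_single (i f)
  refine Module.Projective.of_split i' r' ?_
  refine LinearMap.ext fun u => ?_
  show (∑ k, T.indMap (r ∘ₗ LinearMap.single B (fun _ => B) k) ∘ₗ LinearMap.proj k) (i' u) = u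
  simp only [LinearMap.coe_sum, Finset.sum_apply, LinearMap.comp_apply]
  refine Prod.ext ?_ ?_
  · refine (Prod.fst_sum (s := Finset.univ) (f := fun k => T.indMap _ _)).trans ?_
    have := LinearMap.congr_fun hid u.1
    simpa [LinearMap.coe_sum, i', T.indMap_fst] using this
  · refine (Prod.snd_sum (s := Finset.univ) (f := fun k => T.indMap _ _)).trans ?_
    have h2 := T.map_sum_fun Finset.univ
      (fun k => (r ∘ₗ LinearMap.single B (fun _ => B) k) ∘ₗ (LinearMap.proj k ∘ₗ i)) u.2
    rw [hid, T.map_id] at h2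
    simpa [i', T.indMap_snd, T.map_comp, LinearMap.comp_assoc] using h2.symm

/-- Projection of the algebra to `B`. -/
def fstHom : T.Alg →+* B where
  toFun a := a.1
  map_one' := rfl
  map_zero' := rfl
  map_add' _ _ := rfl
  map_mul' _ _ := rfl

variable (F)

/-- A `B`-module regarded as a module over the extension. -/
def Res (_T : Twist B) (F : Type) : Type := F

instance instGroupRes : AddCommGroup (Res T F) := ‹AddCommGroup F›

instance instBRes : Module B (Res T F) := ‹Module B F›

instance instRatRes : Module ℚ (Res T F) := ‹Module ℚ F›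

instance instFiniteRes [h : Module.Finite ℚ F] : Module.Finite ℚ (Res T F) := h

instance instModuleRes : Module T.Alg (Res T F) := Module.compHom (Res T F) T.fstHom

instance instTowerRes : IsScalarTower ℚ T.Alg (Res T F) :=
  ⟨fun q a f => smul_assoc (M := ℚ) (N := B) (α := F) q a.1 f⟩

variable {F}

theorem smul_res (a : T.Alg) (f : Res T F) : a • f = (show B from a.1) • (show F from f) := rfl

theorem finite_res [Module.Finite ℚ F] : Module.Finite T.Alg (Res T F) :=
  Module.Finite.of_restrictScalars_finite ℚ T.Alg (Res T F)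

/-- Restriction on linear maps. -/
def resMap (f : F →ₗ[B] G) : Res T F →ₗ[T.Alg] Res T G where
  toFun u := f u
  map_add' := map_add f
  map_smul' a u := map_smul f a.1 u

/-- Restriction on equivalences. -/
def resEquiv (f : F ≃ₗ[B] G) : Res T F ≃ₗ[T.Alg] Res T G where
  __ := T.resMap (f : F →ₗ[B] G)
  invFun u := f.symm u
  left_inv := f.left_inv
  right_inv := f.right_inv

/-- The square zero part of an induced module. -/
def inclX : Res T (T.X F) →ₗ[T.Alg] T.Ind F where
  toFun x := ((0 : F), x)
  map_add' x y := Prod.ext (add_zero 0).symm rfl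
  map_smul' a x := by
    refine Prod.ext (smul_zero a.1).symm ?_
    show a.1 • (show T.X F from x) = a.1 • (show T.X F from x) + T.xs a.2 (0 : F)
    rw [T.xs_zero_right, add_zero]

/-- The quotient of an induced module. -/
def projRes : T.Ind F →ₗ[T.Alg] Res T F where
  toFun u := u.1
  map_add' _ _ := rfl
  map_smul' _ _ := rfl

theorem inclX_injective : Function.Injective (T.inclX (F := F)) := fun _ _ h => congrArg Prod.snd h

theorem projRes_surjective : Function.Surjective (T.projRes (F := F)) :=
  fun f => ⟨(f, 0), rfl⟩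

theorem exact_incl_proj : Function.Exact (T.inclX (F := F)) (T.projRes (F := F)) := by
  intro u
  exact ⟨fun h => ⟨u.2, Prod.ext h.symm rfl⟩, fun ⟨x, hx⟩ => hx ▸ rfl⟩

end

end Vale.Agent.P176.Twist
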