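import Vale.Agent.P176.Tables
import Mathlib.Algebra.Algebra.Basic
import Mathlib.LinearAlgebra.Pi
import Mathlib.LinearAlgebra.StdBasis
import Mathlib.LinearAlgebra.FiniteDimensional.Defs
import Mathlib.RingTheory.Finiteness.Basic
import Mathlib.Tactic.LinearCombination
import Mathlib.Tactic.NoncommRing
import Mathlib.Tactic.Abel

/-!
The exterior algebra on four generators with its Chevalley-Eilenberg derivation.
-/

namespace Vale.Agent.P176

open Tab

noncomputable section

/-- The exterior algebra on four generators. -/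
def Lam : Type := Fin 16 → ℚ

namespace Lam

instance : AddCommGroup Lam := inferInstanceAs (AddCommGroup (Fin 16 → ℚ))
instance : Module ℚ Lam := inferInstanceAs (Module ℚ (Fin 16 → ℚ))
instance : Module.Finite ℚ Lam := inferInstanceAs (Module.Finite ℚ (Fin 16 → ℚ))

@[ext] theorem ext {x y : Lam} (h : ∀ u : Fin 16, x u = y u) : x = y := funext h

@[simp] theorem add_apply (x y : Lam) (u : Fin 16) : (x + y) u = x u + y u := rfl
@[simp] theorem smul_apply (q : ℚ) (x : Lam) (u : Fin 16) : (q • x) u = q * x u := rfl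
@[simp] theorem zero_apply (u : Fin 16) : (0 : Lam) u = 0 := rfl
@[simp] theorem neg_apply (x : Lam) (u : Fin 16) : (-x) u = -x u := rfl
@[simp] theorem sub_apply (x y : Lam) (u : Fin 16) : (x - y) u = x u - y u := rfl

theorem sum_apply {ι : Type} (s : Finset ι) (f : ι → Lam) (u : Fin 16) :
    (∑ i ∈ s, f i) u = ∑ i ∈ s, f i u := Finset.sum_apply u s f

/-- The monomials. -/
def mon (s : Fin 16) : Lam := fun u => if u = s then 1 else 0

theorem mon_apply (s u : Fin 16) : mon s u = if u = s then 1 else 0 := rfl

theorem eq_sum (x : Lam) : x = ∑ s, x s • mon s := by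
  ext u
  rw [sum_apply, Finset.sum_eq_single u (fun r _ hr => by simp [mon_apply, Ne.symm hr]) (by simp)]
  simp [mon_apply]

theorem linear_ext {M : Type} [AddCommGroup M] [Module ℚ M] {f g : Lam →ₗ[ℚ] M}
    (h : ∀ s, f (mon s) = g (mon s)) : f = g := by
  refine LinearMap.ext fun x => ?_
  rw [eq_sum x]
  simp [h]

/-- Multiplication. -/
def mulFun (x y : Lam) : Lam := fun u => ∑ t, (cc u t : ℚ) * x (sd u t) * y t

instance : Mul Lam := ⟨mulFun⟩

theorem mul_apply (x y : Lam) (u : Fin 16) : (x * y) u = ∑ t, (cc u t : ℚ) * x (sd u t) * y t := rfl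

theorem add_mul' (x y z : Lam) : (x + y) * z = x * z + y * z := by
  ext u; simp [mul_apply, mul_add, add_mul, Finset.sum_add_distrib]

theorem mul_add' (x y z : Lam) : x * (y + z) = x * y + x * z := by
  ext u; simp [mul_apply, mul_add, Finset.sum_add_distrib]

theorem smul_mul' (q : ℚ) (x y : Lam) : (q • x) * y = q • (x * y) := by
  ext u; simp [mul_apply, Finset.mul_sum]; exact Finset.sum_congr rfl fun t _ => by ring

theorem mul_smul' (q : ℚ) (x y : Lam) : x * (q • y) = q • (x * y) := by
  ext u; simp [mul_apply, Finset.mul_sum]; exact Finset.sum_congr rfl fun t _ => by ring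

/-- Multiplication as a bilinear map. -/
def mulB : Lam →ₗ[ℚ] Lam →ₗ[ℚ] Lam :=
  LinearMap.mk₂ ℚ (· * ·) add_mul' smul_mul' mul_add' mul_smul'

theorem mulB_apply (x y : Lam) : mulB x y = x * y := rfl

theorem mon_mul_mon (s t : Fin 16) : mon s * mon t = (sgn s t : ℚ) • mon (un s t) := by
  ext u
  have h := prod_mon s t u
  rw [mul_apply, Finset.sum_eq_single t (fun r _ hr => by simp [mon_apply, hr]) (by simp)]
  simp only [smul_apply, mon_apply, mul_ite, mul_one, mul_zero, if_true]
  have h' : ((if sd u t = s then cc u t else 0 : ℤ) : ℚ) =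
      ((if u = un s t then sgn s t else 0 : ℤ) : ℚ) := by rw [h]
  simpa [apply_ite (Int.cast : ℤ → ℚ)] using h'

/-- The unit. -/
instance : One Lam := ⟨mon 0⟩

theorem one_def : (1 : Lam) = mon 0 := rfl

theorem mul_assoc' (x y z : Lam) : x * y * z = x * (y * z) := by
  suffices h : mulB.compr₂ mulB =
      ((LinearMap.llcomp ℚ Lam Lam Lam).flip.comp mulB).flip.comp mulB by
    exact LinearMap.congr_fun (LinearMap.congr_fun (LinearMap.congr_fun h x) y) z
  refine linear_ext fun s => linear_ext fun t => linear_ext fun u => ?_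
  show mon s * mon t * mon u = mon s * (mon t * mon u)
  rw [mon_mul_mon, smul_mul', mon_mul_mon, smul_smul, mon_mul_mon t u, mul_smul', mon_mul_mon,
    smul_smul, un_assoc]
  congr 1
  exact_mod_cast sgn_assoc s t u

theorem one_mul' (x : Lam) : 1 * x = x := by
  suffices h : mulB 1 = LinearMap.id from LinearMap.congr_fun h x
  refine linear_ext fun s => ?_
  show mon 0 * mon s = mon s
  rw [mon_mul_mon, (sgn_zero s).1, (sgn_zero s).2.2.1, Int.cast_one, one_smul]

theorem mul_one' (x : Lam) : x * 1 = x := by
  suffices h : mulB.flip 1 = LinearMap.id from LinearMap.congr_fun h x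
  refine linear_ext fun s => ?_
  show mon s * mon 0 = mon s
  rw [mon_mul_mon, (sgn_zero s).2.1, (sgn_zero s).2.2.2, Int.cast_one, one_smul]

instance : Ring Lam where
  __ := (inferInstance : AddCommGroup Lam)
  mul := mulFun
  one := mon 0
  left_distrib := mul_add'
  right_distrib := add_mul'
  zero_mul x := LinearMap.map_zero₂ mulB x
  mul_zero x := map_zero (mulB x)
  mul_assoc := mul_assoc'
  one_mul := one_mul'
  mul_one := mul_one'

instance : Algebra ℚ Lam := Algebra.ofModule smul_mul' mul_smul'

/-- A linear map given by a table. -/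
def table (C : Fin 16 → Fin 16 → ℤ) : Lam →ₗ[ℚ] Lam where
  toFun x := fun u => ∑ s, (C s u : ℚ) * x s
  map_add' x y := funext fun u => by
    show ∑ s, (C s u : ℚ) * (x s + y s) = (∑ s, (C s u : ℚ) * x s) + ∑ s, (C s u : ℚ) * y s
    simp [mul_add, Finset.sum_add_distrib]
  map_smul' q x := funext fun u => by
    show ∑ s, (C s u : ℚ) * (q * x s) = q * ∑ s, (C s u : ℚ) * x s
    rw [Finset.mul_sum]; exact Finset.sum_congr rfl fun t _ => by ring

theorem table_apply (C : Fin 16 → Fin 16 → ℤ) (x : Lam) (u : Fin 16) :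
    table C x u = ∑ s, (C s u : ℚ) * x s := rfl

theorem table_mon (C : Fin 16 → Fin 16 → ℤ) (s : Fin 16) :
    table C (mon s) = fun u => (C s u : ℚ) := by
  ext u
  show ∑ r, (C r u : ℚ) * mon s r = _
  simp [mon_apply]

theorem table_mon_apply (C : Fin 16 → Fin 16 → ℤ) (s u : Fin 16) :
    table C (mon s) u = (C s u : ℚ) := congrFun (table_mon C s) u

/-- The parity involution. -/
def sigma : Lam →ₗ[ℚ] Lam where
  toFun x := fun u => (par u : ℚ) * x u
  map_add' x y := funext fun u => mul_add (par u : ℚ) (x u) (y u)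
  map_smul' q x := funext fun u => by
    show (par u : ℚ) * (q * x u) = q * ((par u : ℚ) * x u)
    ring

theorem sigma_mon (s : Fin 16) : sigma (mon s) = (par s : ℚ) • mon s := by
  ext u
  show (par u : ℚ) * mon s u = _
  rw [smul_apply, mon_apply]
  split_ifs with h <;> simp [h]

theorem sigma_mul (x y : Lam) : sigma (x * y) = sigma x * sigma y := by
  suffices h : mulB.compr₂ sigma = mulB.compl₁₂ sigma sigma from
    LinearMap.congr_fun (LinearMap.congr_fun h x) y
  refine linear_ext fun s => linear_ext fun t => ?_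
  show sigma (mon s * mon t) = sigma (mon s) * sigma (mon t)
  rw [mon_mul_mon, map_smul, sigma_mon, sigma_mon, sigma_mon, smul_mul', mul_smul', mon_mul_mon,
    smul_smul, smul_smul, smul_smul]
  congr 1
  by_cases h : sgn s t = 0
  · simp [h]
  · rw [par_mul s t h]; push_cast; ring

theorem sigma_sigma (x : Lam) : sigma (sigma x) = x := by
  ext u
  show (par u : ℚ) * ((par u : ℚ) * x u) = x u
  rw [← mul_assoc]
  unfold par
  split_ifs <;> simp

theorem sigma_one : sigma 1 = 1 := by
  rw [one_def, sigma_mon]
  simp [show par 0 = 1 by decide]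

/-- The derivation. -/
def d : Lam →ₗ[ℚ] Lam := table dC

/-- Contraction by a generator. -/
def iota (a : Fin 4) : Lam →ₗ[ℚ] Lam := table (iC a)

theorem mon_mul_apply (s : Fin 16) (y : Lam) (u : Fin 16) : (mon s * y) u =
    (sgn s (sd u s) * (if u.val &&& s.val = s.val then 1 else 0) : ℤ) * y (sd u s) := by
  suffices h : (LinearMap.proj (φ := fun _ : Fin 16 => ℚ) u).comp (mulB (mon s)) =
      ((sgn s (sd u s) * (if u.val &&& s.val = s.val then 1 else 0) : ℤ) : ℚ) •
        LinearMap.proj (φ := fun _ : Fin 16 => ℚ) (sd u s) from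
    LinearMap.congr_fun h y
  refine linear_ext fun t => ?_
  show (mon s * mon t) u = _ * mon t (sd u s)
  rw [mon_mul_mon, smul_apply, mon_apply, mon_apply]
  have key : ∀ s t u : Fin 16, (if u = un s t then sgn s t else 0) =
      if sd u s = t then sgn s (sd u s) * (if u.val &&& s.val = s.val then 1 else 0) else 0 := by
    decide +kernel
  have h' := congrArg (Int.cast : ℤ → ℚ) (key s t u)
  simpa [apply_ite (Int.cast : ℤ → ℚ)] using h'

theorem mul_mon_apply (x : Lam) (t u : Fin 16) : (x * mon t) u = (cc u t : ℚ) * x (sd u t) := by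
  rw [mul_apply, Finset.sum_eq_single t (fun r _ hr => by simp [mon_apply, hr]) (by simp)]
  simp [mon_apply]

theorem table_derivation (C : Fin 16 → Fin 16 → ℤ)
    (h : ∀ s t u : Fin 16, sgn s t * C (un s t) u =
      cc u t * C s (sd u t) + par s * (sgn s (sd u s) * (if u.val &&& s.val = s.val then 1 else 0) *
        C t (sd u s))) (x y : Lam) :
    table C (x * y) = table C x * y + sigma x * table C y := by
  suffices h : mulB.compr₂ (table C) = mulB.compl₁₂ (table C) LinearMap.id +
      mulB.compl₁₂ sigma (table C) from LinearMap.congr_fun (LinearMap.congr_fun h x) y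
  refine linear_ext fun s => linear_ext fun t => ?_
  show table C (mon s * mon t) = table C (mon s) * mon t + sigma (mon s) * table C (mon t)
  rw [mon_mul_mon, map_smul, sigma_mon, smul_mul']
  ext u
  have h' := congrArg (Int.cast : ℤ → ℚ) (h s t u)
  rw [add_apply, smul_apply, smul_apply, mul_mon_apply, mon_mul_apply, table_mon, table_mon,
    table_mon]
  push_cast at h' ⊢
  linear_combination h'

theorem d_mul_rule (x y : Lam) : d (x * y) = d x * y + sigma x * d y :=
  table_derivation _ d_mul x y

theorem iota_mul_rule (a : Fin 4) (x y : Lam) :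
    iota a (x * y) = iota a x * y + sigma x * iota a y :=
  table_derivation _ (i_mul a) x y

theorem table_sigma (C : Fin 16 → Fin 16 → ℤ) (h : ∀ s u, C s u * par s = -(C s u * par u))
    (x : Lam) : table C (sigma x) = -sigma (table C x) := by
  suffices h : (table C).comp sigma = -(sigma.comp (table C)) from LinearMap.congr_fun h x
  refine linear_ext fun s => ?_
  show table C (sigma (mon s)) = -sigma (table C (mon s))
  rw [sigma_mon, map_smul, table_mon]
  ext u
  have h' := congrArg (Int.cast : ℤ → ℚ) (h s u)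
  push_cast at h'
  show (par s : ℚ) * (C s u : ℚ) = -((par u : ℚ) * (C s u : ℚ))
  linear_combination h'

theorem d_sigma (x : Lam) : d (sigma x) = -sigma (d x) :=
  table_sigma _ (by decide +kernel) x

theorem iota_sigma (a : Fin 4) (x : Lam) : iota a (sigma x) = -sigma (iota a x) :=
  table_sigma _ ((by decide +kernel : ∀ a : Fin 4, ∀ s u : Fin 16,
    iC a s u * par s = -(iC a s u * par u)) a) x

theorem d_d (x : Lam) : d (d x) = 0 := by
  suffices h : d.comp d = 0 from LinearMap.congr_fun h x
  refine linear_ext fun s => ?_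
  ext u
  have h' := congrArg (Int.cast : ℤ → ℚ) (d_sq s u)
  show d (d (mon s)) u = 0
  unfold d
  rw [table_mon]
  show ∑ r, (dC r u : ℚ) * (dC s r : ℚ) = 0
  push_cast at h'
  rw [← h']
  exact Finset.sum_congr rfl fun r _ => mul_comm _ _

theorem d_one : d 1 = 0 := by
  rw [one_def, d, table_mon]
  ext u
  show (dC 0 u : ℚ) = 0
  simp [(by decide +kernel : ∀ u : Fin 16, dC 0 u = 0) u]

theorem iota_one (a : Fin 4) : iota a 1 = 0 := by
  rw [one_def, iota, table_mon]
  ext u
  show (iC a 0 u : ℚ) = 0
  simp [(by decide +kernel : ∀ a : Fin 4, ∀ u : Fin 16, iC a 0 u = 0) a u]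

/-- The generators. -/
def xi (b : Fin 4) : Lam := mon (one4 b)

theorem xi_comm (b : Fin 4) (x : Lam) : xi b * x = sigma x * xi b := by
  suffices h : mulB (xi b) = (mulB.flip (xi b)).comp sigma from LinearMap.congr_fun h x
  refine linear_ext fun s => ?_
  show xi b * mon s = sigma (mon s) * xi b
  unfold xi
  rw [sigma_mon, smul_mul', mon_mul_mon, mon_mul_mon, smul_smul, (super_comm s b).2]
  congr 1
  exact_mod_cast (super_comm s b).1

end Lam

end

end Vale.Agent.P176
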