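import Vale.Agent.P176.Cone
import Mathlib.Tactic.FinCases
import Mathlib.Tactic.FieldSimp
import Mathlib.Tactic.Positivity
import Mathlib.Tactic.Linarith
import Mathlib.Algebra.BigOperators.Field

/-!
The representations of `gl2` used in the construction. Matrices are handled through their
action on vectors, extended by zero to all integer indices.
-/

namespace Vale.Agent.P176

open Tab Matrix

noncomputable section

/-- Extension by zero to all integer indices. -/
def ex {N : ℕ} (v : Fin N → ℚ) (k : ℤ) : ℚ := ∑ s : Fin N, if ((s : ℕ) : ℤ) = k then v s else 0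

theorem ex_nat {N : ℕ} (v : Fin N → ℚ) (s : Fin N) : ex v (s : ℤ) = v s := by
  unfold ex
  rw [Finset.sum_eq_single s (fun t _ ht => if_neg fun e => ht (Fin.ext (by exact_mod_cast e)))
    (by simp), if_pos rfl]

theorem ex_out {N : ℕ} (v : Fin N → ℚ) {k : ℤ} (h : k < 0 ∨ (N : ℤ) ≤ k) : ex v k = 0 :=
  Finset.sum_eq_zero fun s _ => if_neg (by omega)

theorem ex_add {N : ℕ} (v w : Fin N → ℚ) (k : ℤ) : ex (v + w) k = ex v k + ex w k := by
  unfold ex
  rw [← Finset.sum_add_distrib]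
  exact Finset.sum_congr rfl fun s _ => by split_ifs <;> simp

theorem ex_zero {N : ℕ} (k : ℤ) : ex (0 : Fin N → ℚ) k = 0 := by simp [ex]

theorem ex_ext {N : ℕ} {v w : Fin N → ℚ} (h : ∀ k, ex v k = ex w k) : v = w :=
  funext fun s => by rw [← ex_nat v s, ← ex_nat w s, h]

theorem ex_eq {N : ℕ} (v : Fin N → ℚ) (f : ℤ → ℚ) (h : ∀ s : Fin N, v s = f s)
    (h0 : ∀ k, k < 0 ∨ (N : ℤ) ≤ k → f k = 0) (k : ℤ) : ex v k = f k := by
  by_cases hk : k < 0 ∨ (N : ℤ) ≤ k
  · rw [ex_out v hk, h0 k hk]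
  · obtain ⟨s, rfl⟩ : ∃ s : Fin N, (s : ℤ) = k := ⟨⟨k.toNat, by omega⟩, by simp only; omega⟩
    rw [ex_nat, h]

theorem mat_ext {I J : Type} [Fintype J] [DecidableEq J] {A B : Matrix I J ℚ}
    (h : ∀ v, A *ᵥ v = B *ᵥ v) : A = B := by
  refine Matrix.ext fun i j => ?_
  have := congrFun (h (Pi.single j 1)) i
  simpa using this

theorem isRep_of_brackets {ι : Type} [Fintype ι] (E : Quad ι)
    (h01 : E 0 * E 1 - E 1 * E 0 = E 1) (h02 : E 0 * E 2 - E 2 * E 0 = -E 2)
    (h03 : E 0 * E 3 - E 3 * E 0 = 0) (h12 : E 1 * E 2 - E 2 * E 1 = E 0 - E 3)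
    (h13 : E 1 * E 3 - E 3 * E 1 = E 1) (h23 : E 2 * E 3 - E 3 * E 2 = -E 2) : IsRep E := by
  intro u
  have hd : ∀ (a : Fin 4) (u : Fin 16), (dC (one4 a) u : ℚ) = ((if a = 0 ∧ u = 6 then -1
      else if a = 1 ∧ (u = 3 ∨ u = 10) then -1 else if a = 2 ∧ (u = 5 ∨ u = 12) then 1
      else if a = 3 ∧ u = 6 then 1 else 0 : ℤ) : ℚ) := fun a u => congrArg _
    ((by decide +kernel : ∀ (a : Fin 4) (u : Fin 16), dC (one4 a) u = (if a = 0 ∧ u = 6 then -1
      else if a = 1 ∧ (u = 3 ∨ u = 10) then -1 else if a = 2 ∧ (u = 5 ∨ u = 12) then 1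
      else if a = 3 ∧ u = 6 then 1 else 0 : ℤ)) a u)
  have hs : ∀ (a b : Fin 4) (u : Fin 16),
      (if u = un (one4 a) (one4 b) then (sgn (one4 a) (one4 b) : ℚ) else 0) =
      ((if a < b ∧ u.val = 2 ^ a.val + 2 ^ b.val then 1
        else if b < a ∧ u.val = 2 ^ a.val + 2 ^ b.val then -1 else 0 : ℤ) : ℚ) := fun a b u => by
    rw [← (by decide +kernel : ∀ (a b : Fin 4) (u : Fin 16),
      (if u = un (one4 a) (one4 b) then sgn (one4 a) (one4 b) else 0) =
      (if a < b ∧ u.val = 2 ^ a.val + 2 ^ b.val then 1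
        else if b < a ∧ u.val = 2 ^ a.val + 2 ^ b.val then -1 else 0 : ℤ)) a b u]
    split_ifs <;> simp
  simp only [hd, hs]
  fin_cases u <;>
    simp +decide [Fin.sum_univ_four] <;>
    first
      | linear_combination (norm := module) h01
      | linear_combination (norm := module) -h01
      | linear_combination (norm := module) h02
      | linear_combination (norm := module) -h02
      | linear_combination (norm := module) h03
      | linear_combination (norm := module) -h03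
      | linear_combination (norm := module) h12
      | linear_combination (norm := module) -h12
      | linear_combination (norm := module) h13
      | linear_combination (norm := module) -h13
      | linear_combination (norm := module) h23
      | linear_combination (norm := module) -h23

/-- The matrices of the symmetric power, shifted by a multiple of the trace. -/
def symMat (n : ℕ) (c : ℚ) : Quad (Fin (n + 1))
  | 0 => Matrix.diagonal fun r => ((r : ℕ) : ℚ) + c
  | 1 => fun r s => if (r : ℕ) = s + 1 then (n : ℚ) - (s : ℕ) else 0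
  | 2 => fun r s => if (s : ℕ) = r + 1 then ((s : ℕ) : ℚ) else 0
  | 3 => Matrix.diagonal fun r => (n : ℚ) - (r : ℕ) + c

variable {n : ℕ} {c : ℚ}

theorem sym0_ex (v : Fin (n + 1) → ℚ) (k : ℤ) :
    ex (symMat n c 0 *ᵥ v) k = ((k : ℚ) + c) * ex v k := by
  refine ex_eq _ (fun k => ((k : ℚ) + c) * ex v k) (fun s => ?_) (fun k hk => ?_) k
  · show (Matrix.diagonal _ *ᵥ v) s = _
    rw [Matrix.mulVec_diagonal, ex_nat]
    push_cast
    rfl
  · show _ * ex v k = 0
    rw [ex_out v hk, mul_zero]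

theorem sym3_ex (v : Fin (n + 1) → ℚ) (k : ℤ) :
    ex (symMat n c 3 *ᵥ v) k = ((n : ℚ) - k + c) * ex v k := by
  refine ex_eq _ (fun k => ((n : ℚ) - k + c) * ex v k) (fun s => ?_) (fun k hk => ?_) k
  · show (Matrix.diagonal _ *ᵥ v) s = _
    rw [Matrix.mulVec_diagonal, ex_nat]
    push_cast
    rfl
  · show _ * ex v k = 0
    rw [ex_out v hk, mul_zero]

theorem sym1_ex (v : Fin (n + 1) → ℚ) (k : ℤ) :
    ex (symMat n c 1 *ᵥ v) k = ((n : ℚ) - k + 1) * ex v (k - 1) := by
  refine ex_eq _ (fun k => ((n : ℚ) - k + 1) * ex v (k - 1)) (fun s => ?_) (fun k hk => ?_) k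
  · show (∑ t, symMat n c 1 s t * v t) = _
    simp only [ex, Finset.mul_sum, mul_ite, mul_zero]
    refine Finset.sum_congr rfl fun t _ => ?_
    show (if (s : ℕ) = t + 1 then (n : ℚ) - (t : ℕ) else 0) * v t = _
    split_ifs with h h' h'
    · rw [h]; push_cast; ring
    · omega
    · omega
    · rw [zero_mul]
  · show _ * ex v (k - 1) = 0
    by_cases h : k = (n : ℤ) + 1
    · subst h; push_cast; ring
    · rw [ex_out v (by omega), mul_zero]

theorem sym2_ex (v : Fin (n + 1) → ℚ) (k : ℤ) :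
    ex (symMat n c 2 *ᵥ v) k = ((k : ℚ) + 1) * ex v (k + 1) := by
  refine ex_eq _ (fun k => ((k : ℚ) + 1) * ex v (k + 1)) (fun s => ?_) (fun k hk => ?_) k
  · show (∑ t, symMat n c 2 s t * v t) = _
    simp only [ex, Finset.mul_sum, mul_ite, mul_zero]
    refine Finset.sum_congr rfl fun t _ => ?_
    show (if (t : ℕ) = s + 1 then ((t : ℕ) : ℚ) else 0) * v t = _
    split_ifs with h h' h'
    · rw [h]; push_cast; ring
    · omega
    · omega
    · rw [zero_mul]
  · show _ * ex v (k + 1) = 0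
    by_cases h : k = -1
    · subst h; push_cast; ring
    · rw [ex_out v (by omega), mul_zero]

theorem ex_sub {N : ℕ} (v w : Fin N → ℚ) (k : ℤ) : ex (v - w) k = ex v k - ex w k := by
  rw [eq_sub_iff_add_eq, ← ex_add, sub_add_cancel]

theorem ex_neg {N : ℕ} (v : Fin N → ℚ) (k : ℤ) : ex (-v) k = -ex v k := by
  rw [eq_neg_iff_add_eq_zero, ← ex_add, neg_add_cancel, ex_zero]

theorem symMat_isRep (n : ℕ) (c : ℚ) : IsRep (symMat n c) := by
  refine isRep_of_brackets _ ?_ ?_ ?_ ?_ ?_ ?_ <;>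
  · refine mat_ext fun v => ex_ext fun k => ?_
    simp only [Matrix.sub_mulVec, ← Matrix.mulVec_mulVec, Matrix.neg_mulVec, Matrix.zero_mulVec,
      ex_sub, ex_neg, ex_zero, sym0_ex, sym1_ex, sym2_ex, sym3_ex, sub_add_cancel,
      add_sub_cancel_right]
    push_cast
    ring

/-- The symmetric power, shifted. -/
def symRep (n : ℕ) (c : ℚ) : Rep (Fin (n + 1)) := ⟨symMat n c, symMat_isRep n c⟩

/-- The zero representation. -/
def nilRep : Rep (Fin 0) := ⟨fun _ => 0, fun _ => Subsingleton.elim _ _⟩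

/-- A component, extended by zero. -/
def ex2 {N : ℕ} (v : Fin 2 × Fin N → ℚ) (o : Fin 2) (k : ℤ) : ℚ := ex (fun r => v (o, r)) k

theorem ex2_ext {N : ℕ} {v w : Fin 2 × Fin N → ℚ} (h : ∀ o k, ex2 v o k = ex2 w o k) : v = w :=
  funext fun x => congrFun (ex_ext (h x.1)) x.2

theorem ex2_add {N : ℕ} (v w : Fin 2 × Fin N → ℚ) (o : Fin 2) (k : ℤ) :
    ex2 (v + w) o k = ex2 v o k + ex2 w o k := ex_add _ _ k

theorem ex2_zero {N : ℕ} (o : Fin 2) (k : ℤ) : ex2 (0 : Fin 2 × Fin N → ℚ) o k = 0 := ex_zero k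

theorem ex_sum_fin2 {N : ℕ} (a : Fin 2 → ℚ) (v : Fin 2 × Fin N → ℚ) (k : ℤ) :
    ex (fun r => ∑ o', a o' * v (o', r)) k = ∑ o', a o' * ex2 v o' k := by
  simp only [ex2, ex, Finset.mul_sum]
  rw [Finset.sum_comm]
  refine Finset.sum_congr rfl fun s _ => ?_
  split_ifs <;> simp

theorem tq_ex {ι : Type} [Fintype ι] [DecidableEq ι] (E : Quad ι) (b : Fin 4)
    (v : Fin 2 × ι → ℚ) (o : Fin 2) (r : ι) :
    (tq E b *ᵥ v) (o, r) = (E b *ᵥ fun s => v (o, s)) r + ∑ o', (sig b o o' : ℚ) * v (o', r) := by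
  simp only [Matrix.mulVec, dotProduct, tq, add_mul, Finset.sum_add_distrib,
    Fintype.sum_prod_type, ite_mul, zero_mul, Finset.sum_ite_irrel, Finset.sum_const_zero,
    Finset.sum_ite_eq, Finset.mem_univ, if_true]

theorem tq_ex2 (E : Quad (Fin (n + 1))) (b : Fin 4)
    (v : Fin 2 × Fin (n + 1) → ℚ) (o : Fin 2) (k : ℤ) :
    ex2 (tq E b *ᵥ v) o k = ex (E b *ᵥ fun s => v (o, s)) k +
      ∑ o', (sig b o o' : ℚ) * ex2 v o' k := by
  rw [← ex_sum_fin2, ← ex_add]
  exact congrArg (fun w => ex w k) (funext fun r => tq_ex E b v o r)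

theorem th_vec {ι : Type} [Fintype ι] [DecidableEq ι] (E : Quad ι) (v : Fin 2 × ι → ℚ)
    (o : Fin 2) (r : ι) :
    (th E *ᵥ v) (o, r) = (∑ c, ∑ o', (gm c o o' : ℚ) * (E c *ᵥ fun s => v (o', s)) r) + v (o, r) := by
  have key : ∀ o o' : Fin 2,
      (∑ c : Fin 4, (gm c o 0 * sig c 0 o' + gm c o 1 * sig c 1 o')) =
        if o = o' then (1 : ℤ) else 0 := by decide +kernel
  have e : ∀ c, ((gq c : Matrix (Fin 2 × ι) (Fin 2 × ι) ℚ) *ᵥ (tq E c *ᵥ v)) (o, r) =
      ∑ o', (gm c o o' : ℚ) * (tq E c *ᵥ v) (o', r) := by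
    intro c
    show ∑ x, gq c (o, r) x * (tq E c *ᵥ v) x = _
    simp [gq, Fintype.sum_prod_type]
  simp only [th, Matrix.sum_mulVec, Finset.sum_apply, ← Matrix.mulVec_mulVec, e, tq_ex, mul_add,
    Finset.sum_add_distrib, Finset.mul_sum, ← mul_assoc]
  congr 1
  have k0 := congrArg (Int.cast : ℤ → ℚ) (key o 0)
  have k1 := congrArg (Int.cast : ℤ → ℚ) (key o 1)
  push_cast at k0 k1
  simp only [Fin.sum_univ_two, Fin.sum_univ_four] at k0 k1 ⊢
  fin_cases o <;> simp at k0 k1 ⊢
  · linear_combination (v (0, r)) * k0 + (v (1, r)) * k1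
  · linear_combination (v (0, r)) * k0 + (v (1, r)) * k1

theorem th_ex0 (v : Fin 2 × Fin (n + 1) → ℚ) (k : ℤ) :
    ex2 (th (symMat n 0) *ᵥ v) 0 k = ((k : ℚ) + 1) * (ex2 v 0 k + ex2 v 1 (k + 1)) := by
  have : (fun r => (th (symMat n 0) *ᵥ v) (0, r)) =
      (symMat n 0 0 *ᵥ fun s => v (0, s)) + (symMat n 0 2 *ᵥ fun s => v (1, s)) +
        fun r => v (0, r) := by
    funext r
    simp [th_vec, Fin.sum_univ_four, Fin.sum_univ_two, gm, rowOf, colOf]
  rw [ex2, this, ex_add, ex_add, sym0_ex, sym2_ex]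
  simp only [ex2]
  ring

theorem th_ex1 (v : Fin 2 × Fin (n + 1) → ℚ) (k : ℤ) :
    ex2 (th (symMat n 0) *ᵥ v) 1 k = ((n : ℚ) + 1 - k) * (ex2 v 0 (k - 1) + ex2 v 1 k) := by
  have : (fun r => (th (symMat n 0) *ᵥ v) (1, r)) =
      (symMat n 0 1 *ᵥ fun s => v (0, s)) + (symMat n 0 3 *ᵥ fun s => v (1, s)) +
        fun r => v (1, r) := by
    funext r
    simp [th_vec, Fin.sum_univ_four, Fin.sum_univ_two, gm, rowOf, colOf]
  rw [ex2, this, ex_add, ex_add, sym1_ex, sym3_ex]
  simp only [ex2]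
  ring

/-- The splitting matrix used on both sides. -/
def splitMat (n : ℕ) : Matrix (Fin 2 × Fin (n + 2)) (Fin 2 × Fin (n + 2)) ℚ :=
  Matrix.diagonal fun x =>
    if x.1 = 0 then (if (x.2 : ℕ) = n + 1 then 1 / ((n : ℚ) + 2) else 0)
    else 1 / ((n : ℚ) + 2 - (x.2 : ℕ))

/-- The embedding of the smaller representation. -/
def jMat (n : ℕ) : Matrix (Fin 2 × Fin (n + 2)) (Fin (n + 1)) ℚ := fun x s =>
  if x.1 = 0 then (if (x.2 : ℕ) = s then 1 else 0) else if (x.2 : ℕ) = s + 1 then -1 else 0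

/-- The projection to the smaller representation. -/
def pMat (n : ℕ) : Matrix (Fin (n + 1)) (Fin 2 × Fin (n + 2)) ℚ := fun s x =>
  if x.1 = 0 then (if (x.2 : ℕ) = s then (n : ℚ) + 1 - (s : ℕ) else 0)
  else if (x.2 : ℕ) = s + 1 then -(((s : ℕ) : ℚ) + 1) else 0

/-- A left inverse of the embedding. -/
def lMat (n : ℕ) : Matrix (Fin (n + 1)) (Fin 2 × Fin (n + 2)) ℚ := fun s x =>
  if x.1 = 0 ∧ (x.2 : ℕ) = s then 1 else 0

/-- A section of the projection. -/
def secMat (n : ℕ) : Matrix (Fin 2 × Fin (n + 2)) (Fin (n + 1)) ℚ := fun x s =>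
  if x.1 = 0 ∧ (x.2 : ℕ) = s then 1 / ((n : ℚ) + 1 - (s : ℕ)) else 0

theorem split_ex0 (v : Fin 2 × Fin (n + 2) → ℚ) (k : ℤ) :
    ex2 (splitMat n *ᵥ v) 0 k = if k = (n : ℤ) + 1 then ex2 v 0 k / ((n : ℚ) + 2) else 0 := by
  refine ex_eq _ (fun k => if k = (n : ℤ) + 1 then ex2 v 0 k / ((n : ℚ) + 2) else 0)
    (fun s => ?_) (fun k hk => if_neg (by omega)) k
  show (Matrix.diagonal _ *ᵥ v) (0, s) = _
  rw [Matrix.mulVec_diagonal]
  simp only [ex2, ex_nat, if_true]
  split_ifs with h h' h'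
  · ring
  · omega
  · omega
  · ring

theorem split_ex1 (v : Fin 2 × Fin (n + 2) → ℚ) (k : ℤ) :
    ex2 (splitMat n *ᵥ v) 1 k = ex2 v 1 k / ((n : ℚ) + 2 - k) := by
  refine ex_eq _ (fun k => ex2 v 1 k / ((n : ℚ) + 2 - k)) (fun s => ?_) (fun k hk => ?_) k
  · show (Matrix.diagonal _ *ᵥ v) (1, s) = _
    rw [Matrix.mulVec_diagonal]
    simp [ex2, ex_nat]
    ring
  · show ex2 v 1 k / _ = 0
    rw [ex2, ex_out _ hk, zero_div]

theorem j_ex0 (v : Fin (n + 1) → ℚ) (k : ℤ) : ex2 (jMat n *ᵥ v) 0 k = ex v k := by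
  refine ex_eq _ (fun k => ex v k) (fun s => ?_) (fun k hk => ex_out v (by omega)) k
  simp [Matrix.mulVec, dotProduct, jMat, ex, eq_comm]

theorem j_ex1 (v : Fin (n + 1) → ℚ) (k : ℤ) : ex2 (jMat n *ᵥ v) 1 k = -ex v (k - 1) := by
  refine ex_eq _ (fun k => -ex v (k - 1)) (fun s => ?_)
    (fun k hk => by show -ex v (k - 1) = 0; rw [ex_out v (by omega), neg_zero]) k
  simp only [Matrix.mulVec, dotProduct, jMat, ex, ← Finset.sum_neg_distrib]
  refine Finset.sum_congr rfl fun t _ => ?_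
  rw [if_neg (by simp)]
  split_ifs with h h' h' <;> first | omega | ring

theorem p_ex (v : Fin 2 × Fin (n + 2) → ℚ) (k : ℤ) : ex (pMat n *ᵥ v) k =
    ((n : ℚ) + 1 - k) * ex2 v 0 k - ((k : ℚ) + 1) * ex2 v 1 (k + 1) := by
  refine ex_eq _ (fun k => ((n : ℚ) + 1 - k) * ex2 v 0 k - ((k : ℚ) + 1) * ex2 v 1 (k + 1))
    (fun s => ?_) (fun k hk => ?_) k
  · simp only [Matrix.mulVec, dotProduct, Fintype.sum_prod_type, Fin.sum_univ_two, pMat, ex2, ex,
      Finset.mul_sum, sub_eq_add_neg, ← Finset.sum_neg_distrib, ← Finset.sum_add_distrib]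
    refine Finset.sum_congr rfl fun t _ => ?_
    simp only [if_true, show ((1 : Fin 2) = 0) = False by simp, if_false]
    congr 1
    · split_ifs with h h' h' <;> first | omega | (push_cast; ring)
    · split_ifs with h h' h' <;> first | omega | (push_cast; ring)
  · show _ = (0 : ℚ)
    simp only [ex2]
    by_cases h : k = (n : ℤ) + 1
    · subst h
      rw [ex_out (fun r => v (1, r)) (by omega)]
      push_cast; ring
    · by_cases h' : k = -1
      · subst h'
        rw [ex_out (fun r => v (0, r)) (by omega)]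
        push_cast; ring
      · rw [ex_out (fun r => v (1, r)) (by omega), ex_out (fun r => v (0, r)) (by omega)]
        ring

theorem l_ex (v : Fin 2 × Fin (n + 2) → ℚ) (k : ℤ) :
    ex (lMat n *ᵥ v) k = if k ≤ (n : ℤ) then ex2 v 0 k else 0 := by
  refine ex_eq _ (fun k => if k ≤ (n : ℤ) then ex2 v 0 k else 0) (fun s => ?_) (fun k hk => ?_) k
  · rw [if_pos (by omega)]
    simp [Matrix.mulVec, dotProduct, Fintype.sum_prod_type, lMat, ex2, ex]
  · show (if _ then _ else (0 : ℚ)) = 0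
    split_ifs with h
    · exact ex_out _ (by omega)
    · rfl

theorem sec_ex0 (v : Fin (n + 1) → ℚ) (k : ℤ) :
    ex2 (secMat n *ᵥ v) 0 k = ex v k / ((n : ℚ) + 1 - k) := by
  refine ex_eq _ (fun k => ex v k / ((n : ℚ) + 1 - k)) (fun s => ?_)
    (fun k hk => by show ex v k / _ = 0; rw [ex_out v (by omega), zero_div]) k
  simp only [Matrix.mulVec, dotProduct, secMat, ex, Finset.sum_div]
  refine Finset.sum_congr rfl fun t _ => ?_
  simp only [true_and]
  split_ifs with h h' h' <;> first | omega | (rw [h]; push_cast; ring) | ring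

theorem sec_ex1 (v : Fin (n + 1) → ℚ) (k : ℤ) : ex2 (secMat n *ᵥ v) 1 k = 0 := by
  refine ex_eq _ (fun _ => (0 : ℚ)) (fun s => ?_) (fun k hk => rfl) k
  simp [Matrix.mulVec, dotProduct, secMat]

/-- The lowering datum from the symmetric power `n + 1` to the power `n`. -/
def lowerSym (n : ℕ) : Lowering (symRep (n + 1) 0) (symRep n 0) where
  j := jMat n
  p := pMat n
  s := secMat n
  l := lMat n
  P := splitMat n
  Q := splitMat n
  j_comm b := by
    refine mat_ext fun v => ex2_ext fun o k => ?_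
    rw [← Matrix.mulVec_mulVec, ← Matrix.mulVec_mulVec, tq_ex2]
    fin_cases o <;> fin_cases b <;>
      simp [-Matrix.mulVec_mulVec, symRep, Fin.sum_univ_two, sig, rowOf, colOf, j_ex0, j_ex1, sym0_ex, sym1_ex, sym2_ex,
        sym3_ex, ex2] <;>
      simp [-Matrix.mulVec_mulVec, ← ex2.eq_def, j_ex0, j_ex1, sym0_ex, sym1_ex, sym2_ex, sym3_ex] <;>
      ring_nf <;> simp
  p_comm b := by
    refine mat_ext fun v => ex_ext fun k => ?_
    rw [← Matrix.mulVec_mulVec, ← Matrix.mulVec_mulVec, p_ex, tq_ex2, tq_ex2]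
    fin_cases b <;>
      simp [-Matrix.mulVec_mulVec, symRep, Fin.sum_univ_two, sig, rowOf, colOf, p_ex, sym0_ex, sym1_ex, sym2_ex,
        sym3_ex, ex2] <;>
      ring_nf
  th_j := by
    refine mat_ext fun v => ex2_ext fun o k => ?_
    rw [← Matrix.mulVec_mulVec, Matrix.zero_mulVec, ex2_zero]
    fin_cases o
    · show ex2 (th (symMat (n + 1) 0) *ᵥ _) 0 k = 0
      rw [th_ex0, j_ex0, j_ex1, add_sub_cancel_right]; ring
    · show ex2 (th (symMat (n + 1) 0) *ᵥ _) 1 k = 0
      rw [th_ex1, j_ex0, j_ex1]; ring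
  p_th := by
    refine mat_ext fun v => ex_ext fun k => ?_
    rw [← Matrix.mulVec_mulVec, Matrix.zero_mulVec, ex_zero, p_ex]
    show _ * ex2 (th (symMat (n + 1) 0) *ᵥ v) 0 k -
      _ * ex2 (th (symMat (n + 1) 0) *ᵥ v) 1 (k + 1) = 0
    rw [th_ex0, th_ex1, add_sub_cancel_right]
    push_cast; ring
  l_j := by
    refine mat_ext fun v => ex_ext fun k => ?_
    rw [← Matrix.mulVec_mulVec, Matrix.one_mulVec, l_ex, j_ex0]
    split_ifs with h
    · rfl
    · rw [ex_out v (by omega)]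
  p_s := by
    refine mat_ext fun v => ex_ext fun k => ?_
    rw [← Matrix.mulVec_mulVec, Matrix.one_mulVec, p_ex, sec_ex0, sec_ex1, mul_zero, sub_zero]
    by_cases h : (n : ℚ) + 1 - k = 0
    · rw [h, zero_mul]
      have : k = (n : ℤ) + 1 := by
        have : ((k : ℤ) : ℚ) = (((n : ℤ) + 1 : ℤ) : ℚ) := by push_cast; linarith
        exact_mod_cast this
      rw [ex_out v (by omega)]
    · field_simp
  ker_split := by
    refine mat_ext fun v => ex2_ext fun o k => ?_
    rw [Matrix.add_mulVec, ex2_add, Matrix.one_mulVec, ← Matrix.mulVec_mulVec,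
      ← Matrix.mulVec_mulVec]
    fin_cases o
    · show ex2 (jMat n *ᵥ _) 0 k + ex2 (splitMat n *ᵥ _) 0 k = ex2 v 0 k
      rw [j_ex0, l_ex, split_ex0]
      show _ + (if _ then ex2 (th (symMat (n + 1) 0) *ᵥ v) 0 k / _ else 0) = _
      rw [th_ex0]
      by_cases h : k = (n : ℤ) + 1
      · subst h
        rw [if_neg (by omega), if_pos rfl]
        simp only [ex2]
        rw [ex_out (fun r => v (1, r)) (by omega)]
        push_cast
        have h0 : (n : ℚ) + 2 ≠ 0 := by positivity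
        field_simp
        ring
      · rw [if_neg h, add_zero]
        split_ifs with h'
        · rfl
        · simp only [ex2]; rw [ex_out (fun r => v (0, r)) (by omega)]
    · show ex2 (jMat n *ᵥ _) 1 k + ex2 (splitMat n *ᵥ _) 1 k = ex2 v 1 k
      rw [j_ex1, l_ex, split_ex1]
      show _ + ex2 (th (symMat (n + 1) 0) *ᵥ v) 1 k / _ = _
      rw [th_ex1]
      by_cases h : k = (n : ℤ) + 2
      · subst h
        rw [if_neg (by omega)]
        simp only [ex2]
        rw [ex_out (fun r => v (1, r)) (by omega)]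
        push_cast
        simp
      · have h1 : (n : ℚ) + 2 - k ≠ 0 := by
          intro e
          refine h ?_
          have : ((k : ℤ) : ℚ) = (((n : ℤ) + 2 : ℤ) : ℚ) := by push_cast; linarith
          exact_mod_cast this
        split_ifs with h'
        · push_cast; field_simp; ring
        · simp only [ex2]
          rw [ex_out (fun r => v (1, r)) (by omega), ex_out (fun r => v (0, r)) (by omega)]
          simp
  coker_split := by
    refine mat_ext fun v => ex2_ext fun o k => ?_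
    rw [Matrix.add_mulVec, ex2_add, Matrix.one_mulVec, ← Matrix.mulVec_mulVec,
      ← Matrix.mulVec_mulVec]
    fin_cases o
    · show ex2 (th (symMat (n + 1) 0) *ᵥ _) 0 k + ex2 (secMat n *ᵥ _) 0 k = ex2 v 0 k
      rw [th_ex0, split_ex0, split_ex1, sec_ex0, p_ex]
      by_cases h : k = (n : ℤ) + 1
      · subst h
        rw [if_pos rfl]
        simp only [ex2]
        rw [ex_out (fun r => v (1, r)) (by omega)]
        push_cast
        have h0 : (n : ℚ) + 2 ≠ 0 := by positivity
        simp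
        field_simp
        ring
      · rw [if_neg h]
        have h1 : (n : ℚ) + 1 - k ≠ 0 := by
          intro e
          refine h ?_
          have : ((k : ℤ) : ℚ) = (((n : ℤ) + 1 : ℤ) : ℚ) := by push_cast; linarith
          exact_mod_cast this
        have h2 : (n : ℚ) + 2 - ((k : ℚ) + 1) ≠ 0 := by intro e; apply h1; linarith
        push_cast
        field_simp
        ring
    · show ex2 (th (symMat (n + 1) 0) *ᵥ _) 1 k + ex2 (secMat n *ᵥ _) 1 k = ex2 v 1 k
      rw [th_ex1, split_ex0, split_ex1, sec_ex1, add_zero]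
      by_cases h : k = (n : ℤ) + 2
      · subst h
        simp only [ex2]
        rw [ex_out (fun r => v (1, r)) (by omega)]
        push_cast
        ring
      · have h1 : (n : ℚ) + 2 - k ≠ 0 := by
          intro e
          refine h ?_
          have : ((k : ℤ) : ℚ) = (((n : ℤ) + 2 : ℤ) : ℚ) := by push_cast; linarith
          exact_mod_cast this
        rw [if_neg (by omega)]
        push_cast
        field_simp
        ring

/-- The lowering datum to zero, for an invertible intertwiner. -/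
def lowerNil {ι : Type} [Fintype ι] [DecidableEq ι] (M : Rep ι)
    (P : Matrix (Fin 2 × ι) (Fin 2 × ι) ℚ) (hP : P * th M.mat = 1) (hP' : th M.mat * P = 1) :
    Lowering M nilRep where
  j := 0
  p := 0
  s := 0
  l := 0
  P := P
  Q := P
  j_comm b := by simp
  p_comm b := by simp
  th_j := by simp
  p_th := by simp
  l_j := Subsingleton.elim _ _
  p_s := Subsingleton.elim _ _
  ker_split := by rw [Matrix.zero_mul, zero_add]; exact hP
  coker_split := by rw [Matrix.zero_mul, add_zero]; exact hP'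

theorem th_sym_zero : th (symMat 0 0) = 1 := by
  refine mat_ext fun v => funext fun x => ?_
  obtain ⟨o, r⟩ := x
  rw [th_vec, Matrix.one_mulVec]
  fin_cases r
  fin_cases o <;>
    simp [Fin.sum_univ_four, gm, rowOf, colOf, symMat, Matrix.mulVec, dotProduct]

/-- The lowering datum of the trivial representation. -/
def lowerTriv : Lowering (symRep 0 0) nilRep :=
  lowerNil _ 1 (by rw [one_mul]; exact th_sym_zero) (by rw [mul_one]; exact th_sym_zero)

/-- The inverse of the intertwiner on a shifted standard representation. -/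
def invShift (c : ℚ) : Matrix (Fin 2 × Fin 2) (Fin 2 × Fin 2) ℚ := fun x y =>
  if x.1 = x.2 then
    (if x = y then (1 + c) / (c * (c + 2)) else if y.1 = y.2 then -1 / (c * (c + 2)) else 0)
  else if x = y then 1 / (c + 2) else 0

theorem inv_vec (c : ℚ) (w : Fin 2 × Fin 2 → ℚ) (o r : Fin 2) : (invShift c *ᵥ w) (o, r) =
    if o = r then ((1 + c) * w (o, r) - w (1 - o, 1 - r)) / (c * (c + 2))
    else w (o, r) / (c + 2) := by
  fin_cases o <;> fin_cases r <;>
    simp [Matrix.mulVec, dotProduct, Fintype.sum_prod_type, Fin.sum_univ_two, invShift] <;> ring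

theorem th_shift_vec (c : ℚ) (v : Fin 2 × Fin 2 → ℚ) (o r : Fin 2) :
    (th (symMat 1 c) *ᵥ v) (o, r) =
      if o = r then (1 + c) * v (o, r) + v (1 - o, 1 - r) else (2 + c) * v (o, r) := by
  rw [th_vec]
  fin_cases o <;> fin_cases r <;>
    simp [Fin.sum_univ_four, Fin.sum_univ_two, gm, rowOf, colOf, symMat, Matrix.mulVec,
      dotProduct] <;> ring

theorem invShift_mul (c : ℚ) (hc : 0 < c) :
    invShift c * th (symMat 1 c) = 1 ∧ th (symMat 1 c) * invShift c = 1 := by
  have h1 : c ≠ 0 := ne_of_gt hc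
  have h2 : c + 2 ≠ 0 := by positivity
  constructor <;>
  · refine mat_ext fun v => funext fun x => ?_
    obtain ⟨o, r⟩ := x
    rw [← Matrix.mulVec_mulVec, Matrix.one_mulVec]
    fin_cases o <;> fin_cases r <;> simp [-Matrix.mulVec_mulVec, inv_vec, th_shift_vec] <;>
      field_simp <;> ring

/-- The lowering datum of a shifted standard representation. -/
def lowerShift (c : ℚ) (hc : 0 < c) : Lowering (symRep 1 c) nilRep :=
  lowerNil _ (invShift c) (invShift_mul c hc).1 (invShift_mul c hc).2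

end

end Vale.Agent.P176
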