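import Vale.Agent.P176.Koszul

/-!
The gradings on `Lam` and `D`, and the degrees of the twisting homomorphism.
-/

namespace Vale.Agent.P176

open Tab

noncomputable section

namespace Lam

/-- Homogeneous elements of degree `k`. -/
def gr (k : ℤ) : Submodule ℚ Lam where
  carrier := {x | ∀ u : Fin 16, (pc u : ℤ) ≠ k → x u = 0}
  add_mem' := by intro x y hx hy u hu; simp [hx u hu, hy u hu]
  zero_mem' := by intro u hu; simp
  smul_mem' := by intro q x hx u hu; simp [hx u hu]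

theorem mem_gr {x : Lam} {k : ℤ} : x ∈ gr k ↔ ∀ u : Fin 16, (pc u : ℤ) ≠ k → x u = 0 := Iff.rfl

theorem gr_mul {x y : Lam} {i j : ℤ} (hx : x ∈ gr i) (hy : y ∈ gr j) : x * y ∈ gr (i + j) := by
  intro u hu
  rw [mul_apply]
  refine Finset.sum_eq_zero fun t _ => ?_
  by_cases h1 : (pc t : ℤ) = j
  · by_cases h2 : (pc (sd u t) : ℤ) = i
    · by_cases h3 : cc u t = 0
      · simp [h3]
      · exfalso
        have key : ∀ u t : Fin 16, cc u t ≠ 0 → pc u = pc (sd u t) + pc t := by decide +kernel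
        exact hu (by rw [key u t h3]; push_cast; omega)
    · simp [hx _ h2]
  · simp [hy t h1]

theorem table_gr (C : Fin 16 → Fin 16 → ℤ) (m : ℤ)
    (h : ∀ s u, C s u ≠ 0 → (pc u : ℤ) = pc s + m) {x : Lam} {k : ℤ} (hx : x ∈ gr k) :
    table C x ∈ gr (k + m) := by
  intro u hu
  rw [table_apply]
  refine Finset.sum_eq_zero fun s _ => ?_
  by_cases h1 : (pc s : ℤ) = k
  · by_cases h2 : C s u = 0
    · simp [h2]
    · exact absurd (by rw [h s u h2, h1]) hu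
  · simp [hx s h1]

theorem d_gr {x : Lam} {k : ℤ} (hx : x ∈ gr k) : d x ∈ gr (k + 1) :=
  table_gr _ 1 (fun s u h => by rw [d_pc s u h]; push_cast; ring) hx

theorem iota_gr (a : Fin 4) {x : Lam} {k : ℤ} (hx : x ∈ gr k) : iota a x ∈ gr (k - 1) :=
  table_gr _ (-1) (fun s u h => by rw [← i_pc a s u h]; push_cast; ring) hx

theorem sigma_gr {x : Lam} {k : ℤ} (hx : x ∈ gr k) : sigma x ∈ gr k := by
  intro u hu
  show (par u : ℚ) * x u = 0
  simp [hx u hu]

theorem mon_gr (s : Fin 16) : mon s ∈ gr (pc s) := by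
  intro u hu
  rw [mon_apply, if_neg]
  rintro rfl
  exact hu rfl

theorem one_gr : (1 : Lam) ∈ gr 0 := by
  rw [one_def]
  have h := mon_gr 0
  rwa [show ((pc 0 : ℕ) : ℤ) = 0 by decide +kernel] at h

theorem xi_gr (b : Fin 4) : xi b ∈ gr 1 := by
  have h := mon_gr (one4 b)
  rwa [(by decide +kernel : ∀ b : Fin 4, ((pc (one4 b) : ℕ) : ℤ) = 1) b] at h

theorem gr_eq_bot {k : ℤ} (hk : k < 0 ∨ 4 < k) {x : Lam} (hx : x ∈ gr k) : x = 0 := by
  ext u
  have := pc_le u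
  exact hx u (by omega)

end Lam

namespace Dal

/-- Homogeneous elements of degree `k`; here `tau` has degree one. -/
def gr (k : ℤ) : Submodule ℚ Dal where
  carrier := {z | z.a ∈ Lam.gr k ∧ z.b ∈ Lam.gr (k - 1)}
  add_mem' := by intro x y hx hy; exact ⟨add_mem hx.1 hy.1, add_mem hx.2 hy.2⟩
  zero_mem' := ⟨zero_mem _, zero_mem _⟩
  smul_mem' := by intro q x hx; exact ⟨Submodule.smul_mem _ q hx.1, Submodule.smul_mem _ q hx.2⟩

theorem mem_gr {z : Dal} {k : ℤ} : z ∈ gr k ↔ z.a ∈ Lam.gr k ∧ z.b ∈ Lam.gr (k - 1) := Iff.rfl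

theorem gr_mul {x y : Dal} {i j : ℤ} (hx : x ∈ gr i) (hy : y ∈ gr j) : x * y ∈ gr (i + j) := by
  refine ⟨add_mem (Lam.gr_mul hx.1 hy.1) ?_, add_mem (add_mem ?_ ?_) ?_⟩
  · have := Lam.gr_mul hx.2 (Lam.d_gr hy.1)
    rwa [show i - 1 + (j + 1) = i + j by ring] at this
  · have := Lam.gr_mul hx.1 hy.2
    rwa [show i + (j - 1) = i + j - 1 by ring] at this
  · have := Lam.gr_mul hx.2 (Lam.sigma_gr hy.1)
    rwa [show i - 1 + j = i + j - 1 by ring] at this
  · have := Lam.gr_mul hx.2 (Lam.d_gr hy.2)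
    rwa [show i - 1 + (j - 1 + 1) = i + j - 1 by ring] at this

theorem one_gr : (1 : Dal) ∈ gr 0 := ⟨Lam.one_gr, zero_mem _⟩

theorem tau_gr : tau ∈ gr 1 := ⟨zero_mem _, by rw [sub_self]; exact Lam.one_gr⟩

theorem inl_gr {a : Lam} {k : ℤ} (ha : a ∈ Lam.gr k) : inl a ∈ gr k := ⟨ha, zero_mem _⟩

theorem gr_eq_bot {k : ℤ} (hk : k < 0 ∨ 5 < k) {z : Dal} (hz : z ∈ gr k) : z = 0 :=
  ext (Lam.gr_eq_bot (by omega) hz.1) (Lam.gr_eq_bot (by omega) hz.2)

theorem gr_mul_of_eq {x y : Dal} {i j k : ℤ} (hx : x ∈ gr i) (hy : y ∈ gr j) (h : i + j = k) :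
    x * y ∈ gr k := h ▸ gr_mul hx hy

end Dal

/-- The shifts of the twist. -/
def sh : Kap → ℤ
  | .inl _ => -1
  | .inr _ => 0

theorem sc_gr {a : Lam} {k : ℤ} (ha : a ∈ Lam.gr k) (i j : Fin 2) : sc a i j ∈ Dal.gr k := by
  unfold sc Matrix.diagonal
  simp only [Matrix.of_apply]
  split_ifs
  · exact Dal.inl_gr ha
  · exact zero_mem _

theorem gMat_gr {a : Lam} {k : ℤ} (ha : a ∈ Lam.gr k) (i j : Fin 2) :
    gMat a i j ∈ Dal.gr (k - 1) :=
  Submodule.sum_mem _ fun c _ => Submodule.smul_mem _ _ (Dal.inl_gr (Lam.iota_gr c ha))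

theorem tMat_gr (i j : Fin 2) : tMat i j ∈ Dal.gr 1 := by
  unfold tMat
  rw [Matrix.add_apply]
  refine add_mem ?_ (Submodule.sum_mem _ fun b _ => Submodule.smul_mem _ _ (Dal.inl_gr (Lam.xi_gr b)))
  unfold Matrix.diagonal
  simp only [Matrix.of_apply]
  split_ifs
  · exact Dal.tau_gr
  · exact zero_mem _

theorem phiBlocks_gr {a : Lam} {k : ℤ} (ha : a ∈ Lam.gr k) (x y : Kap) :
    Matrix.fromBlocks (sc (Lam.sigma a)) (gMat a) 0 (sc a) x y ∈ Dal.gr (k + sh x - sh y) := by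
  obtain i | i := x <;> obtain j | j := y <;> simp only [sh]
  · rw [Matrix.fromBlocks_apply₁₁, show k + -1 - -1 = k by ring]
    exact sc_gr (Lam.sigma_gr ha) i j
  · rw [Matrix.fromBlocks_apply₁₂, show k + -1 - 0 = k - 1 by ring]
    exact gMat_gr ha i j
  · exact zero_mem _
  · rw [Matrix.fromBlocks_apply₂₂, show k + 0 - 0 = k by ring]
    exact sc_gr ha i j

theorem tauTwist_gr (x y : Kap) : tauTwist x y ∈ Dal.gr (1 + sh x - sh y) := by
  unfold tauTwist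
  obtain i | i := x <;> obtain j | j := y <;> simp only [sh]
  · rw [Matrix.fromBlocks_apply₁₁, show (1 : ℤ) + -1 - -1 = 1 by ring]
    exact neg_mem (tMat_gr i j)
  · exact zero_mem _
  · exact zero_mem _
  · rw [Matrix.fromBlocks_apply₂₂, show (1 : ℤ) + 0 - 0 = 1 by ring]
    exact tMat_gr i j

theorem twistHom_gr {z : Dal} {k : ℤ} (hz : z ∈ Dal.gr k) (x y : Kap) :
    twistHom z x y ∈ Dal.gr (k + sh x - sh y) := by
  rw [twistHom_apply, Matrix.add_apply, Matrix.mul_apply]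
  refine add_mem (phiBlocks_gr hz.1 x y) (Submodule.sum_mem _ fun c _ => ?_)
  exact Dal.gr_mul_of_eq (phiBlocks_gr hz.2 x c) (tauTwist_gr c y) (by ring)

end

end Vale.Agent.P176
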