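import Vale.Agent.P176.Exterior
import Mathlib.Data.Matrix.Block
import Mathlib.Algebra.Module.Prod

/-!
The Chevalley-Eilenberg algebra `D = Lam + Lam * tau` and the twisting homomorphism
`D → Matrix (Fin 2 ⊕ Fin 2) (Fin 2 ⊕ Fin 2) D`.
-/

namespace Vale.Agent.P176

open Tab

noncomputable section

/-- The algebra `D`. -/
def Dal : Type := Lam × Lam

namespace Dal

instance : AddCommGroup Dal := inferInstanceAs (AddCommGroup (Lam × Lam))
instance : Module ℚ Dal := inferInstanceAs (Module ℚ (Lam × Lam))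
instance : Module.Finite ℚ Dal := inferInstanceAs (Module.Finite ℚ (Lam × Lam))

/-- The first component. -/
def a (z : Dal) : Lam := z.1

/-- The second component, the coefficient of `tau`. -/
def b (z : Dal) : Lam := z.2

/-- The element `a + b * tau`. -/
def mk (a b : Lam) : Dal := (a, b)

@[ext] theorem ext {x y : Dal} (h1 : x.a = y.a) (h2 : x.b = y.b) : x = y := Prod.ext h1 h2

@[simp] theorem add_fst (x y : Dal) : (x + y).a = x.a + y.a := rfl
@[simp] theorem add_snd (x y : Dal) : (x + y).b = x.b + y.b := rfl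
@[simp] theorem neg_fst (x : Dal) : (-x).a = -x.a := rfl
@[simp] theorem neg_snd (x : Dal) : (-x).b = -x.b := rfl
@[simp] theorem sub_fst (x y : Dal) : (x - y).a = x.a - y.a := rfl
@[simp] theorem sub_snd (x y : Dal) : (x - y).b = x.b - y.b := rfl
@[simp] theorem zero_fst : (0 : Dal).a = 0 := rfl
@[simp] theorem zero_snd : (0 : Dal).b = 0 := rfl
@[simp] theorem smul_fst (q : ℚ) (x : Dal) : (q • x).a = q • x.a := rfl
@[simp] theorem smul_snd (q : ℚ) (x : Dal) : (q • x).b = q • x.b := rfl
@[simp] theorem mk_fst (a b : Lam) : (mk a b).a = a := rfl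
@[simp] theorem mk_snd (a b : Lam) : (mk a b).b = b := rfl

/-- Multiplication. -/
def mulFun (x y : Dal) : Dal :=
  mk (x.a * y.a + x.b * Lam.d y.a) (x.a * y.b + x.b * Lam.sigma y.a + x.b * Lam.d y.b)

instance : Ring Dal where
  __ := (inferInstance : AddCommGroup Dal)
  mul := mulFun
  one := mk 1 0
  left_distrib x y z := by
    show mulFun x (y + z) = mulFun x y + mulFun x z
    ext1 <;> simp [mulFun, mul_add] <;> abel
  right_distrib x y z := by
    show mulFun (x + y) z = mulFun x z + mulFun y z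
    ext1 <;> simp [mulFun, add_mul] <;> abel
  zero_mul x := by
    show mulFun 0 x = 0
    ext1 <;> simp [mulFun]
  mul_zero x := by
    show mulFun x 0 = 0
    ext1 <;> simp [mulFun]
  one_mul x := by
    show mulFun (mk 1 0) x = x
    ext1 <;> simp [mulFun]
  mul_one x := by
    show mulFun x (mk 1 0) = x
    ext1 <;> simp [mulFun, Lam.d_one, Lam.sigma_one]
  mul_assoc x y z := by
    show mulFun (mulFun x y) z = mulFun x (mulFun y z)
    ext1 <;> simp [mulFun, Lam.d_mul_rule, Lam.sigma_mul, Lam.d_d, Lam.d_sigma] <;> noncomm_ring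

@[simp] theorem mul_fst (x y : Dal) : (x * y).a = x.a * y.a + x.b * Lam.d y.a := rfl
@[simp] theorem mul_snd (x y : Dal) :
    (x * y).b = x.a * y.b + x.b * Lam.sigma y.a + x.b * Lam.d y.b := rfl
@[simp] theorem one_fst : (1 : Dal).a = 1 := rfl
@[simp] theorem one_snd : (1 : Dal).b = 0 := rfl

instance : Algebra ℚ Dal :=
  Algebra.ofModule (fun q x y => by ext1 <;> simp [smul_add])
    (fun q x y => by ext1 <;> simp [smul_add])

/-- The inclusion of the exterior algebra. -/
def inl : Lam →ₐ[ℚ] Dal :=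
  AlgHom.ofLinearMap
    { toFun := fun a => mk a 0
      map_add' := fun a b => by ext1 <;> simp
      map_smul' := fun q a => by ext1 <;> simp }
    rfl (fun a b => by
      show mk (a * b) 0 = mk a 0 * mk b 0
      ext1 <;> simp)

@[simp] theorem inl_fst (a : Lam) : (inl a).a = a := rfl
@[simp] theorem inl_snd (a : Lam) : (inl a).b = 0 := rfl

/-- The element `tau`. -/
def tau : Dal := mk 0 1

theorem tau_inl (a : Lam) : tau * inl a = inl (Lam.d a) + inl (Lam.sigma a) * tau := by
  ext1 <;> simp [tau]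

theorem tau_sq : tau * tau = 0 := by
  ext1 <;> simp [tau, Lam.d_one]

theorem eq_inl_add (z : Dal) : z = inl z.a + inl z.b * tau := by
  ext1 <;> simp [tau, Lam.d_one]

/-- The universal property of `D`. -/
def lift {R : Type} [Ring R] [Algebra ℚ R] (f : Lam →ₐ[ℚ] R) (t : R) (ht : t * t = 0)
    (hf : ∀ a, t * f a = f (Lam.d a) + f (Lam.sigma a) * t) : Dal →ₐ[ℚ] R :=
  AlgHom.ofLinearMap
    { toFun := fun z => f z.a + f z.b * t
      map_add' := fun z w => by simp [add_mul]; abel
      map_smul' := fun q z => by simp [smul_add] }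
    (by simp) (fun z w => by
      show f (z * w).a + f (z * w).b * t = (f z.a + f z.b * t) * (f w.a + f w.b * t)
      have h1 : f z.b * t * f w.a = f z.b * f (Lam.d w.a) + f z.b * f (Lam.sigma w.a) * t := by
        rw [mul_assoc, hf, mul_add, mul_assoc]
      have h2 : f z.b * t * (f w.b * t) = f z.b * f (Lam.d w.b) * t := by
        rw [show f z.b * t * (f w.b * t) = f z.b * (t * f w.b) * t by noncomm_ring, hf,
          mul_add, add_mul]
        rw [show f z.b * (f (Lam.sigma w.b) * t) * t = f z.b * f (Lam.sigma w.b) * (t * t) by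
          noncomm_ring, ht, mul_zero, add_zero]
      rw [add_mul (f z.a), mul_add (f z.a), mul_add (f z.b * t), h1, h2]
      simp only [mul_fst, mul_snd, map_add, map_mul]
      noncomm_ring)

theorem lift_apply {R : Type} [Ring R] [Algebra ℚ R] (f : Lam →ₐ[ℚ] R) (t : R) (ht : t * t = 0)
    (hf : ∀ a, t * f a = f (Lam.d a) + f (Lam.sigma a) * t) (z : Dal) :
    lift f t ht hf z = f z.a + f z.b * t := rfl

end Dal

/-- The index type of the twist. -/
abbrev Kap : Type := Fin 2 ⊕ Fin 2

/-- Two by two matrices over `D`. -/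
abbrev Mat2 : Type := Matrix (Fin 2) (Fin 2) Dal

/-- A scalar matrix. -/
def sc (a : Lam) : Mat2 := Matrix.diagonal fun _ => Dal.inl a

/-- The contraction part. -/
def gMat (a : Lam) : Mat2 := fun i j => ∑ c : Fin 4, (gm c i j : ℚ) • Dal.inl (Lam.iota c a)

/-- The twisting matrix. -/
def sMat : Mat2 := fun i j => ∑ b : Fin 4, (sig b i j : ℚ) • Dal.inl (Lam.xi b)

/-- The image of `tau` under the twist. -/
def tMat : Mat2 := Matrix.diagonal (fun _ => Dal.tau) + sMat

theorem sc_mul (a b : Lam) : sc (a * b) = sc a * sc b := by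
  simp [sc, Matrix.diagonal_mul_diagonal]

theorem sc_neg (a : Lam) : sc (-a) = -sc a := by
  simp [sc, Matrix.diagonal_neg]

theorem gMat_mul (a b : Lam) : gMat (a * b) = sc (Lam.sigma a) * gMat b + gMat a * sc b := by
  funext i j
  simp [sc, gMat, Matrix.diagonal_mul, Matrix.mul_diagonal, Lam.iota_mul_rule, Finset.mul_sum,
    Finset.sum_mul, ← Finset.sum_add_distrib]
  exact Finset.sum_congr rfl fun c _ => by abel

/-- The twist on the exterior algebra. -/
def phiLam : Lam →ₐ[ℚ] Matrix Kap Kap Dal :=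
  AlgHom.ofLinearMap
    { toFun := fun a => Matrix.fromBlocks (sc (Lam.sigma a)) (gMat a) 0 (sc a)
      map_add' := fun a b => by
        rw [Matrix.fromBlocks_add, add_zero]
        congr 1
        · funext i j; simp [sc, Matrix.diagonal]; split_ifs <;> simp
        · funext i j; simp [gMat, Finset.sum_add_distrib]
        · funext i j; simp [sc, Matrix.diagonal]; split_ifs <;> simp
      map_smul' := fun q a => by
        rw [RingHom.id_apply, Matrix.fromBlocks_smul, smul_zero]
        congr 1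
        · funext i j; simp [sc, Matrix.diagonal]
        · funext i j; simp [gMat, Finset.smul_sum, smul_comm q]
        · funext i j; simp [sc, Matrix.diagonal] }
    (by
      show Matrix.fromBlocks (sc (Lam.sigma 1)) (gMat 1) 0 (sc 1) = 1
      rw [← Matrix.fromBlocks_one]
      congr 1
      · simp [sc, Lam.sigma_one]
      · funext i j; simp [gMat, Lam.iota_one])
    (fun a b => by
      show Matrix.fromBlocks _ _ _ _ = Matrix.fromBlocks _ _ _ _ * Matrix.fromBlocks _ _ _ _
      rw [Matrix.fromBlocks_multiply]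
      congr 1
      · simp [Lam.sigma_mul, sc_mul]
      · exact gMat_mul a b
      · simp
      · simp [sc_mul])

theorem sMat_sq_aux (i j : Fin 2) :
    (∑ a : Fin 4, (sig a i j : ℚ) • Lam.d (Lam.xi a)) +
      ∑ a : Fin 4, ∑ b : Fin 4, ((sig a i 0 * sig b 0 j + sig a i 1 * sig b 1 j : ℤ) : ℚ) •
        (Lam.xi a * Lam.xi b) = 0 := by
  ext u
  have h := congrArg (Int.cast : ℤ → ℚ) (d_rep i j u)
  simp only [Lam.add_apply, Lam.sum_apply, Lam.smul_apply, Lam.zero_apply, Lam.xi,
    Lam.mon_mul_mon, Lam.mon_apply, Lam.d, Lam.table_mon_apply]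
  push_cast at h ⊢
  simpa [mul_ite, apply_ite] using h

theorem tMat_sc (a : Lam) : tMat * sc a = sc (Lam.d a) + sc (Lam.sigma a) * tMat := by
  funext i j
  have hx : ∀ b, Lam.xi b * a = Lam.sigma a * Lam.xi b := fun b => Lam.xi_comm b a
  simp [tMat, sMat, sc, Matrix.diagonal, Matrix.mul_apply, mul_add, add_mul, Finset.sum_mul,
    Finset.mul_sum, ← map_mul, hx]
  split_ifs with h
  · rw [Dal.tau_inl]; abel
  · abel

theorem tMat_sq : tMat * tMat = 0 := by
  funext i j
  have hc : ∀ b, Dal.tau * Dal.inl (Lam.xi b) + Dal.inl (Lam.xi b) * Dal.tau =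
      Dal.inl (Lam.d (Lam.xi b)) := by
    intro b
    have : Lam.sigma (Lam.xi b) = -Lam.xi b := by
      rw [Lam.xi, Lam.sigma_mon, (by decide +kernel : ∀ b : Fin 4, par (one4 b) = -1) b]
      simp
    rw [Dal.tau_inl, this, map_neg, neg_mul]; abel
  have h := congrArg Dal.inl (sMat_sq_aux i j)
  simp only [tMat, add_mul, mul_add, Matrix.add_apply, Matrix.diagonal_mul, Matrix.mul_diagonal,
    Matrix.diagonal_mul_diagonal, Dal.tau_sq, Matrix.diagonal_zero, zero_add, Matrix.zero_apply]
  rw [← add_assoc, add_comm (sMat i j * Dal.tau)]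
  rw [map_zero, map_add] at h
  rw [← h]
  congr 1
  · simp [sMat, Finset.mul_sum, Finset.sum_mul, ← Finset.sum_add_distrib, ← smul_add, hc]
  · simp [sMat, Matrix.mul_apply, Finset.mul_sum, Finset.sum_mul, map_sum, add_smul, mul_smul,
      smul_mul_smul_comm, Finset.sum_add_distrib, Finset.smul_sum]
    rw [Finset.sum_comm]
    refine congrArg₂ (· + ·) (Finset.sum_congr rfl fun x _ => Finset.sum_congr rfl fun y _ => ?_) ?_
    · exact smul_comm _ _ _
    · rw [Finset.sum_comm]
      exact Finset.sum_congr rfl fun x _ => Finset.sum_congr rfl fun y _ => smul_comm _ _ _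

theorem lie_aux (i j : Fin 2) (x : Lam) :
    (∑ a : Fin 4, (gm a i j : ℚ) • (Lam.iota a (Lam.d x) + Lam.d (Lam.iota a x))) =
      ∑ a : Fin 4, ∑ b : Fin 4, (((gm a i 0 * sig b 0 j + gm a i 1 * sig b 1 j) -
        (sig b i 0 * gm a 0 j + sig b i 1 * gm a 1 j) : ℤ) : ℚ) •
          (Lam.xi b * Lam.iota a x) := by
  suffices h : (∑ a : Fin 4, (gm a i j : ℚ) • (Lam.iota a ∘ₗ Lam.d + Lam.d ∘ₗ Lam.iota a)) =
      ∑ a : Fin 4, ∑ b : Fin 4, (((gm a i 0 * sig b 0 j + gm a i 1 * sig b 1 j) -
        (sig b i 0 * gm a 0 j + sig b i 1 * gm a 1 j) : ℤ) : ℚ) •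
          (Lam.mulB (Lam.xi b) ∘ₗ Lam.iota a) by
    simpa [Lam.mulB_apply] using LinearMap.congr_fun h x
  refine Lam.linear_ext fun s => ?_
  ext u
  have h := congrArg (Int.cast : ℤ → ℚ) (lie i j s u)
  simp only [LinearMap.coe_sum, Finset.sum_apply, LinearMap.smul_apply, LinearMap.add_apply,
    LinearMap.comp_apply, Lam.mulB_apply, Lam.add_apply, Lam.sum_apply, Lam.smul_apply, Lam.xi,
    Lam.mon_mul_apply, Lam.d, Lam.iota, Lam.table_mon_apply]
  have hcc : ∀ b : Fin 4, ∀ u : Fin 16,
      cc u (sd u (one4 b)) * (if u.val &&& (one4 b).val = (one4 b).val then 1 else 0) =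
        sgn (one4 b) (sd u (one4 b)) * (if u.val &&& (one4 b).val = (one4 b).val then 1 else 0) := by
    decide +kernel
  simp only [hcc] at h
  push_cast at h ⊢
  convert h using 1
  refine Finset.sum_congr rfl fun a _ => ?_
  congr 1
  rw [Lam.table_apply, Lam.table_apply, ← Finset.sum_add_distrib]
  simp only [Lam.table_mon_apply]
  exact Finset.sum_congr rfl fun r _ => by ring

theorem tMat_gMat (a : Lam) :
    tMat * gMat a + gMat (Lam.d a) + gMat (Lam.sigma a) * tMat = 0 := by
  funext i j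
  have hg : ∀ c, Lam.iota c (Lam.sigma a) = -Lam.sigma (Lam.iota c a) := fun c => Lam.iota_sigma c a
  have hx : ∀ b c, Lam.sigma (Lam.iota c a) * Lam.xi b = Lam.xi b * Lam.iota c a :=
    fun b c => (Lam.xi_comm b _).symm
  have ht : ∀ c, Dal.tau * Dal.inl (Lam.iota c a) - Dal.inl (Lam.sigma (Lam.iota c a)) * Dal.tau =
      Dal.inl (Lam.d (Lam.iota c a)) := fun c => by rw [Dal.tau_inl]; abel
  have h := congrArg Dal.inl (lie_aux i j a)
  simp only [map_sum, map_smul, map_add, smul_add, Finset.sum_add_distrib] at h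
  simp only [tMat, add_mul, mul_add, Matrix.add_apply, Matrix.diagonal_mul, Matrix.mul_diagonal,
    Matrix.zero_apply]
  have e1 : Dal.tau * gMat a i j + gMat (Lam.sigma a) i j * Dal.tau =
      ∑ c, (gm c i j : ℚ) • Dal.inl (Lam.d (Lam.iota c a)) := by
    simp [gMat, Finset.mul_sum, Finset.sum_mul, hg, ← sub_eq_add_neg, ← smul_sub, ht,
      ← Finset.sum_sub_distrib]
  have e2a : (sMat * gMat a) i j = ∑ c : Fin 4, ∑ b : Fin 4,
      ((sig b i 0 * gm c 0 j + sig b i 1 * gm c 1 j : ℤ) : ℚ) •
          Dal.inl (Lam.xi b * Lam.iota c a) := by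
    simp only [sMat, gMat, Matrix.mul_apply, Fin.sum_univ_two, Finset.mul_sum, Finset.sum_mul,
      smul_mul_smul_comm, ← map_mul, ← Finset.sum_add_distrib, ← add_smul]
    push_cast
    rfl
  have e2b : (gMat (Lam.sigma a) * sMat) i j = -∑ c : Fin 4, ∑ b : Fin 4,
      ((gm c i 0 * sig b 0 j + gm c i 1 * sig b 1 j : ℤ) : ℚ) •
          Dal.inl (Lam.xi b * Lam.iota c a) := by
    simp only [sMat, gMat, Matrix.mul_apply, Fin.sum_univ_two, Finset.mul_sum, Finset.sum_mul,
      smul_mul_smul_comm, ← map_mul, hg, neg_mul, hx, map_neg, smul_neg,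
      Finset.sum_neg_distrib, ← neg_add, ← Finset.sum_add_distrib, ← add_smul]
    rw [Finset.sum_comm]
    push_cast
    rfl
  have e2 : (sMat * gMat a) i j + (gMat (Lam.sigma a) * sMat) i j =
      -∑ c : Fin 4, ∑ b : Fin 4, (((gm c i 0 * sig b 0 j + gm c i 1 * sig b 1 j) -
        (sig b i 0 * gm c 0 j + sig b i 1 * gm c 1 j) : ℤ) : ℚ) •
          Dal.inl (Lam.xi b * Lam.iota c a) := by
    rw [e2a, e2b]
    push_cast
    simp only [sub_smul, Finset.sum_sub_distrib]
    abel
  rw [← h] at e2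
  have e3 : gMat (Lam.d a) i j = ∑ c, (gm c i j : ℚ) • Dal.inl (Lam.iota c (Lam.d a)) := rfl
  calc _ = (Dal.tau * gMat a i j + gMat (Lam.sigma a) i j * Dal.tau) +
        ((sMat * gMat a) i j + (gMat (Lam.sigma a) * sMat) i j) + gMat (Lam.d a) i j := by abel
    _ = 0 := by rw [e1, e2, e3]; abel

/-- The twist on `tau`. -/
def tauTwist : Matrix Kap Kap Dal := Matrix.fromBlocks (-tMat) 0 0 tMat

/-- The twisting homomorphism. -/
def twistHom : Dal →ₐ[ℚ] Matrix Kap Kap Dal :=
  Dal.lift phiLam tauTwist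
    (by
      rw [tauTwist, Matrix.fromBlocks_multiply]
      simp [tMat_sq])
    (fun a => by
      show tauTwist * Matrix.fromBlocks (sc (Lam.sigma a)) (gMat a) 0 (sc a) =
        Matrix.fromBlocks (sc (Lam.sigma (Lam.d a))) (gMat (Lam.d a)) 0 (sc (Lam.d a)) +
          Matrix.fromBlocks (sc (Lam.sigma (Lam.sigma a))) (gMat (Lam.sigma a)) 0
            (sc (Lam.sigma a)) * tauTwist
      unfold tauTwist
      rw [Matrix.fromBlocks_multiply, Matrix.fromBlocks_multiply, Matrix.fromBlocks_add]
      congr 1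
      · simp only [zero_mul, mul_zero, add_zero, neg_mul, mul_neg, tMat_sc, Lam.d_sigma,
          Lam.sigma_sigma, sc_neg]
        abel
      · have h := tMat_gMat a
        simp only [zero_mul, mul_zero, add_zero, zero_add, neg_mul]
        rw [← sub_eq_zero, ← neg_inj, neg_zero, ← h]
        abel
      · simp
      · simp [tMat_sc])

theorem twistHom_apply (z : Dal) : twistHom z =
    Matrix.fromBlocks (sc (Lam.sigma z.a)) (gMat z.a) 0 (sc z.a) +
      Matrix.fromBlocks (sc (Lam.sigma z.b)) (gMat z.b) 0 (sc z.b) * tauTwist := rfl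

end

end Vale.Agent.P176
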