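import Vale.Agent.P176.Gl2
import Mathlib.RingTheory.Finiteness.Basic

/-!
The extension algebra has modules of finite but arbitrarily large projective dimension.
-/

namespace Vale.Agent.P176

open Tab

noncomputable section

/-- The modules of the construction. -/
abbrev Fn (n : ℕ) : Type := FMod (symRep n 0) 0

theorem subsingleton_nil : Subsingleton (FMod nilRep 0) :=
  ⟨fun _ _ => Win.ext fun _ => CE.ext nilRep fun r => Fin.elim0 r⟩

theorem inj_of_nil {ι : Type} [Fintype ι] [DecidableEq ι] {M : Rep ι} (W : Lowering M nilRep) :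
    tw.Inj (FMod M 0) := by
  have := subsingleton_nil
  have hs : Subsingleton (tw.T1 (FMod M 0)) := (kerEquiv W).symm.toEquiv.subsingleton
  intro a b h
  have hab : (⟨a - b, by rw [LinearMap.mem_ker, map_sub, h, sub_self]⟩ : tw.T1 (FMod M 0)) = 0 :=
    Subsingleton.elim _ _
  exact sub_eq_zero.1 (congrArg Subtype.val hab)

theorem Lam.nondeg_right {x : Lam} {k m : ℕ} (hx : x ∈ Lam.gr (k : ℤ)) (hkm : k + m ≤ 4)
    (h : ∀ s : Fin 16, pc s = m → x * Lam.mon s = 0) : x = 0 := by
  have key : ∀ u : Fin 16, ∀ m : Fin 5, pc u + m.val ≤ 4 →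
      ∃ s, pc s = m.val ∧ sd (un u s) s = u ∧ cc (un u s) s ≠ 0 := by decide +kernel
  ext u
  by_cases hu : pc u = k
  · obtain ⟨s, h1, h2, h3⟩ := key u ⟨m, by omega⟩ (by simp only; omega)
    have := congrArg (fun y : Lam => y (un u s)) (h s h1)
    simp only [Lam.mul_mon_apply, h2, Lam.zero_apply, mul_eq_zero, Int.cast_eq_zero] at this
    exact this.resolve_left h3
  · exact hx u (by exact_mod_cast hu)

theorem Lam.kill_succ {x : Lam} {j : ℕ}
    (h : ∀ (b : Fin 4) (s : Fin 16), pc s = j → x * (Lam.xi b * Lam.mon s) = 0) (s : Fin 16)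
    (hs : pc s = j + 1) : x * Lam.mon s = 0 := by
  have key : ∀ s : Fin 16, pc s ≠ 0 → ∃ b t, pc t + 1 = pc s ∧
      (sgn (one4 b) t : ℤ) ≠ 0 ∧ un (one4 b) t = s := by decide +kernel
  obtain ⟨b, t, h1, h2, h3⟩ := key s (by omega)
  have h4 := h b t (by omega)
  rw [Lam.xi, Lam.mon_mul_mon, h3, mul_smul_comm, smul_eq_zero] at h4
  exact h4.resolve_left (by exact_mod_cast h2)

theorem faithful (b : Bal) (h1 : ∀ v : FMod (symRep 1 1) 0, b • v = 0)
    (h2 : ∀ v : FMod (symRep 1 2) 0, b • v = 0) : b = 0 := by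
  refine Bal.ext' fun i j => ?_
  show b.1 i j = 0
  by_cases hij : (i : ℤ) < j
  · exact Dal.gr_eq_bot (Or.inl (by omega)) (b.mem i j)
  have core : ∀ (c : ℚ), (∀ v : FMod (symRep 1 c) 0, b • v = 0) → ∀ s : Fin 16,
      pc s = (j : ℕ) → ∀ r r₀ : Fin 2,
      (b.1 i j).a * (if r = r₀ then Lam.mon s else 0) +
        (b.1 i j).b * ((if r = r₀ then Lam.d (Lam.mon s) else 0) +
          ∑ e, (symMat 1 c e r r₀) • (Lam.xi e * Lam.mon s)) = 0 := by
    intro c hv s hs r r₀
    let μ : Fin 2 → Lam := fun t => if t = r₀ then Lam.mon s else 0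
    let v : FMod (symRep 1 c) 0 :=
      Win.mk (fun p => if p = j then CE.raw.symm μ else 0) fun p => by
        split_ifs with hp
        · subst hp
          refine (mem_ceG _).2 fun t => ?_
          rw [LinearEquiv.apply_symm_apply, sub_zero]
          show (if t = r₀ then Lam.mon s else 0) ∈ _
          split_ifs
          · rw [← hs]; exact Lam.mon_gr s
          · exact zero_mem _
        · exact zero_mem _
    have e := congrArg (fun w => CE.raw (Win.comp w i) r) (hv v)
    simp only [Win.comp_smul, Win.comp_zero, map_zero, Pi.zero_apply] at e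
    rw [Finset.sum_eq_single j (fun p _ hp => by simp [v, hp]) (by simp)] at e
    simp only [v, Win.comp_mk, if_true, CE.smul_apply, LinearEquiv.apply_symm_apply] at e
    rw [dW_apply] at e
    simp only [μ, pwFun_apply, smul_ite, smul_zero, Finset.sum_ite_eq', Finset.mem_univ, if_true,
      mul_smul_comm, apply_ite Lam.d, map_zero] at e
    exact e
  have off1 : ∀ s : Fin 16, pc s = (j : ℕ) → (b.1 i j).b * (Lam.xi 1 * Lam.mon s) = 0 := by
    intro s hs
    have := core 1 h1 s hs 1 0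
    simpa [Fin.sum_univ_four, symMat, Matrix.diagonal] using this
  have off2 : ∀ s : Fin 16, pc s = (j : ℕ) → (b.1 i j).b * (Lam.xi 2 * Lam.mon s) = 0 := by
    intro s hs
    have := core 1 h1 s hs 0 1
    simpa [Fin.sum_univ_four, symMat, Matrix.diagonal] using this
  have diag : ∀ s : Fin 16, pc s = (j : ℕ) →
      (b.1 i j).b * (Lam.xi 0 * Lam.mon s) = 0 ∧ (b.1 i j).b * (Lam.xi 3 * Lam.mon s) = 0 ∧
        (b.1 i j).a * Lam.mon s + (b.1 i j).b * Lam.d (Lam.mon s) = 0 := by
    intro s hs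
    have e00 := core 1 h1 s hs 0 0
    have e11 := core 1 h1 s hs 1 1
    have f00 := core 2 h2 s hs 0 0
    simp [Fin.sum_univ_four, symMat, Matrix.diagonal, mul_add, mul_smul_comm] at e00 e11 f00
    refine ⟨?_, ?_, ?_⟩
    · linear_combination (norm := module) (-(1 : ℚ) / 2) • e00 + ((1 : ℚ) / 2) • e11 +
        ((1 : ℚ) / 2) • (f00 - e00)
    · linear_combination (norm := module) ((1 : ℚ) / 2) • e00 + (-(1 : ℚ) / 2) • e11 +
        ((1 : ℚ) / 2) • (f00 - e00)
    · linear_combination (norm := module) e00 + (-(1 : ℚ) / 2) • (e00 - e11) -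
        ((3 : ℚ) / 2) • (f00 - e00)
  have hdeg : ∀ k : ℤ, ∀ x : Lam, x ∈ Lam.gr k → (∀ n : ℕ, k = n → x = 0) → x = 0 := by
    intro k x hx h
    by_cases hk : 0 ≤ k
    · exact h k.toNat (by omega)
    · exact Lam.gr_eq_bot (Or.inl (by omega)) hx
  have hb : (b.1 i j).b = 0 := by
    refine hdeg _ _ (b.mem i j).2 fun n hn => ?_
    have hm : (b.1 i j).b ∈ Lam.gr (n : ℤ) := hn ▸ (b.mem i j).2
    refine Lam.nondeg_right (m := (j : ℕ) + 1) hm (by omega) fun s hs => Lam.kill_succ ?_ s hs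
    intro e t ht
    fin_cases e
    · exact (diag t ht).1
    · exact off1 t ht
    · exact off2 t ht
    · exact (diag t ht).2.1
  ext1
  · refine hdeg _ _ (b.mem i j).1 fun n hn => ?_
    have hm : (b.1 i j).a ∈ Lam.gr (n : ℤ) := hn ▸ (b.mem i j).1
    refine Lam.nondeg_right (m := (j : ℕ)) hm (by omega) fun s hs => ?_
    have := (diag s hs).2.2
    rwa [hb, zero_mul, add_zero] at this
  · exact hb

theorem inj_Bal : tw.Inj Bal := by
  intro x y h
  refine Subtype.ext (funext fun w => sub_eq_zero.1 (faithful _ (fun v => ?_) fun v => ?_))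
  all_goals
    rw [sub_smul, sub_eq_zero]
    refine congrFun (congrArg Subtype.val (?_ :
      tw.srcMap (LinearMap.toSpanSingleton Bal _ v) x =
        tw.srcMap (LinearMap.toSpanSingleton Bal _ v) y)) w
  · exact inj_of_nil (lowerShift 1 one_pos)
      (by rw [Twist.phi_natural, Twist.phi_natural, h])
  · exact inj_of_nil (lowerShift 2 two_pos)
      (by rw [Twist.phi_natural, Twist.phi_natural, h])

variable {ι : Type} [Fintype ι] [DecidableEq ι] (M : Rep ι)

omit [DecidableEq ι] in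
theorem inj_shift (q : Fin 5) : tw.Inj (FMod M ((q : ℤ) + 1)) :=
  tw.inj_of_sub _ (winJ M (q : ℤ)) (winJ_injective M _) (inj_PMod inj_Bal q)

omit [DecidableEq ι] in
theorem pd_ind_shift : ∀ (d : ℕ) (q : ℤ), q + d = 5 → 1 ≤ q → PdLT tw.Alg (tw.Ind (FMod M q)) d
  | 0, q, h, _ => by
    obtain rfl : q = 5 := by omega
    have := subsingleton_FMod_five M
    have : Subsingleton (tw.Tgt (FMod M 5)) :=
      ⟨fun p p' => tw.tgt_ext _ fun z o => Subsingleton.elim _ _⟩
    have : Subsingleton (tw.X (FMod M 5)) := (Submodule.mkQ_surjective _).subsingleton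
    have : Subsingleton (tw.Ind (FMod M 5)) :=
      inferInstanceAs (Subsingleton (FMod M 5 × tw.X (FMod M 5)))
    exact PdLT.of_subsingleton 0
  | d + 1, q, h, hq => by
    have ih := pd_ind_shift d (q + 1) (by omega) (by omega)
    obtain ⟨p, rfl⟩ := fin5 (i := q) (by omega) (by omega)
    have hP : tw.Inj (PMod ι (p : ℤ)) := inj_PMod inj_Bal p
    have hF : tw.Inj (FMod M (p : ℤ)) := by
      obtain ⟨p', hp'⟩ := fin5 (i := (p : ℤ) - 1) (by omega) (by omega)
      rw [show (p : ℤ) = (p' : ℤ) + 1 by omega]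
      exact inj_shift M p'
    exact pdLT_right
      (Twist.ind_exact_right (T := tw) (winJ_injective M _) (winPi_surjective M _) (win_exact M _))
      (Twist.ind_injective_of_inj (T := tw) (winJ_injective M _) (winPi_surjective M _)
        (win_exact M _) hP hF)
      (Twist.ind_surjective (T := tw) (winPi_surjective M _)) ih
      (PdLT.of_projective.mono (by omega))

omit [DecidableEq ι] in
theorem descend {m : ℕ} (hm : 1 ≤ m) (q : Fin 5) (hF : tw.Inj (FMod M (q : ℤ)))
    (h : PdLT tw.Alg (tw.Ind (FMod M (q : ℤ))) (m + 1)) :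
    PdLT tw.Alg (tw.Ind (FMod M ((q : ℤ) + 1))) m :=
  pdLT_left
    (Twist.ind_exact_right (T := tw) (winJ_injective M _) (winPi_surjective M _) (win_exact M _))
    (Twist.ind_injective_of_inj (T := tw) (winJ_injective M _) (winPi_surjective M _)
      (win_exact M _) (inj_PMod inj_Bal q) hF)
    (Twist.ind_surjective (T := tw) (winPi_surjective M _))
    (PdLT.of_projective.mono hm) h

theorem not_projective_three :
    ¬ Module.Projective tw.Alg (tw.Ind (FMod (symRep 0 0) ((3 : Fin 5) : ℤ))) := by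
  intro hp
  let M := symRep 0 0
  obtain ⟨s, hs⟩ := Module.projective_lifting_property (tw.indMap (winPi M ((3 : Fin 5) : ℤ)))
    LinearMap.id (Twist.ind_surjective (T := tw) (winPi_surjective M _))
  let v0 : FMod M ((3 : Fin 5) : ℤ) :=
    Win.mk (fun p => if p = 3 then CE.raw.symm (fun _ => 1) else 0) fun p => by
      split_ifs with h
      · subst h
        refine (mem_ceG _).2 fun t => ?_
        rw [LinearEquiv.apply_symm_apply, sub_self]
        exact Lam.one_gr
      · exact zero_mem _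
  have htau : Dal.tau ∈ Dal.gr (((4 : Fin 5) : ℤ) - ((3 : Fin 5) : ℤ)) := Dal.tau_gr
  let b : Bal := sg ((4 : Fin 5) : ℤ) ((3 : Fin 5) : ℤ) Dal.tau
  have hev4 : Win.ev ((4 : Fin 5) : ℤ) (b • v0) =
      Dal.tau • Win.ev ((3 : Fin 5) : ℤ) v0 := Win.ev_sg ⟨by omega, by omega⟩ htau v0
  have hv3 : CE.raw (v0.comp (3 : Fin 5)) = fun _ => 1 := by
    show CE.raw (if (3 : Fin 5) = 3 then CE.raw.symm (fun _ => 1) else 0) = _
    rw [if_pos rfl, LinearEquiv.apply_symm_apply]
  have hb0 : b • v0 = 0 := by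
    refine Win.ev_ext fun l => ?_
    by_cases hl : l = ((4 : Fin 5) : ℤ)
    · subst hl
      rw [hev4, Win.ev_nat, Win.ev_zero]
      refine CE.ext M fun r => ?_
      rw [CE.smul_apply, map_zero, hv3]
      simp [M, Dal.tau, dW_apply, Lam.d_one, symRep, pwFun_apply, Fin.sum_univ_four, symMat,
        Matrix.diagonal]
    · rw [Win.ev_sg_ne _ _ hl, Win.ev_zero]
  let a : tw.Alg := (b, 0)
  let w : tw.Ind (FMod M ((3 : Fin 5) : ℤ)) := (v0, 0)
  have ha : a • w = 0 := by
    rw [Twist.smul_ind]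
    refine Prod.ext hb0 ?_
    show b • (0 : tw.X (FMod M ((3 : Fin 5) : ℤ))) + tw.xs 0 v0 = 0
    rw [smul_zero, tw.xs_zero_left, add_zero]
  let u : tw.Ind (PMod (Fin (0 + 1)) ((3 : Fin 5) : ℤ)) := s w
  have hu : a • u = 0 := by
    show a • s w = 0
    rw [← map_smul, ha, map_zero]
  have hy : winPi M ((3 : Fin 5) : ℤ) u.1 = v0 :=
    congrArg Prod.fst (LinearMap.congr_fun hs w)
  have hy0 : b • u.1 = 0 := congrArg Prod.fst hu
  have h3 := congrArg (fun w : FMod M ((3 : Fin 5) : ℤ) => CE.raw (Win.comp w 3) 0) hy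
  have hm := (mem_freeG _).1 (Win.comp_mem u.1 (3 : Fin 5)) (0 : Fin (0 + 1))
  rw [sub_self] at hm
  have hbz : (Win.comp u.1 (3 : Fin 5) (0 : Fin (0 + 1))).b = 0 :=
    Lam.gr_eq_bot (Or.inl (by norm_num)) hm.2
  have hcap : (fun t : Fin (0 + 1) => (Win.comp u.1 (3 : Fin 5) t).b) = 0 := funext fun t => by
    rw [Fin.fin_one_eq_zero t]; exact hbz
  have ha1 : (Win.comp u.1 (3 : Fin 5) (0 : Fin (0 + 1))).a = 1 := by
    simp only [winPi, Win.comp_map] at h3
    rw [resPi_apply, hcap, map_zero, add_zero] at h3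
    simpa [v0] using h3
  have h4 := congrFun (congrArg (Win.ev ((4 : Fin 5) : ℤ)) hy0) (0 : Fin (0 + 1))
  rw [show b = sg ((4 : Fin 5) : ℤ) ((3 : Fin 5) : ℤ) Dal.tau from rfl,
    Win.ev_sg ⟨by omega, by omega⟩ htau, Win.ev_zero, Win.ev_nat] at h4
  have h5 := congrArg Dal.b h4
  simp only [Pi.smul_apply, smul_eq_mul, Dal.mul_snd, Pi.zero_apply, Dal.zero_snd, ha1, hbz] at h5
  simp [Dal.tau, Lam.sigma_one] at h5
  have := congrArg (fun y : Lam => y 0) h5
  simp [Lam.one_def, Lam.mon_apply] at this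

theorem base : PdLT tw.Alg (Twist.Res tw (Fn 0)) 5 ∧ ¬ PdLT tw.Alg (Twist.Res tw (Fn 0)) 4 := by
  let M := symRep 0 0
  have hF : tw.Inj (Fn 0) := inj_of_nil lowerTriv
  have := subsingleton_nil
  have hX : Subsingleton (tw.X (Fn 0)) := (cokEquiv lowerTriv).symm.toEquiv.subsingleton
  have hX' : Subsingleton (Twist.Res tw (tw.X (Fn 0))) := hX
  have hX0 : ∀ n, PdLT tw.Alg (Twist.Res tw (tw.X (Fn 0))) n := fun n => PdLT.of_subsingleton n
  have hInd : PdLT tw.Alg (tw.Ind (Fn 0)) 5 := by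
    have := projective_ind_PMod (ι := Fin (0 + 1)) (0 : Fin 5)
    exact pdLT_right
      (Twist.ind_exact_right (T := tw) (winJ_injective M ((0 : Fin 5) : ℤ)) (winPi_surjective M _)
        (win_exact M _))
      (Twist.ind_injective_of_inj (T := tw) (winJ_injective M _) (winPi_surjective M _)
        (win_exact M _) (inj_PMod inj_Bal (0 : Fin 5)) hF)
      (Twist.ind_surjective (T := tw) (winPi_surjective M _)) (pd_ind_shift M 4 _ rfl le_rfl)
      (PdLT.of_projective.mono (by omega))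
  refine ⟨pdLT_right tw.exact_incl_proj tw.inclX_injective tw.projRes_surjective (hX0 4) hInd,
    fun h => not_projective_three ?_⟩
  have h0 : PdLT tw.Alg (tw.Ind (Fn 0)) 4 :=
    pdLT_mid tw.exact_incl_proj tw.inclX_injective tw.projRes_surjective (hX0 4) h
  have h1 : PdLT tw.Alg (tw.Ind (FMod M ((1 : Fin 5) : ℤ))) 3 :=
    descend M (by omega) (0 : Fin 5) hF h0
  have h2 : PdLT tw.Alg (tw.Ind (FMod M ((2 : Fin 5) : ℤ))) 2 :=
    descend M (by omega) (1 : Fin 5) (inj_shift M (0 : Fin 5)) h1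
  have h3 : PdLT tw.Alg (tw.Ind (FMod M ((3 : Fin 5) : ℤ))) 1 :=
    descend M (by omega) (2 : Fin 5) (inj_shift M (1 : Fin 5)) h2
  exact h3.projective

theorem pd_Fn : ∀ n : ℕ, PdLT tw.Alg (Twist.Res tw (Fn n)) (2 * n + 5) ∧
    ¬ PdLT tw.Alg (Twist.Res tw (Fn n)) (2 * n + 4)
  | 0 => base
  | n + 1 => by
    obtain ⟨ih, ih'⟩ := pd_Fn n
    let M := symRep (n + 1) 0
    let W := lowerSym n
    let eX := tw.resEquiv (cokEquiv W)
    have := projective_ind_PMod (ι := Fin (n + 1 + 1)) (0 : Fin 5)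
    have h := Twist.step (T := tw) (winJ_injective M ((0 : Fin 5) : ℤ)) (winPi_surjective M _)
      (win_exact M _) (inj_PMod inj_Bal (0 : Fin 5)) ((kerEquiv W).symm.trans (cokEquiv W))
      (c := 4) (m := 2 * n + 4) (pd_ind_shift M 4 _ rfl le_rfl) (by omega) (by omega)
      (PdLT.of_equiv eX ih) (fun g => ih' (PdLT.of_equiv eX.symm g))
    exact h

end

end Vale.Agent.P176
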