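import Mathlib.Data.Matrix.Mul
import Mathlib.Algebra.BigOperators.Fin
import Mathlib.Data.Fintype.Pi

/-!
Integer tables for the exterior algebra on four generators, indexed by bit masks, and the
finitely many identities between them. Generators `0, 1, 2, 3` are dual to `E11, E12, E21, E22`.
-/

namespace Vale.Agent.P176.Tab

/-- Whether bit `i` is set. -/
def bit (s : Fin 16) (i : Fin 4) : Bool := s.val.testBit i.val

/-- Number of set bits. -/
def pc (s : Fin 16) : ℕ :=
  (if bit s 0 then 1 else 0) + (if bit s 1 then 1 else 0) + (if bit s 2 then 1 else 0) +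
    (if bit s 3 then 1 else 0)

/-- The parity sign. -/
def par (s : Fin 16) : ℤ := if pc s % 2 = 0 then 1 else -1

/-- Set union. -/
def un (s t : Fin 16) : Fin 16 := ⟨(s.val ||| t.val) % 16, Nat.mod_lt _ (by omega)⟩

/-- Symmetric difference. -/
def sd (s t : Fin 16) : Fin 16 := ⟨(s.val ^^^ t.val) % 16, Nat.mod_lt _ (by omega)⟩

/-- The singleton of `i`. -/
def one4 (i : Fin 4) : Fin 16 := ⟨2 ^ i.val % 16, Nat.mod_lt _ (by omega)⟩

/-- Number of elements of `s` greater than `i`. -/
def above (s : Fin 16) (i : Fin 4) : ℕ := Nat.succ i.val |> fun j =>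
  (if j ≤ 0 && bit s 0 then 1 else 0) + (if j ≤ 1 && bit s 1 then 1 else 0) +
    (if j ≤ 2 && bit s 2 then 1 else 0) + (if j ≤ 3 && bit s 3 then 1 else 0)

/-- Sign of the product of two basis monomials, zero if they overlap. -/
def sgn (s t : Fin 16) : ℤ :=
  if s.val &&& t.val = 0 then
    if ((if bit t 0 then above s 0 else 0) + (if bit t 1 then above s 1 else 0) +
      (if bit t 2 then above s 2 else 0) + (if bit t 3 then above s 3 else 0)) % 2 = 0 then 1 else -1
  else 0

/-- Coefficient used to multiply: the product at `u` takes `t` from the right factor. -/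
def cc (u t : Fin 16) : ℤ := if u.val &&& t.val = t.val then sgn (sd u t) t else 0

/-- Coefficient of `u` in the derivation applied to `s`. -/
def dC (s u : Fin 16) : ℤ :=
  match s.val, u.val with
  | 1, 6 => -1 | 2, 3 => -1 | 2, 10 => -1 | 3, 11 => 1 | 4, 5 => 1 | 4, 12 => 1
  | 5, 13 => -1 | 8, 6 => 1 | 9, 14 => -1 | 9, 7 => -1 | 10, 11 => -1 | 12, 13 => 1
  | _, _ => 0

/-- Coefficient of `u` in the contraction by `a` applied to `s`. -/
def iC (a : Fin 4) (s u : Fin 16) : ℤ :=
  if bit u a then 0 else if s = un u (one4 a) then sgn (one4 a) u else 0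

/-- The pair of indices of a generator. -/
def rowOf (a : Fin 4) : Fin 2 := if a.val < 2 then 0 else 1

/-- The pair of indices of a generator. -/
def colOf (a : Fin 4) : Fin 2 := if a.val % 2 = 0 then 0 else 1

/-- The twisting representation. -/
def sig (a : Fin 4) (i j : Fin 2) : ℤ :=
  (if i = rowOf a ∧ j = colOf a then 1 else 0) - (if rowOf a = colOf a ∧ i = j then 1 else 0)

/-- The linear part of the intertwiner. -/
def gm (a : Fin 4) (i j : Fin 2) : ℤ := if i = colOf a ∧ j = rowOf a then 1 else 0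

theorem pc_le : ∀ s : Fin 16, pc s ≤ 4 := by decide +kernel

theorem prod_mon : ∀ s t u : Fin 16,
    (if sd u t = s then cc u t else 0) = if u = un s t then sgn s t else 0 := by decide +kernel

theorem sgn_assoc : ∀ s t u : Fin 16,
    sgn s t * sgn (un s t) u = sgn t u * sgn s (un t u) := by decide +kernel

theorem un_assoc : ∀ s t u : Fin 16, un (un s t) u = un s (un t u) := by decide +kernel

theorem sgn_zero : ∀ s : Fin 16,
    sgn 0 s = 1 ∧ sgn s 0 = 1 ∧ un 0 s = s ∧ un s 0 = s := by decide +kernel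

theorem par_mul : ∀ s t : Fin 16, sgn s t ≠ 0 → par (un s t) = par s * par t := by decide +kernel

theorem pc_mul : ∀ s t : Fin 16, sgn s t ≠ 0 → pc (un s t) = pc s + pc t := by decide +kernel

theorem d_pc : ∀ s u : Fin 16, dC s u ≠ 0 → pc u = pc s + 1 := by decide +kernel

theorem i_pc : ∀ a : Fin 4, ∀ s u : Fin 16, iC a s u ≠ 0 → pc u + 1 = pc s := by decide +kernel

theorem d_mul : ∀ s t u : Fin 16,
    sgn s t * dC (un s t) u =
      cc u t * dC s (sd u t) + par s * (sgn s (sd u s) * (if u.val &&& s.val = s.val then 1 else 0) *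
        dC t (sd u s)) := by decide +kernel

theorem i_mul : ∀ a : Fin 4, ∀ s t u : Fin 16,
    sgn s t * iC a (un s t) u =
      cc u t * iC a s (sd u t) + par s * (sgn s (sd u s) * (if u.val &&& s.val = s.val then 1 else 0) *
        iC a t (sd u s)) := by decide +kernel

theorem d_sq : ∀ s u : Fin 16, ∑ r : Fin 16, dC s r * dC r u = 0 := by decide +kernel

theorem super_comm : ∀ s : Fin 16, ∀ b : Fin 4,
    sgn (one4 b) s = par s * sgn s (one4 b) ∧ un (one4 b) s = un s (one4 b) := by decide +kernel

theorem lie : ∀ i j : Fin 2, ∀ s u : Fin 16,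
    (∑ a : Fin 4, gm a i j * ∑ r : Fin 16, (dC s r * iC a r u + iC a s r * dC r u)) =
      ∑ a : Fin 4, ∑ b : Fin 4, ((gm a i 0 * sig b 0 j + gm a i 1 * sig b 1 j) -
        (sig b i 0 * gm a 0 j + sig b i 1 * gm a 1 j)) *
          (cc u (sd u (one4 b)) * (if u.val &&& (one4 b).val = (one4 b).val then 1 else 0) *
            iC a s (sd u (one4 b))) := by decide +kernel

theorem d_rep : ∀ i j : Fin 2, ∀ u : Fin 16,
    (∑ a : Fin 4, sig a i j * dC (one4 a) u) +
      ∑ a : Fin 4, ∑ b : Fin 4, (sig a i 0 * sig b 0 j + sig a i 1 * sig b 1 j) *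
        (if u = un (one4 a) (one4 b) then sgn (one4 a) (one4 b) else 0) = 0 := by decide +kernel

end Vale.Agent.P176.Tab
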